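import Vale.Agent.P154.End.Semi.Main
import Vale.Agent.P154.End.SmallGW
import Vale.Agent.P154.Gw.Parts

/-!
# The Poisson threshold from a checked flow certificate
-/

namespace Vale.Agent.P154.Q3.End.Semi

open Filter Topology

/-- Excluding the times `[60, 4950]` on valid templates gives the threshold on Poisson trees for
every mean and every eigenvalue. -/
theorem gw_iff_of_excluded {T : List Tpl} (hT : ∀ k < T.length, (tpl T k).Valid)
    (hX : Excluded T Box.root 60 4950) {d lam : ℝ} (hd : 0 < d) (h0 : -1 / 2 ≤ lam) (h1 : lam ≤ 1) :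
    (Tendsto (aPoisson 3 d lam) atTop (𝓝 0) ↔ d * lam ^ 2 ≤ 1) ∧
      (1 < d * lam ^ 2 → ∃ c > 0, ∀ n, c ≤ aPoisson 3 d lam n) := by
  refine gw_iff_of_parts (fun μ m0 m1 _ _ P R A B hP hR hA hB hPM => ?_)
    (fun δ ρ α β h hδ => scaled_small h hδ) hd h0 h1
  by_contra hP6
  refine flow_excludes hT hX m0 m1 (div_mul_cancel₀ _ (pow_ne_zero 2 m1.ne))
    (m := ![P, R, A, B]) (fun i => ?_) ?_ ?_ ?_
  · fin_cases i
    exacts [hP, hR, hA, hB]
  all_goals norm_num [TD] at hP6 ⊢
  all_goals linarith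

end Vale.Agent.P154.Q3.End.Semi
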