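import Vale.Agent.P154.End.Semi.Sym

/-!
# The average of the polynomial node majorant

The majorant is a polynomial in `3 u`, `9 V`, `27 C`. It is expanded in the three likelihoods, the
terms are grouped by the sorted exponent, and the sum over relabellings becomes a table in the
invariants of the node and of the child.
-/

namespace Vale.Agent.P154.Q3.End.Semi

open scoped BigOperators

/-- Constant polynomial. -/
def const3 (c : ℤ) : P3v := [[[c]]]
/-- Product with the first variable. -/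
def mulX (p : P3v) : P3v := o2.shift 1 p
/-- Product with the second variable. -/
def mulM (p : P3v) : P3v := p.map (o1.shift 1)
/-- Product with the third variable. -/
def mulZ (p : P3v) : P3v := p.map fun q => q.map (o0.shift 1)
/-- Product with `a x + b y + c z + k`. -/
def mulAff (a b c k : ℤ) (p : P3v) : P3v :=
  o3.add (o3.add (o3.scale a (mulX p)) (o3.scale b (mulM p)))
    (o3.add (o3.scale c (mulZ p)) (o3.scale k p))
/-- Product with `3 u`. -/
def mulU (p : P3v) : P3v := mulAff 1 1 1 (-3) p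
/-- Product with `9 V`. -/
def mulV (p : P3v) : P3v :=
  o3.scale 6 (o3.add (mulX (mulAff 1 (-1) 0 0 p))
    (o3.add (mulM (mulAff 0 1 (-1) 0 p)) (mulZ (mulAff (-1) 0 1 0 p))))
/-- Product with `27 C`. -/
def mulC (p : P3v) : P3v :=
  o3.scale 3 (mulAff 2 (-1) (-1) 0 (mulAff (-1) 2 (-1) 0 (mulAff (-1) (-1) 2 0 p)))

/-- Expansion of a polynomial in `27 C`, `9 V`, `3 u`, outer variable first. -/
def expand (g : P3v) : P3v := horner o3 mulC (horner o3 mulV (horner o3 mulU const3)) g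

/-- Terms of a polynomial in one variable. -/
def terms1 (a b : ℕ) : ℕ → P1 → List (Exp3 × ℤ)
  | _, [] => []
  | c, x :: xs => ((a, b, c), x) :: terms1 a b (c + 1) xs
/-- Terms of a polynomial in two variables. -/
def terms2 (a : ℕ) : ℕ → P2v → List (Exp3 × ℤ)
  | _, [] => []
  | b, r :: rs => terms1 a b 0 r ++ terms2 a (b + 1) rs
/-- Terms of a polynomial in three variables. -/
def terms3 : ℕ → P3v → List (Exp3 × ℤ)
  | _, [] => []
  | a, q :: qs => terms2 a 0 q ++ terms3 (a + 1) qs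

/-- Degree of a monomial. -/
def deg3 (a : Exp3) : ℕ := a.1 + a.2.1 + a.2.2

/-- Equality of exponents, component by component. -/
def keyEq (a b : Exp3) : Bool :=
  Nat.beq a.1 b.1 && Nat.beq a.2.1 b.2.1 && Nat.beq a.2.2 b.2.2

theorem keyEq_eq {a b : Exp3} (h : keyEq a b = true) : a = b := by
  simp only [keyEq, Bool.and_eq_true] at h
  exact Prod.ext (Nat.eq_of_beq_eq_true h.1.1)
    (Prod.ext (Nat.eq_of_beq_eq_true h.1.2) (Nat.eq_of_beq_eq_true h.2))

/-- Add a coefficient under a key. -/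
def addKey (k : Exp3) (c : ℤ) : List (Exp3 × ℤ) → List (Exp3 × ℤ)
  | [] => [(k, c)]
  | p :: ps => bif keyEq p.1 k then (p.1, Int.add p.2 c) :: ps else p :: addKey k c ps

/-- Terms grouped by the sorted exponent, weighted for the scale of the child. -/
def grouped (N : ℕ) : List (Exp3 × ℤ) → List (Exp3 × ℤ)
  | [] => []
  | p :: ps => addKey (symKey p.1) (Int.mul p.2 (Int.ofNat (2 ^ (N - deg3 p.1)))) (grouped N ps)

/-- Elementary functions of `1 + r_i`. -/
def elemA : Elem := ⟨3, [[3], [-3]], [[1, 2], [-3]]⟩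
/-- Elementary functions of `2 (1 + e_i) = 2 - r_i`. -/
def elemE : Elem := ⟨6, [[12], [-3]], [[8, -2], [-6]]⟩

/-- The table of the average. -/
def avgTable : List (Exp3 × ℤ) → List (List P2v)
  | [] => []
  | p :: ps =>
    o4.add ((symT elemA p.1).map fun row => row.map fun c =>
      o2.scale (Int.mul p.2 c) (symT elemE p.1)) (avgTable ps)

/-- The average table of a majorant. -/
def avgOf (N : ℕ) (g : P3v) : List (List P2v) := avgTable (grouped N (terms3 0 (expand g)))

/-- All degrees are at most `N`. -/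
def degLe (N : ℕ) (g : P3v) : Bool := (terms3 0 (expand g)).all fun p => decide (deg3 p.1 ≤ N)

theorem ev3_mulX (x y z : ℝ) (p : P3v) : ev3 x y z (mulX p) = x * ev3 x y z p := by
  rw [mulX, ev3, gev_shift (ok2 y z), ev3, pow_one]

theorem ev3_mulM (x y z : ℝ) (p : P3v) : ev3 x y z (mulM p) = y * ev3 x y z p :=
  gev_map (fun q => by rw [ev2, gev_shift (ok1 z), ev2, pow_one]) x p

theorem ev3_mulZ (x y z : ℝ) (p : P3v) : ev3 x y z (mulZ p) = z * ev3 x y z p :=
  gev_map (fun q => gev_map (fun r => by rw [ev1, gev_shift ok0, ev1, pow_one]) y q) x p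

theorem ev3_mulAff (a b c k : ℤ) (x y z : ℝ) (p : P3v) :
    ev3 x y z (mulAff a b c k p) = (a * x + b * y + c * z + k) * ev3 x y z p := by
  have h := ok3 x y z
  simp only [mulAff, h.add, h.scale, ev3_mulX, ev3_mulM, ev3_mulZ]
  ring

theorem ev3_mulV (x y z : ℝ) (p : P3v) : ev3 x y z (mulV p) =
    6 * (x ^ 2 + y ^ 2 + z ^ 2 - x * y - y * z - z * x) * ev3 x y z p := by
  have h := ok3 x y z
  simp only [mulV, h.add, h.scale, ev3_mulX, ev3_mulM, ev3_mulZ, ev3_mulAff]
  push_cast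
  ring

theorem ev3_mulC (x y z : ℝ) (p : P3v) : ev3 x y z (mulC p) =
    3 * ((2 * x - y - z) * (2 * y - x - z) * (2 * z - x - y)) * ev3 x y z p := by
  simp only [mulC, (ok3 x y z).scale, ev3_mulAff]
  push_cast
  ring

/-- The value of a majorant at a likelihood vector. -/
def majVal (g : P3v) (v : Fin 3 → ℝ) : ℝ :=
  ev3 (3 * ((2 * v 0 - v 1 - v 2) * (2 * v 1 - v 0 - v 2) * (2 * v 2 - v 0 - v 1)))
    (6 * (v 0 ^ 2 + v 1 ^ 2 + v 2 ^ 2 - v 0 * v 1 - v 1 * v 2 - v 2 * v 0))
    (v 0 + v 1 + v 2 - 3) g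

theorem ev3_expand (g : P3v) (v : Fin 3 → ℝ) :
    ev3 (v 0) (v 1) (v 2) (expand g) = majVal g v := by
  have h := ok3 (v 0) (v 1) (v 2)
  have hc : ∀ c, ev3 (v 0) (v 1) (v 2) (const3 c) = ev0 c := fun c => by
    simp [const3, ev3, ev2, ev1, gev]
  rw [expand, horner_eq h (fun p => ev3_mulC _ _ _ p) fun q =>
    horner_eq h (fun p => ev3_mulV _ _ _ p) (fun r => horner_eq h
      (fun p => by rw [mulU, ev3_mulAff]) hc r) q]
  have e : ((1 : ℤ) : ℝ) * v 0 + ((1 : ℤ) : ℝ) * v 1 + ((1 : ℤ) : ℝ) * v 2 + ((-3 : ℤ) : ℝ) =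
      v 0 + v 1 + v 2 - 3 := by push_cast; ring
  rw [e]
  rfl

theorem majVal_perm (g : P3v) (v : Fin 3 → ℝ) (j : Fin 6) :
    majVal g (fun i => v (six j i)) = majVal g v := by
  fin_cases j <;> simp [majVal, six] <;> ring_nf

theorem sum_terms1 (a b : ℕ) (v : Fin 3 → ℝ) : ∀ (c : ℕ) (p : P1),
    ((terms1 a b c p).map fun t => (t.2 : ℝ) * monL t.1 v).sum =
      v 0 ^ a * v 1 ^ b * v 2 ^ c * ev1 (v 2) p
  | c, [] => by simp [terms1, ev1, gev]
  | c, x :: xs => by
    simp only [terms1, List.map_cons, List.sum_cons, sum_terms1 a b v (c + 1) xs]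
    simp only [monL, ev1, gev, ev0]
    ring

theorem sum_terms2 (a : ℕ) (v : Fin 3 → ℝ) : ∀ (b : ℕ) (p : P2v),
    ((terms2 a b p).map fun t => (t.2 : ℝ) * monL t.1 v).sum =
      v 0 ^ a * v 1 ^ b * ev2 (v 1) (v 2) p
  | b, [] => by simp [terms2, ev2, gev]
  | b, r :: rs => by
    simp only [terms2, List.map_append, List.sum_append, sum_terms1, sum_terms2 a v (b + 1) rs,
      ev2, gev]
    ring

theorem sum_terms3 (v : Fin 3 → ℝ) : ∀ (a : ℕ) (p : P3v),
    ((terms3 a p).map fun t => (t.2 : ℝ) * monL t.1 v).sum = v 0 ^ a * ev3 (v 0) (v 1) (v 2) p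
  | a, [] => by simp [terms3, ev3, gev]
  | a, r :: rs => by
    simp only [terms3, List.map_append, List.sum_append, sum_terms2, sum_terms3 v (a + 1) rs,
      ev3, gev]
    ring

theorem sum_addKey (F : Exp3 → ℝ) (k : Exp3) (c : ℤ) : ∀ ps : List (Exp3 × ℤ),
    ((addKey k c ps).map fun t => (t.2 : ℝ) * F t.1).sum =
      (c : ℝ) * F k + (ps.map fun t => (t.2 : ℝ) * F t.1).sum
  | [] => by simp [addKey]
  | p :: ps => by
    rw [addKey]
    cases h : keyEq p.1 k
    · simp only [cond_false, List.map_cons, List.sum_cons, sum_addKey F k c ps]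
      ring
    · simp only [cond_true, List.map_cons, List.sum_cons, Int.add_def, keyEq_eq h]
      push_cast
      ring

theorem sum_grouped (F : Exp3 → ℝ) (N : ℕ) : ∀ ps : List (Exp3 × ℤ),
    ((grouped N ps).map fun t => (t.2 : ℝ) * F t.1).sum =
      (ps.map fun t => (t.2 : ℝ) * 2 ^ (N - deg3 t.1) * F (symKey t.1)).sum
  | [] => rfl
  | p :: ps => by
    simp only [grouped, sum_addKey, List.map_cons, List.sum_cons, sum_grouped F N ps, Int.mul_def,
      Int.ofNat_eq_natCast]
    push_cast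
    ring

theorem ev4_outer (a b c d : ℝ) (k : ℤ) (A B : P2v) :
    ev4 a b c d (A.map fun row => row.map fun x => o2.scale (Int.mul k x) B) =
      k * (ev2 a b A * ev2 c d B) := by
  rw [ev4, gev_map_comp, gev_congr_mem (ev' := ev1 b) (k := (k : ℝ) * ev2 c d B) (fun row _ => ?_)]
  · rw [← ev2]; ring
  · rw [ev3, gev_map_comp]
    exact gev_congr_mem (fun x _ => by
      rw [(ok2 c d).scale, Int.mul_def, Int.cast_mul, ev0]; ring) b

theorem ev4_avgTable (a b c d : ℝ) : ∀ ps : List (Exp3 × ℤ),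
    ev4 a b c d (avgTable ps) =
      (ps.map fun t => (t.2 : ℝ) * (ev2 a b (symT elemA t.1) * ev2 c d (symT elemE t.1))).sum
  | [] => by simp [avgTable, ev4, gev]
  | p :: ps => by
    rw [avgTable, (ok4 a b c d).add, ev4_outer, ev4_avgTable a b c d ps, List.map_cons,
      List.sum_cons]

theorem elemA_spec {r : Fin 3 → ℝ} (hr : r 0 + r 1 + r 2 = 0) :
    elemA.Spec (P2 r / 6) (P3 r / 6) fun i => 1 + r i := by
  have h2 : r 2 = -r 0 - r 1 := by linarith
  refine ⟨?_, ?_, ?_⟩ <;>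
    simp [elemA, ev2, ev1, gev, ev0, P2, P3, h2] <;> ring

theorem elemE_spec {r : Fin 3 → ℝ} (hr : r 0 + r 1 + r 2 = 0) :
    elemE.Spec (P2 r / 6) (P3 r / 6) fun i => 2 - r i := by
  have h2 : r 2 = -r 0 - r 1 := by linarith
  refine ⟨?_, ?_, ?_⟩ <;>
    simp [elemE, ev2, ev1, gev, ev0, P2, P3, h2] <;> ring

/-- The sum of the majorant over the six relative positions of the child `-r' / 2`. -/
theorem avgOf_eq {N : ℕ} {g : P3v} (hN : degLe N g = true) {r r' : Fin 3 → ℝ}
    (hr : r 0 + r 1 + r 2 = 0) (hr' : r' 0 + r' 1 + r' 2 = 0) :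
    ev4 (P2 r / 6) (P3 r / 6) (P2 r' / 6) (P3 r' / 6) (avgOf N g) =
      6 * 2 ^ N * ∑ k, majVal g fun i => (1 + r i) * (1 - r' (six k i) / 2) := by
  simp only [degLe, List.all_eq_true, decide_eq_true_eq] at hN
  rw [avgOf, ev4_avgTable, sum_grouped (fun a => ev2 (P2 r / 6) (P3 r / 6) (symT elemA a) *
    ev2 (P2 r' / 6) (P3 r' / 6) (symT elemE a))]
  simp only [symT_eq (elemA_spec hr), symT_eq (elemE_spec hr')]
  set L := terms3 0 (expand g) with hL
  have hev : ∀ v : Fin 3 → ℝ, (L.map fun t => (t.2 : ℝ) * monL t.1 v).sum = majVal g v := fun v => by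
    rw [hL, sum_terms3, ev3_expand, pow_zero, one_mul]
  have hs := sum_six_products L (fun t => (t.2 : ℝ)) (fun t => t.1) (fun i => 1 + r i)
    (fun i => 1 - r' i / 2) (fun v j => by rw [hev, hev, majVal_perm])
  simp only [hev] at hs
  rw [mul_right_comm, hs, mul_comm, ← List.sum_map_mul_left]
  refine congrArg List.sum (List.map_congr_left fun t ht => ?_)
  have e : symSum (fun i => 2 - r' i) t.1 = 2 ^ deg3 t.1 * symSum (fun i => 1 - r' i / 2) t.1 := by
    simp only [symSum, Finset.mul_sum, monL, deg3]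
    refine Finset.sum_congr rfl fun k _ => ?_
    simp only [show ∀ i, 2 - r' i = 2 * (1 - r' i / 2) from fun i => by ring, mul_pow, pow_add]
    ring
  have hd : (2 : ℝ) ^ N = 2 ^ (N - deg3 t.1) * 2 ^ deg3 t.1 := by
    rw [← pow_add, Nat.sub_add_cancel (hN t ht)]
  rw [e, hd]
  ring

end Vale.Agent.P154.Q3.End.Semi
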