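import Vale.Agent.P154.End.Semi.Dense

/-!
# Combinations with tables, and evaluation before use

A combination of a coefficient list with a table of values `F X ^ i Y ^ j` evaluates the polynomial.
-/

namespace Vale.Agent.P154.Q3.End.Semi

/-- Weighted combination of a coefficient list with a table. -/
def comb {γ τ β : Type} (o : Ops β) (sc : γ → τ → β) : List γ → List τ → β
  | c :: cs, t :: ts => o.add (sc c t) (comb o sc cs ts)
  | _, _ => o.zero

/-- Combination with a table in two indices. -/
def comb2 {γ τ β : Type} (o : Ops β) (sc : γ → τ → β) : List (List γ) → List (List τ) → β :=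
  comb o (comb o sc)

/-- The coefficients fit into the table. -/
def fits {γ τ : Type} : List (List γ) → List (List τ) → Bool
  | [], _ => true
  | _ :: _, [] => false
  | r :: rs, t :: ts => decide (r.length ≤ t.length) && fits rs ts

/-- A table row takes the values `F Y ^ j`. -/
def RowSpec {τ : Type} (g : τ → ℝ) : ℝ → ℝ → List τ → Prop
  | _, _, [] => True
  | F, Y, t :: ts => g t = F ∧ RowSpec g (F * Y) Y ts

/-- A table takes the values `F X ^ i Y ^ j`. -/
def TblSpec {τ : Type} (g : τ → ℝ) : ℝ → ℝ → ℝ → List (List τ) → Prop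
  | _, _, _, [] => True
  | F, X, Y, r :: rs => RowSpec g F Y r ∧ TblSpec g (F * X) X Y rs

theorem comb_eval {γ τ β : Type} {o : Ops β} {ev : β → ℝ} (h : o.OK ev) {sc : γ → τ → β}
    {f : γ → ℝ} {g : τ → ℝ} (hs : ∀ c t, ev (sc c t) = f c * g t) {Y : ℝ} :
    ∀ (cs : List γ) (ts : List τ) (F : ℝ), RowSpec g F Y ts → cs.length ≤ ts.length →
      ev (comb o sc cs ts) = F * gev f cs Y
  | [], ts, F, _, _ => by simp [comb, gev, h.zero]
  | c :: cs, [], F, _, hl => absurd hl (by simp)
  | c :: cs, t :: ts, F, hr, hl => by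
    simp only [comb, gev, h.add, hs, comb_eval h hs cs ts _ hr.2 (Nat.le_of_succ_le_succ hl), hr.1]
    ring

theorem comb2_eval {γ τ β : Type} {o : Ops β} {ev : β → ℝ} (h : o.OK ev) {sc : γ → τ → β}
    {f : γ → ℝ} {g : τ → ℝ} (hs : ∀ c t, ev (sc c t) = f c * g t) {X Y : ℝ} :
    ∀ (cs : List (List γ)) (ts : List (List τ)) (F : ℝ), TblSpec g F X Y ts → fits cs ts = true →
      ev (comb2 o sc cs ts) = F * gev (fun r => gev f r Y) cs X
  | [], ts, F, _, _ => by simp [comb2, comb, gev, h.zero]
  | c :: cs, [], F, _, hl => absurd hl (by simp [fits])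
  | c :: cs, t :: ts, F, hr, hl => by
    simp only [fits, Bool.and_eq_true, decide_eq_true_eq] at hl
    have := comb2_eval h hs cs ts _ hr.2 hl.2
    simp only [comb2] at this
    simp only [comb2, comb, gev, h.add, comb_eval h hs c t F hr.1 hl.1, this]
    ring

theorem rowSpec_range {τ : Type} (g : τ → ℝ) (Y : ℝ) : ∀ (n : ℕ) (f : ℕ → τ) (F : ℝ),
    (∀ j < n, g (f j) = F * Y ^ j) → RowSpec g F Y ((List.range n).map f)
  | 0, f, F, _ => by simp [RowSpec]
  | n + 1, f, F, h => by
    rw [List.range_succ_eq_map, List.map_cons, List.map_map]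
    exact ⟨by simpa using h 0 (Nat.succ_pos n), rowSpec_range g Y n (f ∘ Nat.succ) (F * Y)
      fun j hj => by
        rw [Function.comp_apply, h (j + 1) (Nat.succ_lt_succ hj)]; ring⟩

theorem tblSpec_range {τ : Type} (g : τ → ℝ) (X Y : ℝ) :
    ∀ (n : ℕ) (r : ℕ → List τ) (F : ℝ), (∀ i < n, RowSpec g (F * X ^ i) Y (r i)) →
      TblSpec g F X Y ((List.range n).map r)
  | 0, r, F, _ => by simp [TblSpec]
  | n + 1, r, F, h => by
    rw [List.range_succ_eq_map, List.map_cons, List.map_map]
    refine ⟨by simpa using h 0 (Nat.succ_pos n), tblSpec_range g X Y n (r ∘ Nat.succ) (F * X)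
      fun i hi => ?_⟩
    have := h (i + 1) (Nat.succ_lt_succ hi)
    rwa [pow_succ, ← mul_assoc, mul_right_comm] at this

/-- Evaluate a natural number, then continue. -/
def thenN (n : ℕ) (k : ℕ → Bool) : Bool :=
  match n with
  | 0 => k 0
  | m + 1 => k (m + 1)

/-- Evaluate an integer, then continue. -/
def thenI (x : ℤ) (k : ℤ → Bool) : Bool :=
  match x with
  | .ofNat n => thenN n fun n => k (.ofNat n)
  | .negSucc n => thenN n fun n => k (.negSucc n)

/-- Evaluate a pair, then continue. -/
def thenP (x : ℤ × ℤ) (k : ℤ × ℤ → Bool) : Bool :=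
  thenI x.1 fun a => thenI x.2 fun b => k (a, b)

/-- Evaluate the entries of a list, then continue. -/
def thenL {α : Type} (f : α → (α → Bool) → Bool) : List α → (List α → Bool) → Bool
  | [], k => k []
  | x :: xs, k => f x fun y => thenL f xs fun ys => k (y :: ys)

theorem thenN_eq (n : ℕ) (k : ℕ → Bool) : thenN n k = k n := by cases n <;> rfl

theorem thenI_eq (x : ℤ) (k : ℤ → Bool) : thenI x k = k x := by
  cases x <;> simp only [thenI, thenN_eq]

theorem thenP_eq (x : ℤ × ℤ) (k : ℤ × ℤ → Bool) : thenP x k = k x := by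
  simp only [thenP, thenI_eq]

theorem thenL_eq {α : Type} {f : α → (α → Bool) → Bool} (hf : ∀ x k, f x k = k x) :
    ∀ (l : List α) (k : List α → Bool), thenL f l k = k l
  | [], k => rfl
  | x :: xs, k => by simp only [thenL, hf, thenL_eq hf xs]

end Vale.Agent.P154.Q3.End.Semi
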