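import Vale.Agent.P154.End.Semi.Flow
import Vale.Agent.P154.End.Semi.Comb

/-!
# Certificates for the flow of the moments on a box of child moments

A box of normalised child moments carries piecewise quadratic upper bounds for the template
combinations of the root moments. They are checked in the integers: on each segment the slope
exceeds, at the three Bernstein points, a nonnegative combination of the bounds.
-/

namespace Vale.Agent.P154.Q3.End.Semi

/-- The unit of the box coordinates. -/
def QQ : ℤ := 4096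
/-- The unit of the time. -/
def TD : ℤ := 1000
/-- The unit of the bounds. -/
def SS : ℤ := 100000
/-- The scale of the corners. -/
def ZZ : ℤ := 4 * QQ * QQ * QQ

/-- A template: weights of the four moments and a bilinear bound on their gain. -/
structure Tpl where
  y : List ℤ
  C0 : List ℤ
  C : List (List ℤ)

/-- An entry of an integer list. -/
def ent (l : List ℤ) (i : ℕ) : ℤ := l.getD i 0

/-- The `k`-th template. -/
def tpl (T : List Tpl) (k : ℕ) : Tpl := T.getD k ⟨[], [], []⟩

/-- Scalar product with four entries. -/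
def dot4 (l m : List ℤ) : ℤ :=
  ent l 0 * ent m 0 + ent l 1 * ent m 1 + ent l 2 * ent m 2 + ent l 3 * ent m 3

/-- A box of child moments `(1, ρ, α, β)`: `ρ` in `[r0, r1]`, `α / (3/2 (1/2 - ρ))` in `[l0, l1]`
and `β / α` in `[g0, g1]`, in units of `1 / QQ`. -/
structure Box where
  r0 : ℤ
  r1 : ℤ
  l0 : ℤ
  l1 : ℤ
  g0 : ℤ
  g1 : ℤ

/-- A corner, times `ZZ`. -/
def corner (r l g : ℤ) : List ℤ :=
  [ZZ, 4 * QQ * QQ * r, 3 * (QQ - 2 * r) * l * QQ, 3 * (QQ - 2 * r) * l * g]

/-- The eight corners. -/
def Box.corners (b : Box) : List (List ℤ) :=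
  [corner b.r0 b.l0 b.g0, corner b.r1 b.l0 b.g0, corner b.r0 b.l1 b.g0, corner b.r1 b.l1 b.g0,
   corner b.r0 b.l0 b.g1, corner b.r1 b.l0 b.g1, corner b.r0 b.l1 b.g1, corner b.r1 b.l1 b.g1]

/-- Four templates spanning the space, with the scaled inverse. -/
structure Bas where
  ids : List ℕ
  N : ℤ
  A : List (List ℤ)

/-- The inverse is correct. -/
def Bas.ok (T : List Tpl) (B : Bas) : Bool :=
  (List.range 4).all fun i => (List.range 4).all fun i' =>
    decide ((List.range 4).foldl
      (fun s p => s + ent (B.A.getD p []) i' * ent (tpl T (B.ids.getD p 0)).y i) 0 =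
      if i = i' then B.N else 0)

/-- A binary trie of bases. -/
inductive BT where
  | nil
  | leaf (b : Bas)
  | node (l r : BT)

/-- Look up. -/
def BT.get : BT → ℕ → Bas
  | .nil, _ => ⟨[], 0, []⟩
  | .leaf b, _ => b
  | .node l r, n => if n % 2 = 0 then l.get (n / 2) else r.get (n / 2)

/-- All bases are correct. -/
def BT.ok (T : List Tpl) : BT → Bool
  | .nil => true
  | .leaf b => b.ok T
  | .node l r => l.ok T && r.ok T

/-- The coefficient of the own bound added before a combination is sought. -/
def KAP : ℤ := 3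

/-- The right side of a differential inequality at one corner: `N` times it is the constant `N c`
plus a nonnegative combination of the bounds less `N KAP ZZ` times the own bound. -/
structure Row where
  c : ℤ
  N : ℤ
  terms : List (ℕ × ℤ)

/-- The row of the `k`-th template at a corner for a basis. -/
def mkRow (T : List Tpl) (k : ℕ) (cv : List ℤ) (B : Bas) : Row :=
  let t := tpl T k
  let g := (List.range 4).map fun i => dot4 (t.C.getD i []) cv + KAP * ZZ * ent t.y i
  ⟨dot4 t.C0 cv, B.N, (List.range 4).map fun p => (B.ids.getD p 0, dot4 (B.A.getD p []) g)⟩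

/-- A row may be used. -/
def Row.ok (R : Row) : Bool := decide (0 < R.N) && R.terms.all fun q => decide (0 ≤ q.2)

/-- The weighted sum of the bounds in a row. -/
def Row.sum (R : Row) (u : List ℤ) : ℤ :=
  (R.terms.map fun q => q.2 * ent u q.1).sum

/-- A segment: length, slopes at both ends, pieces where the magnetisation bound is below time,
and the templates of the seven basic directions. -/
structure Seg1 where
  hn : ℕ
  a : List ℤ
  e : List ℤ
  flags : ℕ
  ix : List ℕ

/-- The bound at the middle Bernstein point, times `2 TD`. -/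
def Seg1.mid (s : Seg1) (u : List ℤ) : List ℤ :=
  List.zipWith (fun x a => 2 * TD * x + s.hn * a) u s.a

/-- The bound at the end, times `2 TD`. -/
def Seg1.fin (s : Seg1) (u : List ℤ) : List ℤ :=
  List.zipWith (fun x ae => 2 * TD * x + s.hn * ae) u (List.zipWith (· + ·) s.a s.e)

/-- The bound handed on. -/
def Seg1.next (s : Seg1) (u : List ℤ) : List ℤ :=
  (s.fin u).map fun w => -((-w) / (2 * TD))

/-- The three inequalities of the `k`-th template at one corner. -/
def rowOK (k : ℕ) (a e : ℤ) (u w₁ w₂ : List ℤ) (R : Row) : Bool :=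
  let q := R.N * KAP * ZZ
  let c := R.N * SS * R.c
  decide (c + R.sum u - q * ent u k ≤ a * ZZ * R.N) &&
    decide (2 * TD * c + R.sum w₁ - q * ent w₁ k ≤ TD * (a + e) * ZZ * R.N) &&
      decide (2 * TD * c + R.sum w₂ - q * ent w₂ k ≤ 2 * TD * e * ZZ * R.N)

/-- The rows of one template are checked against a segment. -/
def segRows (s : Seg1) (u w₁ w₂ : List ℤ) : ℕ → List (List Row) → Bool
  | _, [] => true
  | k, rs :: rest =>
    rs.all (rowOK k (ent s.a k) (ent s.e k) u w₁ w₂) && segRows s u w₁ w₂ (k + 1) rest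

/-- A quadratic `c0 + c1 w + c2 w²` is at most `-m` on `[p/8, (p+1)/8]`, times `64`. -/
def quadLe (c0 c1 c2 : ℤ) (p : ℕ) (m : ℤ) : Bool :=
  decide (64 * c0 + 8 * c1 * p + c2 * p * p ≤ -m) &&
    decide (64 * c0 + 4 * c1 * (2 * p + 1) + c2 * p * (p + 1) ≤ -m) &&
      decide (64 * c0 + 8 * c1 * (p + 1) + c2 * (p + 1) * (p + 1) ≤ -m)

/-- `α` times the bound of template `k` is at most `β` times the time (less `m`) on a piece. -/
def pieceLe (s : Seg1) (t0 : ℕ) (u : List ℤ) (k : ℕ) (α β : ℤ) (p : ℕ) (m : ℤ) : Bool :=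
  quadLe (α * (2 * TD * ent u k) - β * (2 * t0))
    (α * (2 * s.hn * ent s.a k) - β * (2 * s.hn))
    (α * (s.hn * (ent s.e k - ent s.a k))) p m

/-- The template `k` is the unit `i` times the positive number `σ y`. -/
def unitOK (T : List Tpl) (k i : ℕ) (σ : ℤ) : Bool :=
  let y := (tpl T k).y
  decide (0 < σ * ent y i) &&
    (List.range 4).all fun j => decide (j = i) || decide (ent y j = 0)

/-- The magnetisation bound is below the time on a piece. -/
def belowTime (T : List Tpl) (s : Seg1) (t0 : ℕ) (u : List ℤ) (p : ℕ) : Bool :=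
  let k := s.ix.getD 0 0
  unitOK T k 0 1 && pieceLe s t0 u k 1 (ent (tpl T k).y 0 * SS) p 1

/-- The limit lies in the child box if its time is in a piece. -/
def inChild (T : List Tpl) (s : Seg1) (t0 : ℕ) (u : List ℤ) (p : ℕ) (b c : Box) : Bool :=
  let k := fun j => s.ix.getD j 0
  let N := fun j i => ent (tpl T (k j)).y i * SS
  (decide (c.r0 ≤ b.r0) || decide (c.r0 ≤ 0) && unitOK T (k 1) 1 1 &&
      pieceLe s t0 u (k 1) QQ (-2 * c.r0 * N 1 1) p 0) &&
  (decide (b.r1 ≤ c.r1) || decide (0 ≤ c.r1) && unitOK T (k 2) 1 (-1) &&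
      pieceLe s t0 u (k 2) QQ (-2 * c.r1 * N 2 1) p 0) &&
  decide (c.l0 ≤ b.l0) &&
  (decide (b.l1 ≤ c.l1) || decide (0 ≤ c.l1) && decide (2 * c.r1 ≤ QQ) && unitOK T (k 3) 2 1 &&
      pieceLe s t0 u (k 3) (QQ * QQ) (3 * c.l1 * (QQ - 2 * c.r1) * N 3 2) p 0) &&
  (decide (c.g0 ≤ b.g0) || decide (c.g0 ≤ 0) && decide (0 ≤ c.l0) && decide (2 * c.r1 ≤ QQ) &&
      unitOK T (k 5) 3 1 &&
      pieceLe s t0 u (k 5) (QQ * QQ * QQ) (-6 * c.g0 * c.l0 * (QQ - 2 * c.r1) * N 5 3) p 0) &&
  (decide (b.g1 ≤ c.g1) || decide (0 ≤ c.g1) && decide (0 ≤ c.l0) && decide (2 * c.r1 ≤ QQ) &&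
      unitOK T (k 6) 3 (-1) &&
      pieceLe s t0 u (k 6) (QQ * QQ * QQ) (-6 * c.g1 * c.l0 * (QQ - 2 * c.r1) * N 6 3) p 0)

/-- What is left after a node: nothing, or a child box on a range of times. -/
abbrev Exit := Option (Box × ℕ × ℕ)

/-- One piece of a segment is settled. -/
def pieceOK (T : List Tpl) (b : Box) (s0 s1 : ℕ) (ex : Exit) (s : Seg1) (t0 : ℕ) (u : List ℤ)
    (p : ℕ) : Bool :=
  let v0 := 8 * t0 + s.hn * p
  let v1 := v0 + s.hn
  decide (v1 < 8 * s0) || decide (8 * s1 < v0) ||
    if s.flags.testBit p then belowTime T s t0 u p else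
      match ex with
      | none => false
      | some (c, f0, f1) =>
        decide (8 * f0 ≤ max v0 (8 * s0)) && decide (min v1 (8 * s1) ≤ 8 * f1) &&
          inChild T s t0 u p b c

/-- Segments sharing their bases. -/
structure Grp where
  bases : List ℕ
  segs : List Seg1

/-- The rows of a group: the indices of the bases are packed in base `1024`. -/
def Grp.rows (T : List Tpl) (bt : BT) (b : Box) (g : Grp) : List (List Row) :=
  List.zipWith (fun k code => List.zipWith (fun v cv => mkRow T k cv (bt.get (code / 1024 ^ v % 1024)))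
    (List.range 8) b.corners) (List.range g.bases.length) g.bases

/-- A ray contradicts the bounds. -/
def rayOK (T : List Tpl) (u : List ℤ) (ray : List (ℕ × ℕ)) : Bool :=
  ((List.range 4).all fun i =>
      decide ((ray.map fun q => (q.2 : ℤ) * ent (tpl T q.1).y i).sum = 0)) &&
    decide ((ray.map fun q => (q.2 : ℤ) * ent u q.1).sum < 0) &&
      ray.all fun q => decide (q.1 < T.length)

/-- Forces an integer list. -/
def thenInts : List ℤ → (List ℤ → Bool) → Bool := thenL thenI

/-- Forces a row. -/
def thenRow (R : Row) (k : Row → Bool) : Bool :=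
  thenI R.c fun c => thenI R.N fun N =>
    thenL (fun q k' => thenI q.2 fun x => k' (q.1, x)) R.terms fun t => k ⟨c, N, t⟩

/-- The segments of a group, then the rest. -/
def segsOK (T : List Tpl) (b : Box) (s0 s1 : ℕ) (ex : Exit) (rows : List (List Row))
    (rest : ℕ → List ℤ → Bool) : List Seg1 → ℕ → List ℤ → Bool
  | [], t0, u => rest t0 u
  | s :: ss, t0, u =>
    decide (s.a.length = T.length) && decide (s.e.length = T.length) && decide (0 < s.hn) &&
      (thenInts (s.mid u) fun w₁ => thenInts (s.fin u) fun w₂ => segRows s u w₁ w₂ 0 rows) &&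
      ((List.range 8).all fun p => pieceOK T b s0 s1 ex s t0 u p) &&
      thenInts (s.next u) fun u' => segsOK T b s0 s1 ex rows rest ss (t0 + s.hn) u'

/-- The groups of a node, then the end: past the range, or a contradiction. -/
def grpsOK (T : List Tpl) (bt : BT) (b : Box) (s0 s1 : ℕ) (ex : Exit) (ray : List (ℕ × ℕ)) :
    List Grp → ℕ → List ℤ → Bool
  | [], t0, u => decide (s1 ≤ t0) || rayOK T u ray
  | g :: gs, t0, u =>
    decide (g.bases.length = T.length) && thenL (thenL thenRow) (g.rows T bt b) fun rows =>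
      (rows.all fun r => r.all Row.ok) &&
        segsOK T b s0 s1 ex rows (fun t u' => grpsOK T bt b s0 s1 ex ray gs t u') g.segs t0 u

/-- The tree of a certificate. -/
inductive Cert where
  | done (gs : List Grp) (ray : List (ℕ × ℕ))
  | narrow (gs : List Grp) (ray : List (ℕ × ℕ)) (c : Box) (f0 f1 : ℕ) (sub : Cert)
  | split (axis : ℕ) (m : ℤ) (lo hi : Cert)
  | empty

/-- The lower part of a box. -/
def Box.lower (b : Box) (axis : ℕ) (m : ℤ) : Box :=
  if axis = 0 then { b with r1 := m } else if axis = 1 then { b with l1 := m } else { b with g1 := m }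

/-- The upper part of a box. -/
def Box.upper (b : Box) (axis : ℕ) (m : ℤ) : Box :=
  if axis = 0 then { b with r0 := m } else if axis = 1 then { b with l0 := m } else { b with g0 := m }

/-- The check of a certificate on a box and a range of times. -/
def Cert.ok (T : List Tpl) (bt : BT) : Cert → Box → ℕ → ℕ → Bool
  | .done gs ray, b, s0, s1 => grpsOK T bt b s0 s1 none ray gs 0 (List.replicate T.length 0)
  | .narrow gs ray c f0 f1 sub, b, s0, s1 =>
    grpsOK T bt b s0 s1 (some (c, f0, f1)) ray gs 0 (List.replicate T.length 0) &&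
      sub.ok T bt c f0 f1
  | .empty, b, _, _ => decide (b.r1 < b.r0) || decide (b.l1 < b.l0) || decide (b.g1 < b.g0)
  | .split ax m l h, b, s0, s1 => l.ok T bt (b.lower ax m) s0 s1 && h.ok T bt (b.upper ax m) s0 s1

end Vale.Agent.P154.Q3.End.Semi
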