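import Vale.Agent.P154.End.Semi.BoxSound

/-!
# A faster evaluation of flow certificates

The same test as `Cert.ok` in natural numbers: signed numbers carry offsets, bases and templates are
converted once, corners are evaluated once per node, rows once per group, and the three
inequalities of a row share one packed number. The hot loops are written with recursors, which the
kernel runs quickly.
-/

namespace Vale.Agent.P154.Q3.End.Semi

/-- The offset of the bounds. -/
def BB : ℕ := 2 ^ 120

/-- The offset of the slopes. -/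
def OS : ℕ := 2 ^ 100

/-- The offset of the inverses. -/
def OA : ℕ := 2 ^ 100

/-- The offset of the gains at a corner. -/
def OG : ℕ := 2 ^ 100

/-- The offset of the templates. -/
def OC : ℕ := 2 ^ 40

/-- The offset of the corners. -/
def OV : ℕ := 2 ^ 60

/-- The width of a lane. -/
def LX : ℕ := 2 ^ 512

/-- The width of three lanes, in bits. -/
def L3 : ℕ := 1536

/-- The mask of three lanes. -/
def MK : ℕ := 2 ^ 1536 - 1

/-- The top bit of a lane. -/
def LH : ℕ := 2 ^ 511

/-- Three lanes. -/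
def pack3 (a b c : ℕ) : ℕ :=
  Nat.add (Nat.add a (Nat.mul b LX)) (Nat.mul c (Nat.mul LX LX))

/-- The top bits of the three lanes. -/
def H3 : ℕ := pack3 LH LH LH

/-- The weights of the constants in the three inequalities. -/
def K3 : ℕ := Nat.mul 100000 (pack3 1 2000 2000)

/-- The same, times the offset of the constants. -/
def KG3 : ℕ := Nat.mul OG K3

/-- Ones, times the offset of the bounds. -/
def BE3 : ℕ := Nat.mul BB (pack3 1 1 1)

/-- The offsets of the thresholds. -/
def MO3 : ℕ :=
  Nat.mul ZZ.toNat (pack3 (OS + 3 * BB) (2000 * OS + 3 * BB) (2000 * OS + 3 * BB))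

/-- Evaluate a natural number, then continue; by the recursor, which the kernel runs quickly. -/
noncomputable def tN (n : ℕ) (k : ℕ → Bool) : Bool :=
  Nat.rec (k 0) (fun m _ => k (Nat.add m 1)) n

/-- A number with an offset, if it lies in range. -/
noncomputable def offN (O : ℕ) (x : ℤ) (K : ℕ → Bool) : Bool :=
  Int.rec (fun n => Bool.rec false (tN (Nat.add O n) K) (Nat.ble n O))
    (fun n => Bool.rec false (tN (Nat.sub O (Nat.add n 1)) K) (Nat.ble (Nat.add n 1) O)) x

/-- A line of an inverse: the place of its template, the entries and the parts of their sum. -/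
structure PA where
  sh : ℕ
  a0 : ℕ
  a1 : ℕ
  a2 : ℕ
  a3 : ℕ
  P : ℕ
  M : ℕ

/-- A basis in natural numbers: the pivot with its packed multiples, and four lines. -/
structure PB where
  ok : Bool
  N : ℕ
  NM : ℕ
  NO : ℕ
  l0 : PA
  l1 : PA
  l2 : PA
  l3 : PA

/-- A trie of bases in natural numbers. -/
inductive BP where
  | nil
  | leaf (b : PB)
  | node (l r : BP)

/-- Look up. -/
noncomputable def BP.get : BP → ℕ → PB :=
  BP.rec (fun _ => ⟨false, 0, 0, 0, ⟨0, 0, 0, 0, 0, 0, 0⟩, ⟨0, 0, 0, 0, 0, 0, 0⟩,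
      ⟨0, 0, 0, 0, 0, 0, 0⟩, ⟨0, 0, 0, 0, 0, 0, 0⟩⟩)
    (fun b _ => b)
    (fun _ _ il ir n => Bool.rec (ir (Nat.div n 2)) (il (Nat.div n 2)) (Nat.beq (Nat.mod n 2) 0))

/-- One line, evaluated. -/
noncomputable def convA (lim i : ℕ) (a b c d : ℤ) (K : PA → Bool) : Bool :=
  offN OA a fun a' => offN OA b fun b' => offN OA c fun c' => offN OA d fun d' =>
  tN (Nat.add (Nat.add a' b') (Nat.add c' d')) fun s =>
  tN (Nat.mul OG (Nat.sub s (Nat.mul 4 OA))) fun P =>
  tN (Nat.mul OG (Nat.sub (Nat.mul 4 OA) s)) fun M =>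
  tN (Nat.mul L3 i) fun sh =>
    Bool.rec false (K ⟨sh, a', b', c', d', P, M⟩) (Nat.ble (Nat.add sh 1) lim)

/-- One basis, evaluated; `lim` is the place after the last template. -/
noncomputable def convB (lim : ℕ) (B : Bas) (K : PB → Bool) : Bool :=
  match B.ids, B.A with
  | [i0, i1, i2, i3], [[a00, a01, a02, a03], [a10, a11, a12, a13], [a20, a21, a22, a23],
      [a30, a31, a32, a33]] =>
    tN B.N.toNat fun N => tN (Nat.mul N MO3) fun NM => tN (Nat.mul N KG3) fun NO =>
    convA lim i0 a00 a01 a02 a03 fun l0 => convA lim i1 a10 a11 a12 a13 fun l1 =>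
    convA lim i2 a20 a21 a22 a23 fun l2 => convA lim i3 a30 a31 a32 a33 fun l3 =>
      Bool.rec (K ⟨false, N, NM, NO, l0, l1, l2, l3⟩) (K ⟨true, N, NM, NO, l0, l1, l2, l3⟩)
        (Nat.ble 1 N && Nat.ble N (2 ^ 128))
  | _, _ => false

/-- All bases, evaluated. -/
noncomputable def convT (lim : ℕ) : BT → (BP → Bool) → Bool
  | .nil, K => K .nil
  | .leaf b, K => convB lim b fun b' => K (.leaf b')
  | .node l r, K => convT lim l fun l' => convT lim r fun r' => K (.node l' r')

/-- An affine form in the coordinates of a corner: offset coefficients and the constant that makes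
the offsets exact. -/
structure TL where
  c0 : ℕ
  c1 : ℕ
  c2 : ℕ
  c3 : ℕ
  K : ℕ

/-- A template in natural numbers: the four gains and the constant. -/
structure TF where
  g0 : TL
  g1 : TL
  g2 : TL
  g3 : TL
  c : TL

/-- A form, evaluated; `y` is added to the first coefficient. -/
noncomputable def convL (y : ℤ) (l : List ℤ) (K : TL → Bool) : Bool :=
  match l with
  | [a, b, c, d] =>
    offN OC (a + y) fun c0 => offN OC b fun c1 => offN OC c fun c2 => offN OC d fun c3 =>
    offN OG (-(OV * (a + y + b + c + d))) fun k => K ⟨c0, c1, c2, c3, k⟩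
  | _ => false

/-- A template, evaluated. -/
noncomputable def convTpl (t : Tpl) (K : TF → Bool) : Bool :=
  match t.y, t.C with
  | [y0, y1, y2, y3], [r0, r1, r2, r3] =>
    convL (KAP * y0) r0 fun g0 => convL (KAP * y1) r1 fun g1 => convL (KAP * y2) r2 fun g2 =>
    convL (KAP * y3) r3 fun g3 => convL 0 t.C0 fun c => K ⟨g0, g1, g2, g3, c⟩
  | _, _ => false

/-- All templates, evaluated. -/
noncomputable def convTs : List Tpl → (List TF → Bool) → Bool
  | [], K => K []
  | t :: ts, K => convTpl t fun t' => convTs ts fun r => K (t' :: r)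

/-- A corner with offsets, and the scaled sum that makes them exact. -/
structure CV where
  v0 : ℕ
  v1 : ℕ
  v2 : ℕ
  v3 : ℕ
  S : ℕ

/-- A corner, evaluated. -/
noncomputable def convC : List ℤ → (CV → Bool) → Bool
  | [a, b, c, d], K => offN OV a fun v0 => offN OV b fun v1 => offN OV c fun v2 => offN OV d fun v3 =>
      tN (Nat.mul OC (Nat.add (Nat.add v0 v1) (Nat.add v2 v3))) fun S => K ⟨v0, v1, v2, v3, S⟩
  | _, _ => false

/-- All corners, evaluated. -/
noncomputable def convCs : List (List ℤ) → (List CV → Bool) → Bool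
  | [], K => K []
  | c :: cs, K => convC c fun c' => convCs cs fun r => K (c' :: r)

/-- A form at a corner, with the offset `OG`, if it is not too large. -/
noncomputable def evalL (L : TL) (v : CV) (K : ℕ → Bool) : Bool :=
  tN (Nat.add (Nat.add (Nat.add (Nat.mul L.c0 v.v0) (Nat.mul L.c1 v.v1))
    (Nat.add (Nat.mul L.c2 v.v2) (Nat.mul L.c3 v.v3))) L.K) fun s =>
  Bool.rec false (tN (Nat.sub s v.S) fun g => Bool.rec false (K g) (Nat.ble g (Nat.mul 2 OG)))
    (Nat.ble v.S s)

/-- A template at a corner: the gains with offsets, their scaled sum and the packed constant. -/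
structure GV where
  g0 : ℕ
  g1 : ℕ
  g2 : ℕ
  g3 : ℕ
  GS : ℕ
  c : ℕ

/-- A template at a corner, evaluated. -/
noncomputable def mkG (t : TF) (v : CV) (K : GV → Bool) : Bool :=
  evalL t.g0 v fun g0 => evalL t.g1 v fun g1 => evalL t.g2 v fun g2 => evalL t.g3 v fun g3 =>
  evalL t.c v fun c =>
  tN (Nat.mul OA (Nat.add (Nat.add g0 g1) (Nat.add g2 g3))) fun GS =>
  tN (Nat.mul c K3) fun cK => K ⟨g0, g1, g2, g3, GS, cK⟩

/-- A template at all corners. -/
noncomputable def colG (t : TF) : List CV → (List GV → Bool) → Bool :=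
  List.rec (fun K => K []) fun v _ ih K => mkG t v fun G => ih fun r => K (G :: r)

/-- All templates at all corners. -/
noncomputable def allG (cs : List CV) : List TF → (List (List GV) → Bool) → Bool :=
  List.rec (fun K => K []) fun t _ ih K => colG t cs fun r => ih fun rr => K (r :: rr)

/-- A row in natural numbers: places, weights and the packed offsets of both sides. -/
structure PRow where
  s0 : ℕ
  s1 : ℕ
  s2 : ℕ
  s3 : ℕ
  k0 : ℕ
  k1 : ℕ
  k2 : ℕ
  k3 : ℕ
  N : ℕ
  r : ℕ
  o : ℕ

/-- The sum that carries a weight on its positive side. -/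
noncomputable def dotS (l : PA) (G : GV) : ℕ :=
  Nat.add (Nat.add (Nat.add (Nat.mul l.a0 G.g0) (Nat.mul l.a1 G.g1))
    (Nat.add (Nat.mul l.a2 G.g2) (Nat.mul l.a3 G.g3))) l.M

/-- A weight, if it is nonnegative. -/
noncomputable def dotN (l : PA) (G : GV) (K : ℕ → Bool) : Bool :=
  tN (dotS l G) fun S => Bool.rec false (tN (Nat.sub S (Nat.add G.GS l.P)) K)
    (Nat.ble (Nat.add G.GS l.P) S)

/-- The row of a template at a corner. -/
noncomputable def mkP (B : PB) (G : GV) (K : PRow → Bool) : Bool :=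
  dotN B.l0 G fun k0 => dotN B.l1 G fun k1 => dotN B.l2 G fun k2 => dotN B.l3 G fun k3 =>
  tN (Nat.add (Nat.add k0 k1) (Nat.add k2 k3)) fun ks =>
  B.ok && Nat.ble ks (2 ^ 256) &&
    (tN (Nat.add B.NM (Nat.mul B.N G.c)) fun r => tN (Nat.add B.NO (Nat.mul ks BE3)) fun o =>
      K ⟨B.l0.sh, B.l1.sh, B.l2.sh, B.l3.sh, k0, k1, k2, k3, B.N, r, o⟩)

/-- The rows of one template at the corners. -/
noncomputable def colP (bp : BP) : List GV → ℕ → (List PRow → Bool) → Bool :=
  List.rec (fun _ K => K []) fun G _ ih code K =>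
    mkP (bp.get (Nat.mod code 1024)) G fun P => ih (Nat.div code 1024) fun rs => K (P :: rs)

/-- The rows of all templates. -/
noncomputable def rowsP (bp : BP) : List (List GV) → List ℕ → (List (List PRow) → Bool) → Bool :=
  List.rec (fun _ K => K []) fun g _ ih cd K =>
    List.rec (K []) (fun code cd' _ => colP bp g code fun r => ih cd' fun rr => K (r :: rr)) cd

/-- The bounds of one template on a segment and its thresholds, both packed. `c1` and `c2` are the
offsets to remove. -/
noncomputable def wmN (hn c1 c2 : ℕ) (a e u : ℤ) (K : ℕ → ℕ → Bool) : Bool :=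
  offN BB u fun x => offN OS a fun a' => offN OS e fun e' =>
  tN (Nat.add (Nat.mul 2000 x) (Nat.mul hn a')) fun t =>
  Nat.ble c1 t && (tN (Nat.sub t c1) fun y => Nat.ble y (Nat.mul 2 BB) &&
  (tN (Nat.add y (Nat.mul hn e')) fun t' =>
  Nat.ble c2 t' && (tN (Nat.sub t' c2) fun z => Nat.ble z (Nat.mul 2 BB) &&
  (tN (pack3 x y z) fun W =>
  tN (Nat.mul 274877906944 (Nat.add (Nat.mul 3 W)
    (pack3 a' (Nat.mul 1000 (Nat.add a' e')) (Nat.mul 2000 e')))) fun M => K W M))))

/-- All templates on a segment: the bounds side by side, and the thresholds. -/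
noncomputable def allWM (hn c1 c2 : ℕ) : List ℤ → List ℤ → List ℤ → (ℕ → List ℕ → Bool) → Bool :=
  List.rec (fun _ _ K => K 0 []) fun a _ ih es us K =>
    List.rec (K 0 []) (fun e es' _ => List.rec (K 0 []) (fun u us' _ =>
      wmN hn c1 c2 a e u fun W M => ih es' us' fun U Ms =>
        tN (Nat.add W (Nat.shiftLeft U L3)) fun U' => K U' (M :: Ms)) us) es

/-- The three inequalities of a row. -/
noncomputable def rowP (U M : ℕ) (R : PRow) : Bool :=
  Nat.beq (Nat.land (Nat.sub (Nat.add (Nat.add (Nat.mul R.N M) R.o) H3)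
    (Nat.add (Nat.add
      (Nat.add (Nat.mul R.k0 (Nat.land (Nat.shiftRight U R.s0) MK))
        (Nat.mul R.k1 (Nat.land (Nat.shiftRight U R.s1) MK)))
      (Nat.add (Nat.mul R.k2 (Nat.land (Nat.shiftRight U R.s2) MK))
        (Nat.mul R.k3 (Nat.land (Nat.shiftRight U R.s3) MK)))) R.r)) H3) H3

/-- All rows of one template. -/
noncomputable def rowsAll (U M : ℕ) : List PRow → Bool :=
  List.rec true fun R _ ih => Bool.rec false ih (rowP U M R)

/-- The rows of all templates. -/
noncomputable def segP (U : ℕ) : List (List PRow) → List ℕ → Bool :=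
  List.rec (fun _ => true) fun rs _ ih Ms =>
    List.rec false (fun M Ms' _ => Bool.rec false (ih Ms') (rowsAll U M rs)) Ms

/-- A quadratic in natural numbers: the positive and negative parts of its coefficients. -/
structure Quad where
  p0 : ℕ
  n0 : ℕ
  p1 : ℕ
  n1 : ℕ
  p2 : ℕ
  n2 : ℕ

/-- The parts of an integer, evaluated. -/
noncomputable def partsN (x : ℤ) (K : ℕ → ℕ → Bool) : Bool :=
  Int.rec (fun n => tN n fun p => K p 0) (fun n => tN (Nat.add n 1) fun q => K 0 q) x

/-- The quadratic of `pieceLe`, evaluated. -/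
noncomputable def mkQ (s : Seg1) (t0 : ℕ) (u : List ℤ) (k : ℕ) (α β : ℤ) (K : Quad → Bool) : Bool :=
  partsN (α * (2 * TD * ent u k) - β * (2 * t0)) fun p0 n0 =>
  partsN (α * (2 * s.hn * ent s.a k) - β * (2 * s.hn)) fun p1 n1 =>
  partsN (α * (s.hn * (ent s.e k - ent s.a k))) fun p2 n2 => K ⟨p0, n0, p1, n1, p2, n2⟩

/-- `quadLe` on a piece. -/
noncomputable def qLe (m p : ℕ) (q : Quad) : Bool :=
  tN (Nat.mul p p) fun pp => tN (Nat.add p 1) fun p' => tN (Nat.mul 64 q.p0) fun a0 =>
  tN (Nat.mul 64 q.n0) fun b0 =>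
    Nat.ble (Nat.add (Nat.add a0 m) (Nat.add (Nat.mul (Nat.mul 8 p) q.p1) (Nat.mul pp q.p2)))
      (Nat.add b0 (Nat.add (Nat.mul (Nat.mul 8 p) q.n1) (Nat.mul pp q.n2))) &&
    Nat.ble (Nat.add (Nat.add a0 m)
        (Nat.add (Nat.mul (Nat.mul 4 (Nat.add p p')) q.p1) (Nat.mul (Nat.mul p p') q.p2)))
      (Nat.add b0 (Nat.add (Nat.mul (Nat.mul 4 (Nat.add p p')) q.n1) (Nat.mul (Nat.mul p p') q.n2))) &&
    Nat.ble (Nat.add (Nat.add a0 m)
        (Nat.add (Nat.mul (Nat.mul 8 p') q.p1) (Nat.mul (Nat.mul p' p') q.p2)))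
      (Nat.add b0 (Nat.add (Nat.mul (Nat.mul 8 p') q.n1) (Nat.mul (Nat.mul p' p') q.n2)))

/-- All quadratics on a piece. -/
noncomputable def qAll (m p : ℕ) : List Quad → Bool :=
  List.rec true fun q _ ih => Bool.rec false ih (qLe m p q)

/-- A side of the child box: none if it is that of the box, else its quadratic; the flag says
whether the side can be had at all. -/
noncomputable def side (triv : Bool) (cond : Bool) (s : Seg1) (t0 : ℕ) (u : List ℤ) (k : ℕ)
    (α β : ℤ) (K : Bool → List Quad → Bool) : Bool :=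
  match triv, cond with
  | true, _ => K true []
  | false, false => K false []
  | false, true => mkQ s t0 u k α β fun q => K true [q]

/-- The quadratics of `inChild`. -/
noncomputable def childQ (T : List Tpl) (s : Seg1) (t0 : ℕ) (u : List ℤ) (b c : Box)
    (K : Bool → List Quad → Bool) : Bool :=
  let k := fun j => s.ix.getD j 0
  let N := fun j i => ent (tpl T (k j)).y i * SS
  let w := decide (0 ≤ c.l0) && decide (2 * c.r1 ≤ QQ)
  side (decide (c.r0 ≤ b.r0)) (decide (c.r0 ≤ 0) && unitOK T (k 1) 1 1)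
    s t0 u (k 1) QQ (-2 * c.r0 * N 1 1) fun f1 q1 =>
  side (decide (b.r1 ≤ c.r1)) (decide (0 ≤ c.r1) && unitOK T (k 2) 1 (-1))
    s t0 u (k 2) QQ (-2 * c.r1 * N 2 1) fun f2 q2 =>
  side (decide (b.l1 ≤ c.l1)) (decide (0 ≤ c.l1) && decide (2 * c.r1 ≤ QQ) && unitOK T (k 3) 2 1)
    s t0 u (k 3) (QQ * QQ) (3 * c.l1 * (QQ - 2 * c.r1) * N 3 2) fun f3 q3 =>
  side (decide (c.g0 ≤ b.g0)) (decide (c.g0 ≤ 0) && w && unitOK T (k 5) 3 1)
    s t0 u (k 5) (QQ * QQ * QQ) (-6 * c.g0 * c.l0 * (QQ - 2 * c.r1) * N 5 3) fun f5 q5 =>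
  side (decide (b.g1 ≤ c.g1)) (decide (0 ≤ c.g1) && w && unitOK T (k 6) 3 (-1))
    s t0 u (k 6) (QQ * QQ * QQ) (-6 * c.g1 * c.l0 * (QQ - 2 * c.r1) * N 6 3) fun f6 q6 =>
      Bool.rec (K false []) (K true (q1 ++ q2 ++ q3 ++ q5 ++ q6))
        (decide (c.l0 ≤ b.l0) && f1 && f2 && f3 && f5 && f6)

/-- The eight pieces, each left out, below time or in the child box. -/
noncomputable def loopP (s0 s1 : ℕ) (hn t8 flags : ℕ) (fb : Bool) (qb : List Quad) (fc : Bool)
    (qc : List Quad) (f0 f1 : ℕ) : ℕ → Bool :=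
  Nat.rec true fun p ih =>
    tN (Nat.add t8 (Nat.mul hn p)) fun v0 => tN (Nat.add v0 hn) fun v1 =>
      Bool.rec false ih
        (Nat.ble (Nat.add v1 1) s0 || Nat.ble (Nat.add s1 1) v0 ||
          Bool.rec (fc && (Nat.ble f0 v0 || Nat.ble f0 s0) && (Nat.ble v1 f1 || Nat.ble s1 f1) &&
              qAll 0 p qc)
            (fb && qAll 1 p qb) (Nat.beq (Nat.mod (Nat.shiftRight flags p) 2) 1))

/-- The test of the pieces of a segment. -/
noncomputable def piecesF (T : List Tpl) (b : Box) (s0 s1 : ℕ) (ex : Exit) (s : Seg1) (t0 : ℕ)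
    (u : List ℤ) : Bool :=
  let below := fun K : Bool → List Quad → Bool =>
    side (decide (s.flags = 0)) (unitOK T (s.ix.getD 0 0) 0 1) s t0 u (s.ix.getD 0 0) 1
      (ent (tpl T (s.ix.getD 0 0)).y 0 * SS) fun f q => Bool.rec (K f q) (K false []) (decide (s.flags = 0))
  below fun fb qb =>
    tN (Nat.mul 8 t0) fun t8 => tN (Nat.mul 8 s0) fun a => tN (Nat.mul 8 s1) fun z =>
      match ex with
      | none => loopP a z s.hn t8 s.flags fb qb false [] 0 0 8
      | some (c, f0, f1) => childQ T s t0 u b c fun fc qc =>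
          loopP a z s.hn t8 s.flags fb qb fc qc (Nat.mul 8 f0) (Nat.mul 8 f1) 8

/-- The segments of a group, then the rest. -/
noncomputable def segsF (T : List Tpl) (b : Box) (s0 s1 : ℕ) (ex : Exit) (rows : List (List PRow))
    (rest : ℕ → List ℤ → Bool) : List Seg1 → ℕ → List ℤ → Bool
  | [], t0, u => rest t0 u
  | s :: ss, t0, u =>
    decide (s.a.length = T.length) && decide (s.e.length = T.length) && decide (0 < s.hn) &&
      (tN (Nat.add (Nat.mul 1999 BB) (Nat.mul s.hn OS)) fun c1 => tN (Nat.mul s.hn OS) fun c2 =>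
        allWM s.hn c1 c2 s.a s.e u fun U Ms => segP U rows Ms) &&
      piecesF T b s0 s1 ex s t0 u &&
      thenInts (s.next u) fun u' => tN (t0 + s.hn) fun t' =>
        segsF T b s0 s1 ex rows rest ss t' u'

/-- The groups of a node, then the end. -/
noncomputable def grpsF (T : List Tpl) (bp : BP) (b : Box) (gv : List (List GV))
    (s0 s1 : ℕ) (ex : Exit) (ray : List (ℕ × ℕ)) : List Grp → ℕ → List ℤ → Bool
  | [], t0, u => decide (s1 ≤ t0) || rayOK T u ray
  | g :: gs, t0, u =>
    decide (g.bases.length = T.length) && rowsP bp gv g.bases fun rows =>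
      segsF T b s0 s1 ex rows (fun t u' => grpsF T bp b gv s0 s1 ex ray gs t u') g.segs t0 u

/-- The check of a node with converted bases and templates. -/
noncomputable def nodeP (T : List Tpl) (tf : List TF) (bp : BP) (b : Box) (s0 s1 : ℕ) (ex : Exit)
    (ray : List (ℕ × ℕ)) (gs : List Grp) : Bool :=
  convCs b.corners fun cs => allG cs tf fun gv =>
    grpsF T bp b gv s0 s1 ex ray gs 0 (List.replicate T.length 0)

/-- The check of a certificate with converted bases and templates. -/
noncomputable def Cert.okP (T : List Tpl) (tf : List TF) (bp : BP) : Cert → Box → ℕ → ℕ → Bool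
  | .done gs ray, b, s0, s1 => nodeP T tf bp b s0 s1 none ray gs
  | .narrow gs ray c f0 f1 sub, b, s0, s1 =>
    nodeP T tf bp b s0 s1 (some (c, f0, f1)) ray gs && sub.okP T tf bp c f0 f1
  | .empty, b, _, _ => decide (b.r1 < b.r0) || decide (b.l1 < b.l0) || decide (b.g1 < b.g0)
  | .split ax m l h, b, s0, s1 =>
    l.okP T tf bp (b.lower ax m) s0 s1 && h.okP T tf bp (b.upper ax m) s0 s1

/-- The fast check of a node. -/
noncomputable def nodeF (T : List Tpl) (bt : BT) (b : Box) (s0 s1 : ℕ) (ex : Exit)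
    (ray : List (ℕ × ℕ)) (gs : List Grp) : Bool :=
  tN (Nat.mul L3 T.length) fun lim => convTs T fun tf => convT lim bt fun bp =>
    nodeP T tf bp b s0 s1 ex ray gs

/-- The fast check of a certificate. -/
noncomputable def Cert.okF (T : List Tpl) (bt : BT) (C : Cert) (b : Box) (s0 s1 : ℕ) : Bool :=
  tN (Nat.mul L3 T.length) fun lim => convTs T fun tf => convT lim bt fun bp =>
    C.okP T tf bp b s0 s1

/-- A basis is correct, line by line. -/
def basF (T : List Tpl) (B : Bas) : Bool :=
  match B.ids, B.A with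
  | [i0, i1, i2, i3], [[a00, a01, a02, a03], [a10, a11, a12, a13], [a20, a21, a22, a23],
      [a30, a31, a32, a33]] =>
    match (tpl T i0).y, (tpl T i1).y, (tpl T i2).y, (tpl T i3).y with
    | [y00, y01, y02, y03], [y10, y11, y12, y13], [y20, y21, y22, y23], [y30, y31, y32, y33] =>
      decide (a00 * y00 + a10 * y10 + a20 * y20 + a30 * y30 = B.N) &&
      decide (a01 * y00 + a11 * y10 + a21 * y20 + a31 * y30 = 0) &&
      decide (a02 * y00 + a12 * y10 + a22 * y20 + a32 * y30 = 0) &&
      decide (a03 * y00 + a13 * y10 + a23 * y20 + a33 * y30 = 0) &&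
      decide (a00 * y01 + a10 * y11 + a20 * y21 + a30 * y31 = 0) &&
      decide (a01 * y01 + a11 * y11 + a21 * y21 + a31 * y31 = B.N) &&
      decide (a02 * y01 + a12 * y11 + a22 * y21 + a32 * y31 = 0) &&
      decide (a03 * y01 + a13 * y11 + a23 * y21 + a33 * y31 = 0) &&
      decide (a00 * y02 + a10 * y12 + a20 * y22 + a30 * y32 = 0) &&
      decide (a01 * y02 + a11 * y12 + a21 * y22 + a31 * y32 = 0) &&
      decide (a02 * y02 + a12 * y12 + a22 * y22 + a32 * y32 = B.N) &&
      decide (a03 * y02 + a13 * y12 + a23 * y22 + a33 * y32 = 0) &&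
      decide (a00 * y03 + a10 * y13 + a20 * y23 + a30 * y33 = 0) &&
      decide (a01 * y03 + a11 * y13 + a21 * y23 + a31 * y33 = 0) &&
      decide (a02 * y03 + a12 * y13 + a22 * y23 + a32 * y33 = 0) &&
      decide (a03 * y03 + a13 * y13 + a23 * y23 + a33 * y33 = B.N)
    | _, _, _, _ => false
  | _, _ => false

/-- All bases are correct. -/
def BT.okF (T : List Tpl) : BT → Bool
  | .nil => true
  | .leaf b => basF T b
  | .node l r => l.okF T && r.okF T

end Vale.Agent.P154.Q3.End.Semi
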