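import Vale.Agent.P154.End.Semi.BoxSound

/-!
# Ranges excluded by flow certificates

Certificates checked in separate parts, each with its own bases, are composed through the
statement they prove.
-/

namespace Vale.Agent.P154.Q3.End.Semi

/-- No flow has its child moments in `b` and returns to them at a time in `[s0, s1] / TD`. -/
def Excluded (T : List Tpl) (b : Box) (s0 s1 : ℕ) : Prop :=
  ∀ (c : Fin 4 → ℝ) (X : ℝ) (H H' : ℝ → Fin 4 → ℝ), FlowPt T c H H' → FixPt c X H → b.Mem c →
    (s0 : ℝ) ≤ X * TD → X * TD ≤ s1 → False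

variable {T : List Tpl} {b b₁ b₂ c : Box} {s0 s1 f0 f1 : ℕ}

/-- A checked certificate excludes its box and range. -/
theorem Excluded.of_ok {bt : BT} (hbt : bt.ok T = true) {C : Cert}
    (hC : C.ok T bt b s0 s1 = true) : Excluded T b s0 s1 :=
  fun _ _ _ _ hf hx hm h0 h1 => Cert.sound hbt hf hx C b s0 s1 hC hm h0 h1

/-- Two parts of a box. -/
theorem Excluded.split (ax : ℕ) (m : ℤ) (hl : Excluded T b₁ s0 s1) (hr : Excluded T b₂ s0 s1)
    (e₁ : b.lower ax m = b₁) (e₂ : b.upper ax m = b₂) : Excluded T b s0 s1 := by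
  subst e₁ e₂
  intro v X H H' hf hx hm h0 h1
  have : (b.lower ax m).Mem v ∨ (b.upper ax m).Mem v := by
    simp only [Box.lower, Box.upper]
    split_ifs with a0 a1
    · rcases le_total ((QQ : ℝ) * v 1) m with hc | hc
      · exact Or.inl { hm with r1 := hc }
      · exact Or.inr { hm with r0 := hc }
    · rcases le_total (4 * (QQ : ℝ) * v 2) (3 * m * (1 - 2 * v 1)) with hc | hc
      · exact Or.inl { hm with l1 := hc }
      · exact Or.inr { hm with l0 := hc }
    · rcases le_total ((QQ : ℝ) * v 3) (m * v 2) with hc | hc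
      · exact Or.inl { hm with g1 := hc }
      · exact Or.inr { hm with g0 := hc }
  rcases this with hb | hb
  exacts [hl v X H H' hf hx hb h0 h1, hr v X H H' hf hx hb h0 h1]

/-- An empty box. -/
theorem Excluded.empty (h : b.r1 < b.r0 ∨ b.l1 < b.l0 ∨ b.g1 < b.g0) : Excluded T b s0 s1 := by
  intro v X H H' _ _ hm _ _
  rcases h with h | h | h
  · linarith [hm.r0.trans hm.r1, Int.cast_lt (R := ℝ).2 h]
  · linarith [hm.l0.trans hm.l1, mul_lt_mul_of_pos_right (Int.cast_lt (R := ℝ).2 h)
      (by linarith [hm.half] : (0 : ℝ) < 1 - 2 * v 1)]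
  · linarith [hm.g0.trans hm.g1, mul_lt_mul_of_pos_right (Int.cast_lt (R := ℝ).2 h) hm.apos]

/-- A checked node over an excluded child. -/
theorem Excluded.narrow {bt : BT} (hbt : bt.ok T = true) {gs : List Grp} {ray : List (ℕ × ℕ)}
    (hg : grpsOK T bt b s0 s1 (some (c, f0, f1)) ray gs 0 (List.replicate T.length 0) = true)
    (hs : Excluded T c f0 f1) : Excluded T b s0 s1 := by
  intro v X H H' hf hx hm h0 h1
  have ht : ((0 : ℕ) : ℝ) < X * TD := by
    push_cast; exact mul_pos hx.pos (by norm_num [TD])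
  obtain ⟨b', g0, g1, he, hb, hlo, hhi⟩ := grpsOK_sound hbt hm hf hx h0 h1 gs 0 _ hg (by simp)
    (bnd_zero hf) ht
  simp only [Option.some.injEq, Prod.mk.injEq] at he
  obtain ⟨rfl, rfl, rfl⟩ := he
  exact hs v X H H' hf hx hb hlo hhi

end Vale.Agent.P154.Q3.End.Semi
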