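import Vale.Agent.P154.End.Semi.BoxFast
import Vale.Agent.P154.End.Semi.Excluded

/-!
# The fast test implies the plain test
-/

namespace Vale.Agent.P154.Q3.End.Semi

attribute [local irreducible] BB OS OA OG OC OV LX LH L3 MK H3 K3 KG3 BE3 MO3

theorem tN_eq (n : ℕ) (k : ℕ → Bool) : tN n k = k n := by cases n <;> rfl

theorem offN_true {O : ℕ} {x : ℤ} {K : ℕ → Bool} (h : offN O x K = true) :
    ∃ n : ℕ, K n = true ∧ (n : ℤ) = x + O ∧ n ≤ 2 * O := by
  cases x with
  | ofNat m =>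
    simp only [offN, tN_eq, Nat.add_eq] at h
    cases hb : Nat.ble m O
    · simp [hb] at h
    · have hm : m ≤ O := Nat.le_of_ble_eq_true hb
      refine ⟨O + m, by simpa [hb] using h, ?_, by omega⟩
      simp only [Int.ofNat_eq_natCast, Nat.cast_add]; omega
  | negSucc m =>
    simp only [offN, tN_eq, Nat.add_eq, Nat.sub_eq] at h
    cases hb : Nat.ble (m + 1) O
    · simp [hb] at h
    · have hm : m + 1 ≤ O := Nat.le_of_ble_eq_true hb
      refine ⟨O - (m + 1), by simpa [hb] using h, ?_, by omega⟩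
      rw [Int.negSucc_eq, Nat.cast_sub hm]; push_cast; ring

theorem partsN_true {x : ℤ} {K : ℕ → ℕ → Bool} (h : partsN x K = true) :
    ∃ p n : ℕ, K p n = true ∧ (p : ℤ) - n = x := by
  cases x with
  | ofNat m => exact ⟨m, 0, by simpa [partsN, tN_eq] using h, by simp⟩
  | negSucc m =>
    exact ⟨0, m + 1, by simpa [partsN, tN_eq] using h, by rw [Int.negSucc_eq]; push_cast; ring⟩

/-! ### Bases -/

/-- What an evaluated line means. -/
structure PA.Spec (l : PA) (lim i : ℕ) (a : List ℤ) : Prop where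
  sh : l.sh = L3 * i
  lt : L3 * i + 1 ≤ lim
  e0 : (l.a0 : ℤ) = ent a 0 + OA
  e1 : (l.a1 : ℤ) = ent a 1 + OA
  e2 : (l.a2 : ℤ) = ent a 2 + OA
  e3 : (l.a3 : ℤ) = ent a 3 + OA
  sum : (l.P : ℤ) - l.M = OG * (ent a 0 + ent a 1 + ent a 2 + ent a 3)

theorem convA_true {lim i : ℕ} {a b c d : ℤ} {K : PA → Bool}
    (h : convA lim i a b c d K = true) : ∃ l, K l = true ∧ l.Spec lim i [a, b, c, d] := by
  obtain ⟨a', h, ha, -⟩ := offN_true (by simpa only [convA] using h)
  obtain ⟨b', h, hb, -⟩ := offN_true h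
  obtain ⟨c', h, hc, -⟩ := offN_true h
  obtain ⟨d', h, hd, -⟩ := offN_true h
  simp only [tN_eq, Nat.add_eq, Nat.mul_eq, Nat.sub_eq] at h
  cases hb' : Nat.ble (L3 * i + 1) lim
  · simp [hb'] at h
  · refine ⟨_, by simpa [hb'] using h, ⟨rfl, Nat.le_of_ble_eq_true hb', ?_, ?_, ?_, ?_, ?_⟩⟩
    · simpa [ent] using ha
    · simpa [ent] using hb
    · simpa [ent] using hc
    · simpa [ent] using hd
    · have e : ∀ m n : ℕ, ((m - n : ℕ) : ℤ) - (n - m : ℕ) = m - n := fun m n => by omega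
      simp only [ent, List.getD_cons_zero, List.getD_cons_succ, Nat.cast_mul, ← mul_sub, e]
      push_cast
      rw [ha, hb, hc, hd]
      ring

/-- What an evaluated basis means. -/
def PB.Spec (pb : PB) (lim : ℕ) (B : Bas) : Prop :=
  pb.ok = true → 0 < pb.N ∧ pb.N ≤ 2 ^ 128 ∧ (pb.N : ℤ) = B.N ∧ pb.NM = pb.N * MO3 ∧
    pb.NO = pb.N * KG3 ∧ pb.l0.Spec lim (B.ids.getD 0 0) (B.A.getD 0 []) ∧
      pb.l1.Spec lim (B.ids.getD 1 0) (B.A.getD 1 []) ∧
        pb.l2.Spec lim (B.ids.getD 2 0) (B.A.getD 2 []) ∧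
          pb.l3.Spec lim (B.ids.getD 3 0) (B.A.getD 3 [])

theorem convB_true {lim : ℕ} {B : Bas} {K : PB → Bool} (h : convB lim B K = true) :
    ∃ pb, K pb = true ∧ pb.Spec lim B := by
  unfold convB at h
  split at h
  · next i0 i1 i2 i3 a00 a01 a02 a03 a10 a11 a12 a13 a20 a21 a22 a23 a30 a31 a32 a33 hI hA =>
    simp only [tN_eq, Nat.mul_eq] at h
    obtain ⟨l0, h, h0⟩ := convA_true h
    obtain ⟨l1, h, h1⟩ := convA_true h
    obtain ⟨l2, h, h2⟩ := convA_true h
    obtain ⟨l3, h, h3⟩ := convA_true h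
    cases hb : (Nat.ble 1 B.N.toNat && Nat.ble B.N.toNat (2 ^ 128))
    · simp only [hb] at h
      exact ⟨_, h, fun h' => by simp at h'⟩
    · simp only [Bool.and_eq_true] at hb
      have hN : 1 ≤ B.N.toNat := Nat.le_of_ble_eq_true hb.1
      refine ⟨⟨true, B.N.toNat, B.N.toNat * MO3, B.N.toNat * KG3, l0, l1, l2, l3⟩, ?_, fun _ =>
        ⟨hN, Nat.le_of_ble_eq_true hb.2, ?_, rfl, rfl, ?_, ?_, ?_, ?_⟩⟩
      · simp only [hb.1, hb.2, Bool.and_self] at h
        exact h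
      · simp only; omega
      · simpa [hI, hA] using h0
      · simpa [hI, hA] using h1
      · simpa [hI, hA] using h2
      · simpa [hI, hA] using h3
  · simp at h

theorem convT_true {lim : ℕ} : ∀ {bt : BT} {K : BP → Bool}, convT lim bt K = true →
    ∃ bp, K bp = true ∧ ∀ n, (bp.get n).Spec lim (bt.get n)
  | .nil, K, h => ⟨.nil, by simpa [convT] using h, fun n h' => by simp [BP.get] at h'⟩
  | .leaf b, K, h => by
    obtain ⟨pb, h, hs⟩ := convB_true (by simpa only [convT] using h)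
    exact ⟨_, h, fun n => hs⟩
  | .node l r, K, h => by
    obtain ⟨l', h, hl⟩ := convT_true (by simpa only [convT] using h)
    obtain ⟨r', h, hr⟩ := convT_true h
    refine ⟨_, h, fun n => ?_⟩
    simp only [BP.get, BT.get, show ∀ a b, Nat.div a b = a / b from fun _ _ => rfl, show ∀ a b, Nat.mod a b = a % b from fun _ _ => rfl]
    cases hb : Nat.beq (n % 2) 0
    · have : n % 2 ≠ 0 := Nat.ne_of_beq_eq_false hb
      rw [if_neg this]
      exact hr _
    · have : n % 2 = 0 := Nat.eq_of_beq_eq_true hb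
      rw [if_pos this]
      exact hl _

/-! ### Templates at corners -/

/-- What an evaluated form means. -/
structure TL.Spec (L : TL) (y : ℤ) (l : List ℤ) : Prop where
  e0 : (L.c0 : ℤ) = ent l 0 + y + OC
  e1 : (L.c1 : ℤ) = ent l 1 + OC
  e2 : (L.c2 : ℤ) = ent l 2 + OC
  e3 : (L.c3 : ℤ) = ent l 3 + OC
  eK : (L.K : ℤ) = -(OV * (ent l 0 + y + ent l 1 + ent l 2 + ent l 3)) + OG

theorem convL_true {y : ℤ} {l : List ℤ} {K : TL → Bool} (h : convL y l K = true) :
    ∃ L, K L = true ∧ L.Spec y l := by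
  unfold convL at h
  split at h
  · next a b c d =>
    obtain ⟨c0, h, h0, -⟩ := offN_true h
    obtain ⟨c1, h, h1, -⟩ := offN_true h
    obtain ⟨c2, h, h2, -⟩ := offN_true h
    obtain ⟨c3, h, h3, -⟩ := offN_true h
    obtain ⟨k, h, hk, -⟩ := offN_true h
    exact ⟨_, h, by simpa [ent] using h0, by simpa [ent] using h1, by simpa [ent] using h2,
      by simpa [ent] using h3, by simpa [ent] using hk⟩
  · simp at h

/-- What an evaluated template means. -/
structure TF.Spec (f : TF) (t : Tpl) : Prop where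
  g0 : f.g0.Spec (KAP * ent t.y 0) (t.C.getD 0 [])
  g1 : f.g1.Spec (KAP * ent t.y 1) (t.C.getD 1 [])
  g2 : f.g2.Spec (KAP * ent t.y 2) (t.C.getD 2 [])
  g3 : f.g3.Spec (KAP * ent t.y 3) (t.C.getD 3 [])
  c : f.c.Spec 0 t.C0

theorem convTpl_true {t : Tpl} {K : TF → Bool} (h : convTpl t K = true) :
    ∃ f, K f = true ∧ f.Spec t := by
  unfold convTpl at h
  split at h
  · next y0 y1 y2 y3 r0 r1 r2 r3 hy hC =>
    obtain ⟨g0, h, h0⟩ := convL_true h
    obtain ⟨g1, h, h1⟩ := convL_true h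
    obtain ⟨g2, h, h2⟩ := convL_true h
    obtain ⟨g3, h, h3⟩ := convL_true h
    obtain ⟨c, h, hc⟩ := convL_true h
    refine ⟨_, h, ⟨?_, ?_, ?_, ?_, hc⟩⟩ <;> simp [hy, hC, ent] <;> assumption
  · simp at h

theorem convTs_true : ∀ {T : List Tpl} {K : List TF → Bool}, convTs T K = true →
    ∃ tf, K tf = true ∧ List.Forall₂ (fun t f => TF.Spec f t) T tf
  | [], K, h => ⟨[], by simpa [convTs] using h, .nil⟩
  | t :: ts, K, h => by
    obtain ⟨f, h, hf⟩ := convTpl_true (by simpa only [convTs] using h)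
    obtain ⟨r, h, hr⟩ := convTs_true h
    exact ⟨_, h, .cons hf hr⟩

/-- What an evaluated corner means. -/
structure CV.Spec (v : CV) (cv : List ℤ) : Prop where
  e0 : (v.v0 : ℤ) = ent cv 0 + OV
  e1 : (v.v1 : ℤ) = ent cv 1 + OV
  e2 : (v.v2 : ℤ) = ent cv 2 + OV
  e3 : (v.v3 : ℤ) = ent cv 3 + OV
  eS : v.S = OC * ((v.v0 + v.v1) + (v.v2 + v.v3))

theorem convC_true {cv : List ℤ} {K : CV → Bool} (h : convC cv K = true) :
    ∃ v, K v = true ∧ v.Spec cv := by
  unfold convC at h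
  split at h
  · next a b c d =>
    obtain ⟨v0, h, h0, -⟩ := offN_true h
    obtain ⟨v1, h, h1, -⟩ := offN_true h
    obtain ⟨v2, h, h2, -⟩ := offN_true h
    obtain ⟨v3, h, h3, -⟩ := offN_true h
    simp only [tN_eq, Nat.add_eq, Nat.mul_eq] at h
    exact ⟨_, h, by simpa [ent] using h0, by simpa [ent] using h1, by simpa [ent] using h2,
      by simpa [ent] using h3, rfl⟩
  · simp at h

theorem convCs_true : ∀ {cs : List (List ℤ)} {K : List CV → Bool}, convCs cs K = true →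
    ∃ vs, K vs = true ∧ List.Forall₂ (fun cv v => CV.Spec v cv) cs vs
  | [], K, h => ⟨[], by simpa [convCs] using h, .nil⟩
  | c :: cs, K, h => by
    obtain ⟨v, h, hv⟩ := convC_true (by simpa only [convCs] using h)
    obtain ⟨r, h, hr⟩ := convCs_true h
    exact ⟨_, h, .cons hv hr⟩

theorem evalL_true {L : TL} {v : CV} {y : ℤ} {l cv : List ℤ} (hL : L.Spec y l) (hv : v.Spec cv)
    {K : ℕ → Bool} (h : evalL L v K = true) :
    ∃ g : ℕ, K g = true ∧ (g : ℤ) = dot4 l cv + y * ent cv 0 + OG ∧ g ≤ 2 * OG := by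
  simp only [evalL, tN_eq, Nat.add_eq, Nat.mul_eq, Nat.sub_eq] at h
  set s := L.c0 * v.v0 + L.c1 * v.v1 + (L.c2 * v.v2 + L.c3 * v.v3) + L.K with hs
  cases hb : Nat.ble v.S s
  · simp [hb] at h
  · simp only [hb] at h
    cases hb2 : Nat.ble (s - v.S) (2 * OG)
    · simp [hb2] at h
    · refine ⟨s - v.S, by simpa [hb2] using h, ?_, Nat.le_of_ble_eq_true hb2⟩
      rw [Nat.cast_sub (Nat.le_of_ble_eq_true hb), hs, hv.eS]
      simp only [Nat.cast_add, Nat.cast_mul, hL.e0, hL.e1, hL.e2, hL.e3, hL.eK, hv.e0, hv.e1, hv.e2,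
        hv.e3, dot4]
      ring

/-- What an evaluated template at a corner means. -/
structure GV.Spec (G : GV) (t : Tpl) (cv : List ℤ) : Prop where
  e0 : (G.g0 : ℤ) = dot4 (t.C.getD 0 []) cv + KAP * ent t.y 0 * ent cv 0 + OG
  e1 : (G.g1 : ℤ) = dot4 (t.C.getD 1 []) cv + KAP * ent t.y 1 * ent cv 0 + OG
  e2 : (G.g2 : ℤ) = dot4 (t.C.getD 2 []) cv + KAP * ent t.y 2 * ent cv 0 + OG
  e3 : (G.g3 : ℤ) = dot4 (t.C.getD 3 []) cv + KAP * ent t.y 3 * ent cv 0 + OG
  eS : G.GS = OA * ((G.g0 + G.g1) + (G.g2 + G.g3))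
  ec : ∃ c : ℕ, G.c = c * K3 ∧ (c : ℤ) = dot4 t.C0 cv + OG ∧ c ≤ 2 * OG

theorem mkG_true {t : Tpl} {f : TF} (hf : f.Spec t) {cv : List ℤ} {v : CV} (hv : v.Spec cv)
    {K : GV → Bool} (h : mkG f v K = true) : ∃ G, K G = true ∧ G.Spec t cv := by
  simp only [mkG] at h
  obtain ⟨g0, h, h0, -⟩ := evalL_true hf.g0 hv h
  obtain ⟨g1, h, h1, -⟩ := evalL_true hf.g1 hv h
  obtain ⟨g2, h, h2, -⟩ := evalL_true hf.g2 hv h
  obtain ⟨g3, h, h3, -⟩ := evalL_true hf.g3 hv h
  obtain ⟨c, h, hc, hc'⟩ := evalL_true hf.c hv h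
  simp only [tN_eq, Nat.add_eq, Nat.mul_eq] at h
  exact ⟨_, h, h0, h1, h2, h3, rfl, c, rfl, by simpa using hc, hc'⟩

theorem colG_true {t : Tpl} {f : TF} (hf : f.Spec t) : ∀ {cs : List (List ℤ)} {vs : List CV},
    List.Forall₂ (fun cv v => CV.Spec v cv) cs vs → ∀ {K : List GV → Bool}, colG f vs K = true →
      ∃ r, K r = true ∧ List.Forall₂ (fun cv G => GV.Spec G t cv) cs r
  | _, _, .nil, K, h => ⟨[], h, .nil⟩
  | _, v :: vs, .cons hv hvs, K, h => by
    change mkG f v (fun G => colG f vs fun r => K (G :: r)) = true at h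
    obtain ⟨G, h, hG⟩ := mkG_true hf hv h
    obtain ⟨r, h, hr⟩ := colG_true hf hvs h
    exact ⟨_, h, .cons hG hr⟩

theorem allG_true {cs : List (List ℤ)} {vs : List CV}
    (hv : List.Forall₂ (fun cv v => CV.Spec v cv) cs vs) : ∀ {T : List Tpl} {tf : List TF},
    List.Forall₂ (fun t f => TF.Spec f t) T tf → ∀ {K : List (List GV) → Bool},
      allG vs tf K = true →
      ∃ gv, K gv = true ∧
        List.Forall₂ (fun t r => List.Forall₂ (fun cv G => GV.Spec G t cv) cs r) T gv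
  | _, _, .nil, K, h => ⟨[], h, .nil⟩
  | _, f :: fs, .cons hf hfs, K, h => by
    change colG f vs (fun r => allG vs fs fun rr => K (r :: rr)) = true at h
    obtain ⟨r, h, hr⟩ := colG_true hf hv h
    obtain ⟨rr, h, hrr⟩ := allG_true hv hfs h
    exact ⟨_, h, .cons hr hrr⟩

/-! ### Rows -/

/-- The row of a template given by value. -/
def rowT (t : Tpl) (cv : List ℤ) (B : Bas) : Row :=
  mkRow [t] 0 cv B

theorem mkRow_eq (T : List Tpl) (k : ℕ) (hk : k < T.length) (cv : List ℤ) (B : Bas) :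
    mkRow T k cv B = rowT T[k] cv B := by
  have e : tpl T k = T[k] := List.getD_eq_getElem _ _ hk
  simp only [rowT, mkRow, e]
  rfl

/-- What a packed row means. -/
structure RowRel (lim : ℕ) (R : Row) (P : PRow) : Prop where
  terms : ∃ i0 i1 i2 i3, R.terms = [(i0, (P.k0 : ℤ)), (i1, (P.k1 : ℤ)), (i2, (P.k2 : ℤ)),
    (i3, (P.k3 : ℤ))] ∧ P.s0 = L3 * i0 ∧ P.s1 = L3 * i1 ∧ P.s2 = L3 * i2 ∧ P.s3 = L3 * i3 ∧
      L3 * i0 + 1 ≤ lim ∧ L3 * i1 + 1 ≤ lim ∧ L3 * i2 + 1 ≤ lim ∧ L3 * i3 + 1 ≤ lim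
  hN : (P.N : ℤ) = R.N
  posN : 0 < P.N
  leN : P.N ≤ 2 ^ 128
  leK : P.k0 + P.k1 + (P.k2 + P.k3) ≤ 2 ^ 256
  side : ∃ c : ℕ, (c : ℤ) = R.c + OG ∧ c ≤ 2 * OG ∧ P.r = P.N * MO3 + P.N * (c * K3) ∧
    P.o = P.N * KG3 + (P.k0 + P.k1 + (P.k2 + P.k3)) * BE3

theorem RowRel.ok {lim : ℕ} {R : Row} {P : PRow} (h : RowRel lim R P) : R.ok = true := by
  obtain ⟨i0, i1, i2, i3, e, -⟩ := h.terms
  have := h.hN
  have := h.posN
  simp [Row.ok, e]
  omega

theorem dotN_true {l : PA} {lim i : ℕ} {a : List ℤ} (hl : l.Spec lim i a) {G : GV} {t : Tpl}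
    {cv : List ℤ} (hG : G.Spec t cv) (hz : ent cv 0 = ZZ) {K : ℕ → Bool}
    (h : dotN l G K = true) :
    ∃ k : ℕ, K k = true ∧ (k : ℤ) = dot4 a ((List.range 4).map fun i =>
      dot4 (t.C.getD i []) cv + KAP * ZZ * ent t.y i) := by
  simp only [dotN, tN_eq, Nat.add_eq, Nat.sub_eq] at h
  cases hb : Nat.ble (G.GS + l.P) (dotS l G)
  · simp [hb] at h
  · refine ⟨_, by simpa [hb] using h, ?_⟩
    rw [Nat.cast_sub (Nat.le_of_ble_eq_true hb)]
    have hP : (l.P : ℤ) = l.M + OG * (ent a 0 + ent a 1 + ent a 2 + ent a 3) := by linarith [hl.sum]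
    have e : dot4 a ((List.range 4).map fun i =>
        dot4 (t.C.getD i []) cv + KAP * ZZ * ent t.y i) =
        ent a 0 * (dot4 (t.C.getD 0 []) cv + KAP * ZZ * ent t.y 0) +
          ent a 1 * (dot4 (t.C.getD 1 []) cv + KAP * ZZ * ent t.y 1) +
          ent a 2 * (dot4 (t.C.getD 2 []) cv + KAP * ZZ * ent t.y 2) +
          ent a 3 * (dot4 (t.C.getD 3 []) cv + KAP * ZZ * ent t.y 3) := by
      simp [dot4, ent, show List.range 4 = [0, 1, 2, 3] from rfl]
    rw [e]
    simp only [dotS, Nat.add_eq, Nat.mul_eq, hG.eS, Nat.cast_add, Nat.cast_mul, hl.e0, hl.e1, hl.e2,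
      hl.e3, hP, hG.e0, hG.e1, hG.e2, hG.e3, hz]
    ring

theorem mkP_true {lim : ℕ} {pb : PB} {B : Bas} (hB : pb.Spec lim B) {G : GV} {t : Tpl}
    {cv : List ℤ} (hG : G.Spec t cv) (hz : ent cv 0 = ZZ) {K : PRow → Bool}
    (h : mkP pb G K = true) : ∃ P, K P = true ∧ RowRel lim (rowT t cv B) P := by
  cases hok : pb.ok
  · exfalso
    simp only [mkP, dotN, tN_eq] at h
    revert h
    simp only [hok, Bool.false_and]
    cases Nat.ble (Nat.add G.GS pb.l0.P) (dotS pb.l0 G) <;>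
      cases Nat.ble (Nat.add G.GS pb.l1.P) (dotS pb.l1 G) <;>
      cases Nat.ble (Nat.add G.GS pb.l2.P) (dotS pb.l2 G) <;>
      cases Nat.ble (Nat.add G.GS pb.l3.P) (dotS pb.l3 G) <;> simp
  · obtain ⟨hN0, hN1, hN, hNM, hNO, s0, s1, s2, s3⟩ := hB hok
    obtain ⟨k0, h, e0⟩ := dotN_true s0 hG hz (by simpa only [mkP] using h)
    obtain ⟨k1, h, e1⟩ := dotN_true s1 hG hz h
    obtain ⟨k2, h, e2⟩ := dotN_true s2 hG hz h
    obtain ⟨k3, h, e3⟩ := dotN_true s3 hG hz h
    simp only [tN_eq, hok, Bool.true_and, Bool.and_eq_true, Nat.add_eq, Nat.mul_eq] at h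
    obtain ⟨c, hc, hc', hc''⟩ := hG.ec
    refine ⟨_, h.2, ⟨⟨B.ids.getD 0 0, B.ids.getD 1 0, B.ids.getD 2 0, B.ids.getD 3 0, ?_, s0.sh,
      s1.sh, s2.sh, s3.sh, s0.lt, s1.lt, s2.lt, s3.lt⟩, hN, hN0, hN1,
      Nat.le_of_ble_eq_true h.1, c, ?_, hc'', ?_, ?_⟩⟩
    · simp only [e0, e1, e2, e3]
      rfl
    · simpa [rowT, mkRow, tpl] using hc'
    · simp only [hNM, hc]
    · simp only [hNO]

theorem colP_true {lim : ℕ} {bp : BP} {bt : BT} (hbp : ∀ n, (bp.get n).Spec lim (bt.get n))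
    {t : Tpl} : ∀ {cs : List (List ℤ)} {gs : List GV},
    List.Forall₂ (fun cv G => GV.Spec G t cv) cs gs → (∀ cv ∈ cs, ent cv 0 = ZZ) →
    ∀ {code : ℕ} {K : List PRow → Bool}, colP bp gs code K = true →
      ∃ ps, K ps = true ∧ List.Forall₂ (RowRel lim)
        (List.zipWith (fun v cv => rowT t cv (bt.get (code / 1024 ^ v % 1024)))
          (List.range cs.length) cs) ps
  | _, _, .nil, _, _, K, h => ⟨[], h, .nil⟩
  | cv :: cs, G :: gs, .cons hG hGs, hz, code, K, h => by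
    simp only [List.mem_cons, forall_eq_or_imp] at hz
    change mkP (bp.get (code % 1024)) G
      (fun P => colP bp gs (code / 1024) fun rs => K (P :: rs)) = true at h
    obtain ⟨P, h, hP⟩ := mkP_true (hbp (code % 1024)) hG hz.1 h
    obtain ⟨ps, h, hps⟩ := colP_true hbp hGs hz.2 h
    refine ⟨_, h, ?_⟩
    rw [List.length_cons, List.range_succ_eq_map, List.zipWith_cons_cons, List.zipWith_map_left]
    refine .cons (by simpa using hP) ?_
    simpa [Nat.div_div_eq_div_mul, pow_succ'] using hps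

theorem rowsP_true {lim : ℕ} {bp : BP} {bt : BT} (hbp : ∀ n, (bp.get n).Spec lim (bt.get n))
    {cs : List (List ℤ)} (hz : ∀ cv ∈ cs, ent cv 0 = ZZ) : ∀ {T : List Tpl} {gv : List (List GV)},
    List.Forall₂ (fun t r => List.Forall₂ (fun cv G => GV.Spec G t cv) cs r) T gv →
    ∀ {cd : List ℕ} {K : List (List PRow) → Bool}, rowsP bp gv cd K = true →
      ∃ pr, K pr = true ∧ List.Forall₂ (List.Forall₂ (RowRel lim))
        (List.zipWith (fun t code => List.zipWith
          (fun v cv => rowT t cv (bt.get (code / 1024 ^ v % 1024))) (List.range cs.length) cs) T cd) pr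
  | _, _, .nil, cd, K, h => ⟨[], h, by simp⟩
  | _, _, .cons hr hrs, [], K, h => ⟨[], h, by simp⟩
  | _, g :: gs, .cons hr hrs, code :: cd, K, h => by
    change colP bp g code (fun r => rowsP bp gs cd fun rr => K (r :: rr)) = true at h
    obtain ⟨ps, h, hps⟩ := colP_true hbp hr hz h
    obtain ⟨pr, h, hpr⟩ := rowsP_true hbp hz hrs h
    exact ⟨_, h, .cons hps hpr⟩

theorem corners_zero (b : Box) : ∀ cv ∈ b.corners, ent cv 0 = ZZ := by
  intro cv hcv
  simp only [Box.corners, List.mem_cons, List.not_mem_nil, or_false] at hcv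
  rcases hcv with rfl | rfl | rfl | rfl | rfl | rfl | rfl | rfl <;> simp [corner, ent]

theorem rows_eq {T : List Tpl} {bt : BT} {b : Box} {g : Grp} (hlen : g.bases.length = T.length) :
    List.zipWith (fun t code => List.zipWith
      (fun v cv => rowT t cv (bt.get (code / 1024 ^ v % 1024)))
      (List.range b.corners.length) b.corners) T g.bases = g.rows T bt b := by
  refine List.ext_getElem (by simp [Grp.rows, hlen]) fun i h₁ h₂ => ?_
  have hi : i < T.length := by simp at h₁; omega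
  simp only [Grp.rows, List.getElem_zipWith, List.getElem_range, mkRow_eq T i hi]
  rfl

/-! ### Lanes -/

theorem pack3_eq (a b c : ℕ) : pack3 a b c = a + b * LX + c * (LX * LX) := rfl

theorem MO3_eq : MO3 = 274877906944 * pack3 (OS + 3 * BB) (2000 * OS + 3 * BB) (2000 * OS + 3 * BB) := by
  decide +kernel

theorem K3_eq : K3 = pack3 100000 200000000 200000000 := by decide +kernel

theorem KG3_eq : KG3 = OG * K3 := by decide +kernel

theorem BE3_eq : BE3 = pack3 BB BB BB := by decide +kernel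

theorem div_even {d m H : ℕ} (hd : d < H) : (d + H * (2 * m)) / H % 2 = 0 := by
  rw [Nat.add_mul_div_left _ _ (by omega), Nat.div_eq_of_lt hd]; omega

theorem lane_le {x0 x1 x2 y0 y1 y2 : ℕ} (a0 : x0 < LH) (a1 : x1 < LH) (a2 : x2 < LH)
    (b0 : y0 < LH) (b1 : y1 < LH) (b2 : y2 < LH)
    (h : Nat.land (pack3 y0 y1 y2 + H3 - pack3 x0 x1 x2) H3 = H3) :
    x0 ≤ y0 ∧ x1 ≤ y1 ∧ x2 ≤ y2 := by
  have hX : LX = 2 * LH := by decide +kernel
  obtain ⟨d0, hd0⟩ : ∃ d, d + x0 = y0 + LH := ⟨_, Nat.sub_add_cancel (by omega)⟩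
  obtain ⟨d1, hd1⟩ : ∃ d, d + x1 = y1 + LH := ⟨_, Nat.sub_add_cancel (by omega)⟩
  obtain ⟨d2, hd2⟩ : ∃ d, d + x2 = y2 + LH := ⟨_, Nat.sub_add_cancel (by omega)⟩
  have e : pack3 y0 y1 y2 + H3 - pack3 x0 x1 x2 = pack3 d0 d1 d2 := by
    apply Nat.sub_eq_of_eq_add
    simp only [H3, pack3_eq]
    linear_combination hd0.symm + LX * hd1.symm + (LX * LX) * hd2.symm
  rw [e] at h
  have bit : ∀ j, H3.testBit j = true → pack3 d0 d1 d2 / 2 ^ j % 2 = 1 := by
    intro j hj
    have := congrArg (fun z => Nat.testBit z j) h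
    rw [show Nat.land (pack3 d0 d1 d2) H3 = pack3 d0 d1 d2 &&& H3 from rfl] at this
    change (pack3 d0 d1 d2 &&& H3).testBit j = H3.testBit j at this
    rw [Nat.testBit_and, hj, Bool.and_true, Nat.testBit_eq_decide_div_mod_eq] at this
    exact of_decide_eq_true this
  have t0 := bit 511 (by decide +kernel)
  have t1 := bit (512 + 511) (by decide +kernel)
  have t2 := bit (512 + (512 + 511)) (by decide +kernel)
  simp only [pow_add, show (2 : ℕ) ^ 511 = LH from by unfold LH; rfl, show (2 : ℕ) ^ 512 = LX from by unfold LX; rfl,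
    ← Nat.div_div_eq_div_mul] at t0 t1 t2
  have q0 : d0 < LX := by omega
  have q1 : d1 < LX := by omega
  have f1 : pack3 d0 d1 d2 / LX = d1 + d2 * LX := by
    rw [pack3_eq, show d0 + d1 * LX + d2 * (LX * LX) = d0 + LX * (d1 + d2 * LX) by ring,
      Nat.add_mul_div_left _ _ (by omega), Nat.div_eq_of_lt q0, zero_add]
  have f2 : pack3 d0 d1 d2 / LX / LX = d2 := by
    rw [f1, Nat.add_mul_div_right _ _ (by omega), Nat.div_eq_of_lt q1, zero_add]
  refine ⟨?_, ?_, ?_⟩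
  · by_contra hne
    have hlt : d0 < LH := by omega
    rw [pack3_eq, show d0 + d1 * LX + d2 * (LX * LX) = d0 + LH * (2 * (d1 + d2 * LX)) by
      rw [hX]; ring, div_even hlt] at t0
    omega
  · by_contra hne
    have hlt : d1 < LH := by omega
    rw [f1, show d1 + d2 * LX = d1 + LH * (2 * d2) by rw [hX]; ring, div_even hlt] at t1
    omega
  · by_contra hne
    rw [f2, Nat.div_eq_of_lt (show d2 < LH by omega)] at t2
    omega

/-- The values of one template on a segment. -/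
structure WM (W M : ℕ) (a e u v w : ℤ) : Prop where
  wit : ∃ x y z a' e' : ℕ, W = pack3 x y z ∧
    M = 274877906944 * (3 * W + pack3 a' (1000 * (a' + e')) (2000 * e')) ∧
    (x : ℤ) = u + BB ∧ (y : ℤ) = v + BB ∧ (z : ℤ) = w + BB ∧ (a' : ℤ) = a + OS ∧ (e' : ℤ) = e + OS ∧
      x ≤ 2 * BB ∧ y ≤ 2 * BB ∧ z ≤ 2 * BB ∧ a' ≤ 2 * OS ∧ e' ≤ 2 * OS

theorem wmN_true {hn c1 c2 : ℕ} {a e u : ℤ} {K : ℕ → ℕ → Bool}
    (e1 : c1 = 1999 * BB + hn * OS) (e2 : c2 = hn * OS) (h : wmN hn c1 c2 a e u K = true) :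
    ∃ W M, K W M = true ∧ W < 2 ^ L3 ∧
      WM W M a e u (2 * TD * u + hn * a) (2 * TD * u + hn * (a + e)) := by
  obtain ⟨x, h, hx, bx⟩ := offN_true (by simpa only [wmN] using h)
  obtain ⟨a', h, ha, ba⟩ := offN_true h
  obtain ⟨e', h, he, be⟩ := offN_true h
  simp only [tN_eq, Bool.and_eq_true, Nat.add_eq, Nat.mul_eq, Nat.sub_eq] at h
  obtain ⟨h1, hy, h2, hz, h⟩ := h
  replace h1 := Nat.le_of_ble_eq_true h1
  replace hy := Nat.le_of_ble_eq_true hy
  replace h2 := Nat.le_of_ble_eq_true h2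
  replace hz := Nat.le_of_ble_eq_true hz
  set y := 2000 * x + hn * a' - c1 with ey
  set z := y + hn * e' - c2 with ez
  refine ⟨_, _, h, ?_, ⟨x, y, z, a', e', rfl, rfl, hx, ?_, ?_, ha, he, bx, hy, hz, ba, be⟩⟩
  · have hc : (2 * BB : ℕ) < LX := by decide +kernel
    rw [show (2 : ℕ) ^ L3 = LX * LX * LX by decide +kernel, pack3_eq]
    have p1 : y * LX ≤ (LX - 1) * LX := Nat.mul_le_mul_right _ (by omega)
    have p2 : z * (LX * LX) ≤ (LX - 1) * (LX * LX) := Nat.mul_le_mul_right _ (by omega)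
    have p3 : (LX - 1) * LX + LX = LX * LX := by
      rw [Nat.sub_mul, one_mul, Nat.sub_add_cancel (Nat.le_mul_of_pos_left _ (by omega))]
    have p4 : (LX - 1) * (LX * LX) + LX * LX = LX * LX * LX := by
      rw [Nat.sub_mul, one_mul, Nat.sub_add_cancel (Nat.le_mul_of_pos_left _ (by omega))]
      ring
    omega
  · rw [ey, Nat.cast_sub h1, e1]
    push_cast [TD]
    rw [hx, ha]
    ring
  · rw [ez, Nat.cast_sub h2, ey, Nat.cast_add, Nat.cast_sub h1, e1, e2]
    push_cast [TD]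
    rw [hx, ha, he]
    ring

theorem allWM_true {hn c1 c2 : ℕ} (e1 : c1 = 1999 * BB + hn * OS) (e2 : c2 = hn * OS) :
    ∀ (as es us : List ℤ) {K : ℕ → List ℕ → Bool}, allWM hn c1 c2 as es us K = true →
      es.length = as.length → us.length = as.length →
      ∃ U Ms, K U Ms = true ∧ ∀ i < as.length, WM (Nat.land (Nat.shiftRight U (L3 * i)) MK)
        (Ms.getD i 0) (ent as i) (ent es i) (ent us i)
        (2 * TD * ent us i + hn * ent as i) (2 * TD * ent us i + hn * (ent as i + ent es i))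
  | [], es, us, K, h, _, _ => ⟨0, [], h, fun i hi => by simp at hi⟩
  | a :: as', [], _, K, _, h1, _ => by simp at h1
  | a :: as', _ :: _, [], K, _, _, h2 => by simp at h2
  | a :: as', e :: es, u :: us, K, h, h1, h2 => by
    obtain ⟨W, M, h, hW, hWM⟩ := wmN_true e1 e2 h
    obtain ⟨U, Ms, h, hU⟩ := allWM_true e1 e2 as' es us h (by simpa using h1) (by simpa using h2)
    simp only [tN_eq, Nat.add_eq] at h
    refine ⟨_, _, h, fun i hi => ?_⟩
    have eU : W + Nat.shiftLeft U L3 = W + 2 ^ L3 * U := by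
      show W + U <<< L3 = _
      rw [Nat.shiftLeft_eq, mul_comm]
    have eM : MK = 2 ^ L3 - 1 := by decide +kernel
    cases i with
    | zero =>
      simp only [ent, List.getD_cons_zero]
      rw [eU, eM, mul_zero]
      show WM ((((W + 2 ^ L3 * U) >>> 0)) &&& (2 ^ L3 - 1)) M _ _ _ _ _
      rw [Nat.and_two_pow_sub_one_eq_mod, Nat.shiftRight_zero, Nat.add_mul_mod_self_left,
        Nat.mod_eq_of_lt hW]
      exact hWM
    | succ i =>
      have hsh : Nat.shiftRight (W + Nat.shiftLeft U L3) (L3 * (i + 1)) =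
          Nat.shiftRight U (L3 * i) := by
        rw [eU]
        show (W + 2 ^ L3 * U) >>> (L3 * (i + 1)) = U >>> (L3 * i)
        rw [show L3 * (i + 1) = L3 + L3 * i by ring, Nat.shiftRight_add]
        congr 1
        rw [Nat.shiftRight_eq_div_pow, Nat.add_mul_div_left _ _ (Nat.two_pow_pos _),
          Nat.div_eq_of_lt hW, zero_add]
      rw [hsh]
      simpa [ent] using hU i (by simpa using hi)

theorem rowP_sound {lim n : ℕ} (hlim : lim = L3 * n) {U M : ℕ} {R : Row} {P : PRow}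
    (hR : RowRel lim R P) {as es u w₁ w₂ : List ℤ}
    (hW : ∀ i < n, ∃ Mi, WM (Nat.land (Nat.shiftRight U (L3 * i)) MK) Mi (ent as i) (ent es i)
      (ent u i) (ent w₁ i) (ent w₂ i))
    {k : ℕ} (hk : ∃ W, WM W M (ent as k) (ent es k) (ent u k) (ent w₁ k) (ent w₂ k))
    (h : rowP U M P = true) : rowOK k (ent as k) (ent es k) u w₁ w₂ R = true := by
  obtain ⟨i0, i1, i2, i3, et, t0, t1, t2, t3, l0, l1, l2, l3⟩ := hR.terms
  subst hlim
  have lt : ∀ i, L3 * i + 1 ≤ L3 * n → i < n := fun i hi => by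
    by_contra hc
    have := Nat.mul_le_mul_left L3 (Nat.le_of_not_lt hc)
    omega
  obtain ⟨M0, ⟨x0, y0, z0, _, _, W0, -, hx0, hy0, hz0, -, -, bx0, by0, bz0, -, -⟩⟩ := hW i0 (lt _ l0)
  obtain ⟨M1, ⟨x1, y1, z1, _, _, W1, -, hx1, hy1, hz1, -, -, bx1, by1, bz1, -, -⟩⟩ := hW i1 (lt _ l1)
  obtain ⟨M2, ⟨x2, y2, z2, _, _, W2, -, hx2, hy2, hz2, -, -, bx2, by2, bz2, -, -⟩⟩ := hW i2 (lt _ l2)
  obtain ⟨M3, ⟨x3, y3, z3, _, _, W3, -, hx3, hy3, hz3, -, -, bx3, by3, bz3, -, -⟩⟩ := hW i3 (lt _ l3)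
  obtain ⟨W, ⟨x, y, z, a', e', eW, eM, hx, hy, hz, ha, he, bx, by', bz, ba, be⟩⟩ := hk
  obtain ⟨c, hc, bc, er, eo⟩ := hR.side
  have hN := hR.leN
  have hK := hR.leK
  simp only [rowP, t0, t1, t2, t3, W0, W1, W2, W3, er, eo, eM, eW, Nat.add_eq, Nat.mul_eq,
    Nat.sub_eq] at h
  have hb := Nat.eq_of_beq_eq_true h
  have eL : P.k0 * pack3 x0 y0 z0 + P.k1 * pack3 x1 y1 z1 +
      (P.k2 * pack3 x2 y2 z2 + P.k3 * pack3 x3 y3 z3) + (P.N * MO3 + P.N * (c * K3)) =
    pack3 (P.k0 * x0 + P.k1 * x1 + (P.k2 * x2 + P.k3 * x3) +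
        P.N * (274877906944 * (OS + 3 * BB) + c * 100000))
      (P.k0 * y0 + P.k1 * y1 + (P.k2 * y2 + P.k3 * y3) +
        P.N * (274877906944 * (2000 * OS + 3 * BB) + c * 200000000))
      (P.k0 * z0 + P.k1 * z1 + (P.k2 * z2 + P.k3 * z3) +
        P.N * (274877906944 * (2000 * OS + 3 * BB) + c * 200000000)) := by
    rw [MO3_eq, K3_eq]
    simp only [pack3_eq]
    generalize LX = X
    ring
  have eR : P.N * (274877906944 * (3 * pack3 x y z + pack3 a' (1000 * (a' + e')) (2000 * e'))) +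
      (P.N * KG3 + (P.k0 + P.k1 + (P.k2 + P.k3)) * BE3) =
    pack3 (P.N * (274877906944 * (3 * x + a') + OG * 100000) + (P.k0 + P.k1 + (P.k2 + P.k3)) * BB)
      (P.N * (274877906944 * (3 * y + 1000 * (a' + e')) + OG * 200000000) +
        (P.k0 + P.k1 + (P.k2 + P.k3)) * BB)
      (P.N * (274877906944 * (3 * z + 2000 * e') + OG * 200000000) +
        (P.k0 + P.k1 + (P.k2 + P.k3)) * BB) := by
    rw [KG3_eq, BE3_eq, K3_eq]
    simp only [pack3_eq]
    generalize LX = X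
    ring
  rw [eL, eR] at hb
  have bd : ∀ {u0 u1 u2 u3 T : ℕ}, u0 ≤ 2 * BB → u1 ≤ 2 * BB → u2 ≤ 2 * BB → u3 ≤ 2 * BB →
      T ≤ 2 ^ 200 → P.k0 * u0 + P.k1 * u1 + (P.k2 * u2 + P.k3 * u3) + P.N * T < LH := by
    intro u0 u1 u2 u3 T q0 q1 q2 q3 qT
    have := Nat.mul_le_mul_left P.k0 q0
    have := Nat.mul_le_mul_left P.k1 q1
    have := Nat.mul_le_mul_left P.k2 q2
    have := Nat.mul_le_mul_left P.k3 q3
    have := Nat.mul_le_mul hN qT
    have := Nat.mul_le_mul_right (2 * BB) hK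
    have : 2 ^ 256 * (2 * BB) + 2 ^ 128 * 2 ^ 200 < LH := by decide +kernel
    linarith
  have bd' : ∀ {T : ℕ}, T ≤ 2 ^ 200 → P.N * T + (P.k0 + P.k1 + (P.k2 + P.k3)) * BB < LH := by
    intro T qT
    have := Nat.mul_le_mul hN qT
    have := Nat.mul_le_mul_right BB hK
    have : 2 ^ 256 * BB + 2 ^ 128 * 2 ^ 200 < LH := by decide +kernel
    linarith
  have T1 : 274877906944 * (OS + 3 * BB) + 2 * OG * 100000 ≤ 2 ^ 200 := by decide +kernel
  have T2 : 274877906944 * (2000 * OS + 3 * BB) + 2 * OG * 200000000 ≤ 2 ^ 200 := by decide +kernel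
  have T3 : 274877906944 * (3 * (2 * BB) + 4000 * (2 * OS)) + OG * 200000000 ≤ 2 ^ 200 := by
    decide +kernel
  obtain ⟨r0, r1, r2⟩ := lane_le (bd bx0 bx1 bx2 bx3 (by linarith))
    (bd by0 by1 by2 by3 (by linarith)) (bd bz0 bz1 bz2 bz3 (by linarith))
    (bd' (by linarith)) (bd' (by linarith)) (bd' (by linarith)) hb
  simp only [rowOK, Row.sum, et, List.map_cons, List.map_nil, List.sum_cons, List.sum_nil,
    Bool.and_eq_true, decide_eq_true_eq, ← hR.hN, show ZZ = (274877906944 : ℤ) from rfl,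
    show SS = (100000 : ℤ) from rfl, show TD = (1000 : ℤ) from rfl, show KAP = (3 : ℤ) from rfl]
  have q0 : ((P.k0 * x0 + P.k1 * x1 + (P.k2 * x2 + P.k3 * x3) +
        P.N * (274877906944 * (OS + 3 * BB) + c * 100000) : ℕ) : ℤ) ≤
      ((P.N * (274877906944 * (3 * x + a') + OG * 100000) +
        (P.k0 + P.k1 + (P.k2 + P.k3)) * BB : ℕ) : ℤ) := by exact_mod_cast r0
  have q1 : ((P.k0 * y0 + P.k1 * y1 + (P.k2 * y2 + P.k3 * y3) +
        P.N * (274877906944 * (2000 * OS + 3 * BB) + c * 200000000) : ℕ) : ℤ) ≤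
      ((P.N * (274877906944 * (3 * y + 1000 * (a' + e')) + OG * 200000000) +
        (P.k0 + P.k1 + (P.k2 + P.k3)) * BB : ℕ) : ℤ) := by exact_mod_cast r1
  have q2 : ((P.k0 * z0 + P.k1 * z1 + (P.k2 * z2 + P.k3 * z3) +
        P.N * (274877906944 * (2000 * OS + 3 * BB) + c * 200000000) : ℕ) : ℤ) ≤
      ((P.N * (274877906944 * (3 * z + 2000 * e') + OG * 200000000) +
        (P.k0 + P.k1 + (P.k2 + P.k3)) * BB : ℕ) : ℤ) := by exact_mod_cast r2
  push_cast at q0 q1 q2
  rw [hx0, hx1, hx2, hx3, hx, ha, hc] at q0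
  rw [hy0, hy1, hy2, hy3, hy, ha, he, hc] at q1
  rw [hz0, hz1, hz2, hz3, hz, he, hc] at q2
  exact ⟨⟨by linarith, by linarith⟩, by linarith⟩

theorem rec_all {α : Type} {f : α → Bool} : ∀ {rs : List α},
    List.rec (motive := fun _ => Bool) true (fun R _ ih => Bool.rec false ih (f R)) rs = true →
      ∀ P ∈ rs, f P = true
  | [], _, P, hP => by simp at hP
  | R :: rs, h, P, hP => by
    cases hb : f R
    · simp [hb] at h
    · rcases List.mem_cons.1 hP with rfl | hP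
      · exact hb
      · exact rec_all (rs := rs) (by simpa [hb] using h) P hP

theorem rec_seg {α : Type} {g : ℕ → List α → Bool} : ∀ {rows : List (List α)} {Ms : List ℕ},
    List.rec (motive := fun _ => List ℕ → Bool) (fun _ => true) (fun rs _ ih Ms =>
      List.rec (motive := fun _ => Bool) false (fun M Ms' _ => Bool.rec false (ih Ms') (g M rs)) Ms)
      rows Ms = true → ∀ i, rows.getD i [] ≠ [] → g (Ms.getD i 0) (rows.getD i []) = true
  | [], _, _, i, hi => by simp at hi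
  | rs :: rest, [], h, _, _ => by simp at h
  | rs :: rest, M :: Ms, h, i, hi => by
    cases hb : g M rs
    · simp [hb] at h
    · cases i with
      | zero => simpa using hb
      | succ i =>
        simpa using rec_seg (rows := rest) (Ms := Ms) (by simpa [hb] using h) i (by simpa using hi)

theorem segP_true {U : ℕ} {rows : List (List PRow)} {Ms : List ℕ} (h : segP U rows Ms = true)
    (i : ℕ) (P : PRow) (hP : P ∈ rows.getD i []) : rowP U (Ms.getD i 0) P = true :=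
  rec_all (f := rowP U (Ms.getD i 0))
    (rec_seg (g := rowsAll U) h i (List.ne_nil_of_mem hP)) P hP

theorem segRows_of_get {s : Seg1} {u w₁ w₂ : List ℤ} : ∀ {rows : List (List Row)} {k : ℕ},
    (∀ i, ∀ R ∈ rows.getD i [],
      rowOK (k + i) (ent s.a (k + i)) (ent s.e (k + i)) u w₁ w₂ R = true) →
      segRows s u w₁ w₂ k rows = true
  | [], _, _ => rfl
  | r :: rs, k, h => by
    simp only [segRows, Bool.and_eq_true, List.all_eq_true]
    refine ⟨fun R hR => by simpa using h 0 R (by simpa using hR), segRows_of_get fun i R hR => ?_⟩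
    have := h (i + 1) R (by simpa using hR)
    rwa [show k + (i + 1) = k + 1 + i by omega] at this

theorem getD_rel {α β : Type} {r : α → β → Prop} : ∀ {l₁ : List (List α)} {l₂ : List (List β)},
    List.Forall₂ (List.Forall₂ r) l₁ l₂ → ∀ i, List.Forall₂ r (l₁.getD i []) (l₂.getD i [])
  | _, _, .nil, i => by simp
  | _, _, .cons h hs, i => by
    cases i with
    | zero => simpa using h
    | succ i => simpa using getD_rel hs i

theorem mem_rel {α β : Type} {r : α → β → Prop} : ∀ {l₁ : List α} {l₂ : List β},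
    List.Forall₂ r l₁ l₂ → ∀ a ∈ l₁, ∃ b ∈ l₂, r a b
  | _, _, .nil, a, ha => by simp at ha
  | _, _, .cons h hs, a, ha => by
    rcases List.mem_cons.1 ha with rfl | ha
    · exact ⟨_, List.mem_cons_self .., h⟩
    · obtain ⟨b, hb, hr⟩ := mem_rel hs a ha
      exact ⟨b, List.mem_cons_of_mem _ hb, hr⟩

/-! ### Pieces -/

theorem qLe_true {c0 c1 c2 : ℤ} {q : Quad} (h0 : (q.p0 : ℤ) - q.n0 = c0)
    (h1 : (q.p1 : ℤ) - q.n1 = c1) (h2 : (q.p2 : ℤ) - q.n2 = c2) {m p : ℕ}
    (h : qLe m p q = true) : quadLe c0 c1 c2 p m = true := by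
  simp only [qLe, tN_eq, Bool.and_eq_true, Nat.add_eq, Nat.mul_eq] at h
  obtain ⟨⟨a, b⟩, c⟩ := h
  have a' := (Nat.cast_le (α := ℤ)).2 (Nat.le_of_ble_eq_true a)
  have b' := (Nat.cast_le (α := ℤ)).2 (Nat.le_of_ble_eq_true b)
  have c' := (Nat.cast_le (α := ℤ)).2 (Nat.le_of_ble_eq_true c)
  push_cast at a' b' c'
  simp only [quadLe, Bool.and_eq_true, decide_eq_true_eq, ← h0, ← h1, ← h2]
  exact ⟨⟨by linarith, by linarith⟩, by linarith⟩

theorem qAll_app {m p : ℕ} : ∀ {l₁ l₂ : List Quad}, qAll m p (l₁ ++ l₂) = true →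
    qAll m p l₁ = true ∧ qAll m p l₂ = true
  | [], l₂, h => ⟨rfl, h⟩
  | q :: l₁, l₂, h => by
    simp only [List.cons_append, qAll] at h
    cases hq : qLe m p q
    · simp [hq] at h
    · have h' := qAll_app (l₁ := l₁) (l₂ := l₂) (by simpa [qAll, hq] using h)
      exact ⟨by simpa [qAll, hq] using h'.1, h'.2⟩

theorem side_true {triv cond : Bool} {s : Seg1} {t0 : ℕ} {u : List ℤ} {k : ℕ} {α β : ℤ}
    {K : Bool → List Quad → Bool} (h : side triv cond s t0 u k α β K = true) :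
    ∃ f qs, K f qs = true ∧ (f = true → ∀ m p : ℕ, qAll m p qs = true →
      triv = true ∨ (cond = true ∧ pieceLe s t0 u k α β p m = true)) := by
  cases triv
  · cases cond
    · exact ⟨false, [], by simpa [side] using h, fun h' => by simp at h'⟩
    · simp only [side, mkQ] at h
      obtain ⟨p0, n0, h, e0⟩ := partsN_true h
      obtain ⟨p1, n1, h, e1⟩ := partsN_true h
      obtain ⟨p2, n2, h, e2⟩ := partsN_true h
      refine ⟨true, _, h, fun _ m p hq =>
        Or.inr ⟨rfl, qLe_true (q := ⟨p0, n0, p1, n1, p2, n2⟩) e0 e1 e2 ?_⟩⟩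
      simp only [qAll] at hq
      cases hb : qLe m p ⟨p0, n0, p1, n1, p2, n2⟩
      · simp [hb] at hq
      · rfl
  · exact ⟨true, [], by simpa [side] using h, fun _ _ _ _ => Or.inl rfl⟩

theorem childQ_true {T : List Tpl} {s : Seg1} {t0 : ℕ} {u : List ℤ} {b c : Box}
    {K : Bool → List Quad → Bool} (h : childQ T s t0 u b c K = true) :
    ∃ f qs, K f qs = true ∧ (f = true → ∀ p : ℕ, qAll 0 p qs = true →
      inChild T s t0 u p b c = true) := by
  simp only [childQ] at h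
  obtain ⟨f1, q1, h, g1⟩ := side_true h
  obtain ⟨f2, q2, h, g2⟩ := side_true h
  obtain ⟨f3, q3, h, g3⟩ := side_true h
  obtain ⟨f5, q5, h, g5⟩ := side_true h
  obtain ⟨f6, q6, h, g6⟩ := side_true h
  cases hb : (decide (c.l0 ≤ b.l0) && f1 && f2 && f3 && f5 && f6)
  · exact ⟨false, [], by simpa [hb] using h, fun h' => by simp at h'⟩
  · simp only [hb] at h
    refine ⟨true, _, h, fun _ p hq => ?_⟩
    simp only [Bool.and_eq_true] at hb
    obtain ⟨⟨⟨⟨⟨hl, h1⟩, h2⟩, h3⟩, h5⟩, h6⟩ := hb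
    obtain ⟨hq, a6⟩ := qAll_app hq
    obtain ⟨hq, a5⟩ := qAll_app hq
    obtain ⟨hq, a3⟩ := qAll_app hq
    obtain ⟨a1, a2⟩ := qAll_app hq
    have r1 := g1 h1 0 p a1
    have r2 := g2 h2 0 p a2
    have r3 := g3 h3 0 p a3
    have r5 := g5 h5 0 p a5
    have r6 := g6 h6 0 p a6
    simp only [inChild, Bool.or_eq_true, Bool.and_eq_true, decide_eq_true_eq, Nat.cast_zero] at r1 r2 r3 r5 r6 hl ⊢
    exact ⟨⟨⟨⟨⟨r1.imp_right fun r => ⟨r.1, r.2⟩, r2.imp_right fun r => ⟨r.1, r.2⟩⟩, hl⟩,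
      r3.imp_right fun r => ⟨r.1, r.2⟩⟩,
      r5.imp_right fun r => ⟨⟨⟨⟨r.1.1.1, r.1.1.2.1⟩, r.1.1.2.2⟩, r.1.2⟩, r.2⟩⟩,
      r6.imp_right fun r => ⟨⟨⟨⟨r.1.1.1, r.1.1.2.1⟩, r.1.1.2.2⟩, r.1.2⟩, r.2⟩⟩

theorem loopP_true {s0 s1 hn t8 flags : ℕ} {fb : Bool} {qb : List Quad} {fc : Bool}
    {qc : List Quad} {f0 f1 : ℕ} : ∀ {n : ℕ}, loopP s0 s1 hn t8 flags fb qb fc qc f0 f1 n = true →
    ∀ p < n, t8 + hn * p + hn < s0 ∨ s1 < t8 + hn * p ∨
      (flags.testBit p = true ∧ fb = true ∧ qAll 1 p qb = true) ∨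
      (flags.testBit p = false ∧ fc = true ∧ (f0 ≤ t8 + hn * p ∨ f0 ≤ s0) ∧
        (t8 + hn * p + hn ≤ f1 ∨ s1 ≤ f1) ∧ qAll 0 p qc = true)
  | 0, _, p, hp => by omega
  | n + 1, h, p, hp => by
    simp only [loopP, tN_eq, Nat.add_eq, Nat.mul_eq] at h
    generalize hb : (Nat.ble (t8 + hn * n + hn + 1) s0 || Nat.ble (s1 + 1) (t8 + hn * n) ||
          Bool.rec (fc && (Nat.ble f0 (t8 + hn * n) || Nat.ble f0 s0) &&
              (Nat.ble (t8 + hn * n + hn) f1 || Nat.ble s1 f1) && qAll 0 n qc)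
            (fb && qAll 1 n qb) (Nat.beq (Nat.mod (Nat.shiftRight flags n) 2) 1)) = bb at h
    cases bb
    · simp at h
    · rcases Nat.lt_succ_iff_lt_or_eq.1 hp with hp | rfl
      · exact loopP_true (n := n) (by simpa [loopP, tN_eq] using h) p hp
      · have et : flags.testBit p = Nat.beq (Nat.mod (Nat.shiftRight flags p) 2) 1 := by
          rw [Nat.testBit_eq_decide_div_mod_eq, ← Nat.shiftRight_eq_div_pow]
          show decide ((flags >>> p) % 2 = 1) = Nat.beq ((flags >>> p) % 2) 1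
          rcases Nat.mod_two_eq_zero_or_one (flags >>> p) with e | e <;> (rw [e]; rfl)
        simp only [Bool.or_eq_true, Nat.ble_eq] at hb
        rcases hb with (hb | hb) | hb
        · exact Or.inl hb
        · exact Or.inr (Or.inl hb)
        · cases hbit : Nat.beq (Nat.mod (Nat.shiftRight flags p) 2) 1
          · simp only [hbit, Bool.and_eq_true, Bool.or_eq_true, Nat.ble_eq] at hb
            exact Or.inr (Or.inr (Or.inr ⟨et.trans hbit, hb.1.1.1, hb.1.1.2, hb.1.2, hb.2⟩))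
          · simp only [hbit, Bool.and_eq_true] at hb
            exact Or.inr (Or.inr (Or.inl ⟨et.trans hbit, hb.1, hb.2⟩))

theorem piecesF_true {T : List Tpl} {b : Box} {s0 s1 : ℕ} {ex : Exit} {s : Seg1} {t0 : ℕ}
    {u : List ℤ} (h : piecesF T b s0 s1 ex s t0 u = true) :
    ∀ p < 8, pieceOK T b s0 s1 ex s t0 u p = true := by
  simp only [piecesF] at h
  obtain ⟨f, q, h, hb⟩ := side_true h
  obtain ⟨fb, qb, h, hbelow⟩ : ∃ fb qb, (tN (Nat.mul 8 t0) fun t8 => tN (Nat.mul 8 s0) fun a =>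
      tN (Nat.mul 8 s1) fun z => match ex with
      | none => loopP a z s.hn t8 s.flags fb qb false [] 0 0 8
      | some (c, f0, f1) => childQ T s t0 u b c fun fc qc =>
          loopP a z s.hn t8 s.flags fb qb fc qc (Nat.mul 8 f0) (Nat.mul 8 f1) 8) = true ∧
      (fb = true → ∀ p : ℕ, qAll 1 p qb = true → belowTime T s t0 u p = true) := by
    cases hd : decide (s.flags = 0)
    · simp only [hd] at h hb
      refine ⟨f, q, h, fun hf p hq => ?_⟩
      rcases hb hf 1 p hq with hx | ⟨hu, hp⟩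
      · simp at hx
      · simp only [belowTime, hu, Bool.true_and]
        exact_mod_cast hp
    · simp only [hd] at h
      exact ⟨false, [], h, fun h' => by simp at h'⟩
  simp only [tN_eq, Nat.mul_eq] at h
  intro p hp
  simp only [pieceOK, Bool.or_eq_true, decide_eq_true_eq]
  rcases ex with _ | ⟨c, f0, f1⟩
  · rcases loopP_true h p hp with r | r | ⟨ht, hf, hq⟩ | ⟨-, hf, -⟩
    · exact Or.inl (Or.inl r)
    · exact Or.inl (Or.inr r)
    · exact Or.inr (by rw [if_pos ht]; exact hbelow hf p hq)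
    · simp at hf
  · obtain ⟨fc, qc, h, hc⟩ := childQ_true h
    rcases loopP_true h p hp with r | r | ⟨ht, hf, hq⟩ | ⟨ht, hf, r0, r1, hq⟩
    · exact Or.inl (Or.inl r)
    · exact Or.inl (Or.inr r)
    · exact Or.inr (by rw [if_pos ht]; exact hbelow hf p hq)
    · refine Or.inr ?_
      rw [if_neg (by simp [ht])]
      simp only [Bool.and_eq_true, decide_eq_true_eq, le_max_iff, min_le_iff]
      exact ⟨⟨r0, r1⟩, hc hf p hq⟩

/-! ### Segments, groups, trees -/

theorem segsOK_of_segsF {T : List Tpl} {lim : ℕ} (hlim : lim = L3 * T.length) {b : Box}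
    {s0 s1 : ℕ} {ex : Exit} {rows : List (List Row)} {pr : List (List PRow)}
    (hrows : List.Forall₂ (List.Forall₂ (RowRel lim)) rows pr) (hlen : rows.length = T.length)
    {restF rest : ℕ → List ℤ → Bool}
    (hrest : ∀ t u, u.length = T.length → restF t u = true → rest t u = true) :
    ∀ (segs : List Seg1) (t0 : ℕ) (u : List ℤ),
      segsF T b s0 s1 ex pr restF segs t0 u = true → u.length = T.length →
        segsOK T b s0 s1 ex rows rest segs t0 u = true
  | [], t0, u, h, hu => by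
    simp only [segsF] at h
    simp only [segsOK]
    exact hrest t0 u hu h
  | s :: ss, t0, u, h, hu => by
    simp only [segsF, thenInts_eq, tN_eq, Bool.and_eq_true, decide_eq_true_eq] at h
    simp only [segsOK, thenInts_eq, Bool.and_eq_true, decide_eq_true_eq, List.all_eq_true,
      List.mem_range]
    obtain ⟨⟨⟨⟨⟨ha, he⟩, hh⟩, hr⟩, hp⟩, hn⟩ := h
    refine ⟨⟨⟨⟨⟨ha, he⟩, hh⟩, ?_⟩, piecesF_true hp⟩,
      segsOK_of_segsF hlim hrows hlen hrest ss _ _ hn (by simp [Seg1.next, Seg1.fin, hu, ha, he])⟩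
    obtain ⟨U, Ms, hseg, hWM⟩ := allWM_true rfl rfl s.a s.e u hr (he.trans ha.symm) (hu.trans ha.symm)
    simp only [ha, ← ent_mid hu ha, ← ent_fin hu ha he] at hWM
    refine segRows_of_get fun i R hR => ?_
    rw [Nat.zero_add]
    have hi : i < T.length := by
      by_contra hne
      rw [List.getD_eq_default _ _ (by omega)] at hR
      simp at hR
    obtain ⟨P, hP, hRP⟩ := mem_rel (getD_rel hrows i) R hR
    exact rowP_sound hlim hRP (fun j hj => ⟨_, hWM j hj⟩) ⟨_, hWM i hi⟩ (segP_true hseg i P hP)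

theorem grpsOK_of_grpsF {T : List Tpl} {lim : ℕ} (hlim : lim = L3 * T.length) {bt : BT} {bp : BP}
    (hbp : ∀ n, (bp.get n).Spec lim (bt.get n)) {b : Box} {gv : List (List GV)}
    (hgv : List.Forall₂ (fun t r => List.Forall₂ (fun cv G => GV.Spec G t cv) b.corners r) T gv)
    {s0 s1 : ℕ} {ex : Exit} {ray : List (ℕ × ℕ)} : ∀ (gs : List Grp) (t0 : ℕ) (u : List ℤ),
      grpsF T bp b gv s0 s1 ex ray gs t0 u = true → u.length = T.length →
        grpsOK T bt b s0 s1 ex ray gs t0 u = true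
  | [], t0, u, h, _ => by simpa [grpsF, grpsOK] using h
  | g :: gs, t0, u, h, hu => by
    simp only [grpsF, Bool.and_eq_true, decide_eq_true_eq] at h
    obtain ⟨pr, h', hpr⟩ := rowsP_true hbp (corners_zero b) hgv h.2
    rw [rows_eq h.1] at hpr
    simp only [grpsOK, thenL_eq (thenL_eq thenRow_eq), Bool.and_eq_true, decide_eq_true_eq,
      List.all_eq_true]
    refine ⟨h.1, fun r hr R hR => ?_, segsOK_of_segsF hlim hpr (by simp [Grp.rows, h.1])
      (fun t u' hu' hx => grpsOK_of_grpsF hlim hbp hgv gs t u' hx hu') g.segs t0 u h' hu⟩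
    obtain ⟨r', -, hrr⟩ := mem_rel hpr r hr
    obtain ⟨P, -, hP⟩ := mem_rel hrr R hR
    exact hP.ok

theorem nodeP_imp {T : List Tpl} {lim : ℕ} (hlim : lim = L3 * T.length) {bt : BT} {bp : BP}
    (hbp : ∀ n, (bp.get n).Spec lim (bt.get n)) {tf : List TF}
    (htf : List.Forall₂ (fun t f => TF.Spec f t) T tf) {b : Box} {s0 s1 : ℕ} {ex : Exit}
    {ray : List (ℕ × ℕ)} {gs : List Grp} (h : nodeP T tf bp b s0 s1 ex ray gs = true) :
    grpsOK T bt b s0 s1 ex ray gs 0 (List.replicate T.length 0) = true := by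
  simp only [nodeP] at h
  obtain ⟨vs, h, hvs⟩ := convCs_true h
  obtain ⟨gv, h, hgv⟩ := allG_true hvs htf h
  exact grpsOK_of_grpsF hlim hbp hgv gs 0 _ h (by simp)

/-- A node passing the fast test passes the plain test. -/
theorem nodeF_imp {T : List Tpl} {bt : BT} {b : Box} {s0 s1 : ℕ} {ex : Exit} {ray : List (ℕ × ℕ)}
    {gs : List Grp} (h : nodeF T bt b s0 s1 ex ray gs = true) :
    grpsOK T bt b s0 s1 ex ray gs 0 (List.replicate T.length 0) = true := by
  simp only [nodeF, tN_eq, Nat.mul_eq] at h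
  obtain ⟨tf, h, htf⟩ := convTs_true h
  obtain ⟨bp, h, hbp⟩ := convT_true h
  exact nodeP_imp rfl hbp htf h

theorem Cert.ok_of_okP {T : List Tpl} {lim : ℕ} (hlim : lim = L3 * T.length) {bt : BT} {bp : BP}
    (hbp : ∀ n, (bp.get n).Spec lim (bt.get n)) {tf : List TF}
    (htf : List.Forall₂ (fun t f => TF.Spec f t) T tf) : ∀ {C : Cert} {b : Box} {s0 s1 : ℕ},
    C.okP T tf bp b s0 s1 = true → C.ok T bt b s0 s1 = true
  | .done gs ray, b, s0, s1, h => by
    simp only [Cert.okP] at h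
    simpa only [Cert.ok] using nodeP_imp hlim hbp htf h
  | .narrow gs ray c f0 f1 sub, b, s0, s1, h => by
    simp only [Cert.okP, Bool.and_eq_true] at h
    simp only [Cert.ok, Bool.and_eq_true]
    exact ⟨nodeP_imp hlim hbp htf h.1, Cert.ok_of_okP hlim hbp htf h.2⟩
  | .empty, b, s0, s1, h => by simpa [Cert.okP, Cert.ok] using h
  | .split ax m l r, b, s0, s1, h => by
    simp only [Cert.okP, Bool.and_eq_true] at h
    simp only [Cert.ok, Bool.and_eq_true]
    exact ⟨Cert.ok_of_okP hlim hbp htf h.1, Cert.ok_of_okP hlim hbp htf h.2⟩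

/-- A tree passing the fast test passes the plain test. -/
theorem Cert.ok_of_okF {T : List Tpl} {bt : BT} {C : Cert} {b : Box} {s0 s1 : ℕ}
    (h : C.okF T bt b s0 s1 = true) : C.ok T bt b s0 s1 = true := by
  simp only [Cert.okF, tN_eq, Nat.mul_eq] at h
  obtain ⟨tf, h, htf⟩ := convTs_true h
  obtain ⟨bp, h, hbp⟩ := convT_true h
  exact Cert.ok_of_okP rfl hbp htf h

/-- Bases passing the fast test are correct. -/
theorem BT.ok_of_okF {T : List Tpl} : ∀ {bt : BT}, bt.okF T = true → bt.ok T = true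
  | .nil, _ => rfl
  | .node l r, h => by
    simp only [BT.okF, Bool.and_eq_true] at h
    simp only [BT.ok, Bool.and_eq_true]
    exact ⟨BT.ok_of_okF h.1, BT.ok_of_okF h.2⟩
  | .leaf B, h => by
    simp only [BT.okF] at h
    simp only [BT.ok]
    unfold basF at h
    split at h
    · next i0 i1 i2 i3 a00 a01 a02 a03 a10 a11 a12 a13 a20 a21 a22 a23 a30 a31 a32 a33 hI hA =>
      split at h
      · next y00 y01 y02 y03 y10 y11 y12 y13 y20 y21 y22 y23 y30 y31 y32 y33 q0 q1 q2 q3 =>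
        simp only [Bool.and_eq_true, decide_eq_true_eq] at h
        simp [Bas.ok, hI, hA, q0, q1, q2, q3, ent, show List.range 4 = [0, 1, 2, 3] from rfl, h]
      · simp at h
    · simp at h

/-- Soundness of the fast test. -/
theorem Cert.soundF {T : List Tpl} {bt : BT} (hbt : bt.ok T = true) {c : Fin 4 → ℝ} {X : ℝ}
    {H H' : ℝ → Fin 4 → ℝ} (hf : FlowPt T c H H') (hfix : FixPt c X H) (C : Cert) (b : Box)
    (s0 s1 : ℕ) (h : C.okF T bt b s0 s1 = true) (hm : b.Mem c) (h0 : (s0 : ℝ) ≤ X * TD)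
    (h1 : X * TD ≤ s1) : False :=
  Cert.sound hbt hf hfix C b s0 s1 (Cert.ok_of_okF h) hm h0 h1

/-- A certificate passing the fast test excludes its box and range. -/
theorem Excluded.of_okF {T : List Tpl} {bt : BT} (hbt : bt.ok T = true) {C : Cert} {b : Box}
    {s0 s1 : ℕ} (h : C.okF T bt b s0 s1 = true) : Excluded T b s0 s1 :=
  Excluded.of_ok hbt (Cert.ok_of_okF h)

/-- A node passing the fast test over an excluded child. -/
theorem Excluded.narrowF {T : List Tpl} {bt : BT} (hbt : bt.ok T = true) {b c : Box} {s0 s1 f0 f1 : ℕ}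
    {gs : List Grp} {ray : List (ℕ × ℕ)}
    (hg : nodeF T bt b s0 s1 (some (c, f0, f1)) ray gs = true) (hs : Excluded T c f0 f1) :
    Excluded T b s0 s1 :=
  Excluded.narrow hbt (nodeF_imp hg) hs

end Vale.Agent.P154.Q3.End.Semi
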