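import Vale.Agent.P154.End.Semi.BoxCert

/-!
# Soundness of the flow certificates
-/

namespace Vale.Agent.P154.Q3.End.Semi

open scoped BigOperators

/-- An entry as a real number. -/
def rent (l : List ℤ) (i : ℕ) : ℝ := (ent l i : ℝ)

/-- A template applied to a vector. -/
def tplDot (T : List Tpl) (k : ℕ) (h : Fin 4 → ℝ) : ℝ :=
  ∑ i : Fin 4, rent (tpl T k).y i * h i

/-- The bound of a template on the speed at the moments `h`, for the child moments `c`. -/
def tplGain (t : Tpl) (h c : Fin 4 → ℝ) : ℝ :=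
  ∑ j : Fin 4, (rent t.C0 j + ∑ i : Fin 4, rent (t.C.getD i []) j * h i) * c j

/-- A box of child moments. -/
structure Box.Mem (b : Box) (c : Fin 4 → ℝ) : Prop where
  c0 : c 0 = 1
  half : 2 * c 1 < 1
  apos : 0 < c 2
  r0 : (b.r0 : ℝ) ≤ QQ * c 1
  r1 : (QQ : ℝ) * c 1 ≤ b.r1
  l0 : 3 * (b.l0 : ℝ) * (1 - 2 * c 1) ≤ 4 * QQ * c 2
  l1 : 4 * (QQ : ℝ) * c 2 ≤ 3 * b.l1 * (1 - 2 * c 1)
  g0 : (b.g0 : ℝ) * c 2 ≤ QQ * c 3
  g1 : (QQ : ℝ) * c 3 ≤ b.g1 * c 2

/-- A path obeying the differential inequalities of all templates. -/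
structure FlowPt (T : List Tpl) (c : Fin 4 → ℝ) (H H' : ℝ → Fin 4 → ℝ) : Prop where
  zero : ∀ i, H 0 i = 0
  deriv : ∀ t i, HasDerivAt (fun s => H s i) (H' t i) t
  gain : ∀ k < T.length, ∀ t, 0 ≤ t → tplDot T k (H' t) ≤ tplGain (tpl T k) (H t) c

/-- At time `X` the path gives back the child moments, up to the factors of one edge. -/
structure FixPt (c : Fin 4 → ℝ) (X : ℝ) (H : ℝ → Fin 4 → ℝ) : Prop where
  pos : 0 < X
  mag : H X 0 = X
  fourth : 0 ≤ H X 2
  edge : ∃ μ : ℝ, 0 ≤ μ ∧ μ ≤ 1 / 2 ∧ c 1 * X = -(μ * H X 1) ∧ c 2 * X = μ ^ 2 * H X 2 ∧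
    c 3 * X = -(μ ^ 3 * H X 3)

/-! ### The corners -/

theorem affine_le_max {p q a b x : ℝ} (ha : a ≤ x) (hb : x ≤ b) :
    p + q * x ≤ p + q * a ∨ p + q * x ≤ p + q * b := by
  rcases le_total 0 q with h | h
  · exact Or.inr (by linarith [mul_le_mul_of_nonneg_left hb h])
  · exact Or.inl (by linarith [mul_le_mul_of_nonpos_left ha h])

theorem exists_corner {b : Box} {c : Fin 4 → ℝ} (hm : b.Mem c) (A : Fin 4 → ℝ) :
    ∃ cv ∈ b.corners, (ZZ : ℝ) * (∑ j, A j * c j) ≤ ∑ j : Fin 4, A j * rent cv j := by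
  obtain ⟨x, hx⟩ : ∃ x, x = (QQ : ℝ) * c 1 := ⟨_, rfl⟩
  have hQ : (QQ : ℝ) = 4096 := by norm_num [QQ]
  -- the last coordinate
  obtain ⟨g, hg, h3⟩ : ∃ g : ℤ, (g = b.g0 ∨ g = b.g1) ∧ A 3 * (QQ * c 3) ≤ A 3 * (g * c 2) := by
    rcases affine_le_max (p := 0) (q := A 3) hm.g0 hm.g1 with h | h
    · exact ⟨_, Or.inl rfl, by linarith⟩
    · exact ⟨_, Or.inr rfl, by linarith⟩
  obtain ⟨l, hl, h2⟩ : ∃ l : ℤ, (l = b.l0 ∨ l = b.l1) ∧
      (A 2 * QQ + A 3 * g) * (4 * QQ * c 2) ≤ (A 2 * QQ + A 3 * g) * (3 * l * (1 - 2 * c 1)) := by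
    rcases affine_le_max (p := 0) (q := A 2 * QQ + A 3 * (g : ℝ)) hm.l0 hm.l1 with h | h
    · exact ⟨_, Or.inl rfl, by linarith⟩
    · exact ⟨_, Or.inr rfl, by linarith⟩
  set q := A 1 * (4 * QQ * QQ) - 6 * l * (A 2 * QQ + A 3 * g)
  obtain ⟨r, hr, h1⟩ : ∃ r : ℤ, (r = b.r0 ∨ r = b.r1) ∧ q * (QQ * c 1) ≤ q * r := by
    rcases affine_le_max (p := 0) (q := q) hm.r0 hm.r1 with h | h
    · exact ⟨_, Or.inl rfl, by linarith⟩
    · exact ⟨_, Or.inr rfl, by linarith⟩
  refine ⟨corner r l g, ?_, ?_⟩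
  · rcases hr with rfl | rfl <;> rcases hl with rfl | rfl <;> rcases hg with rfl | rfl <;>
      simp [Box.corners]
  · simp only [Fin.sum_univ_four, corner, rent, ent, ZZ, hm.c0, Fin.val_zero, Fin.val_one,
      Fin.val_two, show ((3 : Fin 4) : ℕ) = 3 from rfl, List.getD_cons_zero, List.getD_cons_succ]
    simp only [q, hQ] at h1 h2 h3
    push_cast
    rw [hQ]
    linarith

/-! ### Rows -/

theorem BT.ok_get {T : List Tpl} : ∀ {bt : BT}, bt.ok T = true → ∀ n, 0 < (bt.get n).N →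
    (bt.get n).ok T = true
  | .nil, _, n, h => by simp [BT.get] at h
  | .leaf B, h, n, _ => by simpa [BT.get, BT.ok] using h
  | .node l r, h, n, hn => by
    simp only [BT.ok, Bool.and_eq_true] at h
    simp only [BT.get] at hn ⊢
    split_ifs at hn ⊢
    · exact BT.ok_get h.1 _ hn
    · exact BT.ok_get h.2 _ hn

/-- The algebra behind a row. -/
theorem alg {a00 a01 a02 a03 a10 a11 a12 a13 a20 a21 a22 a23 a30 a31 a32 a33 y00 y01 y02 y03 y10
    y11 y12 y13 y20 y21 y22 y23 y30 y31 y32 y33 h0 h1 h2 h3 c00 c01 c02 c03 c10 c11 c12 c13 c20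
    c21 c22 c23 c30 c31 c32 c33 u0 u1 u2 u3 t0 t1 t2 t3 v0 v1 v2 v3 N κ Z : ℝ}
    (e00 : a00 * y00 + a10 * y10 + a20 * y20 + a30 * y30 = N)
    (e01 : a01 * y00 + a11 * y10 + a21 * y20 + a31 * y30 = 0)
    (e02 : a02 * y00 + a12 * y10 + a22 * y20 + a32 * y30 = 0)
    (e03 : a03 * y00 + a13 * y10 + a23 * y20 + a33 * y30 = 0)
    (e10 : a00 * y01 + a10 * y11 + a20 * y21 + a30 * y31 = 0)
    (e11 : a01 * y01 + a11 * y11 + a21 * y21 + a31 * y31 = N)
    (e12 : a02 * y01 + a12 * y11 + a22 * y21 + a32 * y31 = 0)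
    (e13 : a03 * y01 + a13 * y11 + a23 * y21 + a33 * y31 = 0)
    (e20 : a00 * y02 + a10 * y12 + a20 * y22 + a30 * y32 = 0)
    (e21 : a01 * y02 + a11 * y12 + a21 * y22 + a31 * y32 = 0)
    (e22 : a02 * y02 + a12 * y12 + a22 * y22 + a32 * y32 = N)
    (e23 : a03 * y02 + a13 * y12 + a23 * y22 + a33 * y32 = 0)
    (e30 : a00 * y03 + a10 * y13 + a20 * y23 + a30 * y33 = 0)
    (e31 : a01 * y03 + a11 * y13 + a21 * y23 + a31 * y33 = 0)
    (e32 : a02 * y03 + a12 * y13 + a22 * y23 + a32 * y33 = 0)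
    (e33 : a03 * y03 + a13 * y13 + a23 * y23 + a33 * y33 = N) :
    N * ((u0 + (c00 * h0 + c10 * h1 + c20 * h2 + c30 * h3)) * v0 +
        (u1 + (c01 * h0 + c11 * h1 + c21 * h2 + c31 * h3)) * v1 +
        (u2 + (c02 * h0 + c12 * h1 + c22 * h2 + c32 * h3)) * v2 +
        (u3 + (c03 * h0 + c13 * h1 + c23 * h2 + c33 * h3)) * v3) =
      N * (u0 * v0 + u1 * v1 + u2 * v2 + u3 * v3) +
        ((a00 * (c00 * v0 + c01 * v1 + c02 * v2 + c03 * v3 + κ * Z * t0) +
          a01 * (c10 * v0 + c11 * v1 + c12 * v2 + c13 * v3 + κ * Z * t1) +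
          a02 * (c20 * v0 + c21 * v1 + c22 * v2 + c23 * v3 + κ * Z * t2) +
          a03 * (c30 * v0 + c31 * v1 + c32 * v2 + c33 * v3 + κ * Z * t3)) *
            (y00 * h0 + y01 * h1 + y02 * h2 + y03 * h3) +
        ((a10 * (c00 * v0 + c01 * v1 + c02 * v2 + c03 * v3 + κ * Z * t0) +
          a11 * (c10 * v0 + c11 * v1 + c12 * v2 + c13 * v3 + κ * Z * t1) +
          a12 * (c20 * v0 + c21 * v1 + c22 * v2 + c23 * v3 + κ * Z * t2) +
          a13 * (c30 * v0 + c31 * v1 + c32 * v2 + c33 * v3 + κ * Z * t3)) *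
            (y10 * h0 + y11 * h1 + y12 * h2 + y13 * h3) +
        ((a20 * (c00 * v0 + c01 * v1 + c02 * v2 + c03 * v3 + κ * Z * t0) +
          a21 * (c10 * v0 + c11 * v1 + c12 * v2 + c13 * v3 + κ * Z * t1) +
          a22 * (c20 * v0 + c21 * v1 + c22 * v2 + c23 * v3 + κ * Z * t2) +
          a23 * (c30 * v0 + c31 * v1 + c32 * v2 + c33 * v3 + κ * Z * t3)) *
            (y20 * h0 + y21 * h1 + y22 * h2 + y23 * h3) +
        ((a30 * (c00 * v0 + c01 * v1 + c02 * v2 + c03 * v3 + κ * Z * t0) +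
          a31 * (c10 * v0 + c11 * v1 + c12 * v2 + c13 * v3 + κ * Z * t1) +
          a32 * (c20 * v0 + c21 * v1 + c22 * v2 + c23 * v3 + κ * Z * t2) +
          a33 * (c30 * v0 + c31 * v1 + c32 * v2 + c33 * v3 + κ * Z * t3)) *
            (y30 * h0 + y31 * h1 + y32 * h2 + y33 * h3) + 0)))) -
        N * κ * Z * (t0 * h0 + t1 * h1 + t2 * h2 + t3 * h3) := by
  linear_combination (-((c00 * v0 + c01 * v1 + c02 * v2 + c03 * v3 + κ * Z * t0) * h0)) * e00 +
    (-((c10 * v0 + c11 * v1 + c12 * v2 + c13 * v3 + κ * Z * t1) * h0)) * e01 +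
    (-((c20 * v0 + c21 * v1 + c22 * v2 + c23 * v3 + κ * Z * t2) * h0)) * e02 +
    (-((c30 * v0 + c31 * v1 + c32 * v2 + c33 * v3 + κ * Z * t3) * h0)) * e03 +
    (-((c00 * v0 + c01 * v1 + c02 * v2 + c03 * v3 + κ * Z * t0) * h1)) * e10 +
    (-((c10 * v0 + c11 * v1 + c12 * v2 + c13 * v3 + κ * Z * t1) * h1)) * e11 +
    (-((c20 * v0 + c21 * v1 + c22 * v2 + c23 * v3 + κ * Z * t2) * h1)) * e12 +
    (-((c30 * v0 + c31 * v1 + c32 * v2 + c33 * v3 + κ * Z * t3) * h1)) * e13 +
    (-((c00 * v0 + c01 * v1 + c02 * v2 + c03 * v3 + κ * Z * t0) * h2)) * e20 +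
    (-((c10 * v0 + c11 * v1 + c12 * v2 + c13 * v3 + κ * Z * t1) * h2)) * e21 +
    (-((c20 * v0 + c21 * v1 + c22 * v2 + c23 * v3 + κ * Z * t2) * h2)) * e22 +
    (-((c30 * v0 + c31 * v1 + c32 * v2 + c33 * v3 + κ * Z * t3) * h2)) * e23 +
    (-((c00 * v0 + c01 * v1 + c02 * v2 + c03 * v3 + κ * Z * t0) * h3)) * e30 +
    (-((c10 * v0 + c11 * v1 + c12 * v2 + c13 * v3 + κ * Z * t1) * h3)) * e31 +
    (-((c20 * v0 + c21 * v1 + c22 * v2 + c23 * v3 + κ * Z * t2) * h3)) * e32 +
    (-((c30 * v0 + c31 * v1 + c32 * v2 + c33 * v3 + κ * Z * t3) * h3)) * e33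

theorem mkRow_spec {T : List Tpl} {B : Bas} (hB : B.ok T = true) (k : ℕ) (cv : List ℤ)
    (h : Fin 4 → ℝ) :
    (B.N : ℝ) * ∑ j : Fin 4, (rent (tpl T k).C0 j +
        ∑ i : Fin 4, rent ((tpl T k).C.getD i []) j * h i) * rent cv j =
      B.N * (mkRow T k cv B).c +
        ((mkRow T k cv B).terms.map fun q => (q.2 : ℝ) * tplDot T q.1 h).sum -
        B.N * KAP * ZZ * tplDot T k h := by
  simp only [Bas.ok, List.all_eq_true, List.mem_range, decide_eq_true_eq] at hB
  have e : ∀ i < 4, ∀ i' < 4, ((ent (B.A.getD 0 []) i' : ℝ) * ent (tpl T (B.ids.getD 0 0)).y i +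
      ent (B.A.getD 1 []) i' * ent (tpl T (B.ids.getD 1 0)).y i +
      ent (B.A.getD 2 []) i' * ent (tpl T (B.ids.getD 2 0)).y i +
      ent (B.A.getD 3 []) i' * ent (tpl T (B.ids.getD 3 0)).y i) =
      if i = i' then (B.N : ℝ) else 0 := fun i hi i' hi' => by
    have := congrArg (Int.cast (R := ℝ)) (hB i hi i' hi')
    simp only [show List.range 4 = [0, 1, 2, 3] from rfl, List.foldl_cons, List.foldl_nil] at this
    push_cast at this
    split_ifs at this ⊢ with hii <;> linarith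
  have e00 := e 0 (by norm_num) 0 (by norm_num)
  have e01 := e 0 (by norm_num) 1 (by norm_num)
  have e02 := e 0 (by norm_num) 2 (by norm_num)
  have e03 := e 0 (by norm_num) 3 (by norm_num)
  have e10 := e 1 (by norm_num) 0 (by norm_num)
  have e11 := e 1 (by norm_num) 1 (by norm_num)
  have e12 := e 1 (by norm_num) 2 (by norm_num)
  have e13 := e 1 (by norm_num) 3 (by norm_num)
  have e20 := e 2 (by norm_num) 0 (by norm_num)
  have e21 := e 2 (by norm_num) 1 (by norm_num)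
  have e22 := e 2 (by norm_num) 2 (by norm_num)
  have e23 := e 2 (by norm_num) 3 (by norm_num)
  have e30 := e 3 (by norm_num) 0 (by norm_num)
  have e31 := e 3 (by norm_num) 1 (by norm_num)
  have e32 := e 3 (by norm_num) 2 (by norm_num)
  have e33 := e 3 (by norm_num) 3 (by norm_num)
  norm_num at e00 e01 e02 e03 e10 e11 e12 e13 e20 e21 e22 e23 e30 e31 e32 e33
  simp only [mkRow, tplDot, rent, dot4, show List.range 4 = [0, 1, 2, 3] from rfl, List.map_cons,
    List.map_nil, List.sum_cons, List.sum_nil, Fin.sum_univ_four, ent, List.getD_cons_zero,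
    List.getD_cons_succ, Fin.val_zero, Fin.val_one, Fin.val_two,
    show ((3 : Fin 4) : ℕ) = 3 from rfl]
  simp only [ent] at e00 e01 e02 e03 e10 e11 e12 e13 e20 e21 e22 e23 e30 e31 e32 e33
  push_cast
  exact alg e00 e01 e02 e03 e10 e11 e12 e13 e20 e21 e22 e23 e30 e31 e32 e33

/-- A row bounds the gain at its corner. -/
def RowSpecAt (T : List Tpl) (k : ℕ) (cv : List ℤ) (R : Row) : Prop :=
  0 < R.N ∧ (∀ q ∈ R.terms, 0 ≤ q.2) ∧ ∀ h : Fin 4 → ℝ,
    (R.N : ℝ) * ∑ j : Fin 4, (rent (tpl T k).C0 j +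
        ∑ i : Fin 4, rent ((tpl T k).C.getD i []) j * h i) * rent cv j =
      R.N * R.c + (R.terms.map fun q => (q.2 : ℝ) * tplDot T q.1 h).sum -
        R.N * KAP * ZZ * tplDot T k h

/-- Checked rows cover every corner of every template. -/
theorem rows_spec {T : List Tpl} {bt : BT} (hbt : bt.ok T = true) {b : Box} {g : Grp}
    (hlen : g.bases.length = T.length) (hok : (g.rows T bt b).all (fun r => r.all Row.ok) = true) :
    (g.rows T bt b).length = T.length ∧ ∀ k < T.length, ∀ cv ∈ b.corners,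
      ∃ R ∈ (g.rows T bt b).getD k [], RowSpecAt T k cv R := by
  have hl : (g.rows T bt b).length = T.length := by simp [Grp.rows, hlen]
  refine ⟨hl, fun k hk cv hcv => ?_⟩
  have hk' : k < g.bases.length := hlen ▸ hk
  set code := g.bases[k]
  have e : (g.rows T bt b).getD k [] = List.zipWith
      (fun v cv => mkRow T k cv (bt.get (code / 1024 ^ v % 1024))) (List.range 8) b.corners := by
    rw [List.getD_eq_getElem _ _ (hl ▸ hk)]
    simp [Grp.rows, code]
  obtain ⟨n, hn⟩ : ∃ n, mkRow T k cv (bt.get n) ∈ (g.rows T bt b).getD k [] := by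
    rw [e]
    simp only [show List.range 8 = [0, 1, 2, 3, 4, 5, 6, 7] from rfl, Box.corners,
      List.zipWith_cons_cons, List.zipWith_nil_left, List.mem_cons, List.not_mem_nil,
      or_false] at hcv ⊢
    rcases hcv with rfl | rfl | rfl | rfl | rfl | rfl | rfl | rfl
    · exact ⟨_, Or.inl rfl⟩
    · exact ⟨_, Or.inr (Or.inl rfl)⟩
    · exact ⟨_, Or.inr (Or.inr (Or.inl rfl))⟩
    · exact ⟨_, Or.inr (Or.inr (Or.inr (Or.inl rfl)))⟩
    · exact ⟨_, Or.inr (Or.inr (Or.inr (Or.inr (Or.inl rfl))))⟩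
    · exact ⟨_, Or.inr (Or.inr (Or.inr (Or.inr (Or.inr (Or.inl rfl)))))⟩
    · exact ⟨_, Or.inr (Or.inr (Or.inr (Or.inr (Or.inr (Or.inr (Or.inl rfl))))))⟩
    · exact ⟨_, Or.inr (Or.inr (Or.inr (Or.inr (Or.inr (Or.inr (Or.inr rfl))))))⟩
  have hR : Row.ok (mkRow T k cv (bt.get n)) = true := by
    simp only [List.all_eq_true] at hok
    refine hok _ ?_ _ hn
    rw [List.getD_eq_getElem _ _ (hl ▸ hk)]
    exact List.getElem_mem _
  simp only [Row.ok, Bool.and_eq_true, decide_eq_true_eq, List.all_eq_true] at hR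
  exact ⟨_, hn, hR.1, hR.2, mkRow_spec (BT.ok_get hbt n hR.1) k cv⟩

theorem segRows_get {s : Seg1} {u w₁ w₂ : List ℤ} : ∀ {rows : List (List Row)} {k : ℕ},
    segRows s u w₁ w₂ k rows = true → ∀ i, ∀ R ∈ rows.getD i [],
      rowOK (k + i) (ent s.a (k + i)) (ent s.e (k + i)) u w₁ w₂ R = true
  | [], _, _, i, R, hR => by simp at hR
  | r :: rs, k, h, i, R, hR => by
    simp only [segRows, Bool.and_eq_true, List.all_eq_true] at h
    cases i with
    | zero => exact h.1 R (by simpa using hR)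
    | succ i =>
      have := segRows_get h.2 i R (by simpa using hR)
      rwa [show k + 1 + i = k + (i + 1) by omega] at this

/-! ### One segment -/

/-- The bounds hold at a time (in units of `1 / TD`). -/
def Bnd (T : List Tpl) (H : ℝ → Fin 4 → ℝ) (t : ℝ) (u : ℕ → ℝ) : Prop :=
  ∀ k < T.length, tplDot T k (H (t / TD)) ≤ u k / SS

/-- The quadratic bound `w` units into a segment. -/
noncomputable def quadU (s : Seg1) (u : List ℤ) (w : ℝ) (k : ℕ) : ℝ :=
  rent u k + (rent s.a k * w + (rent s.e k - rent s.a k) * w ^ 2 / (2 * s.hn)) / TD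

theorem ent_mid {s : Seg1} {u : List ℤ} {n : ℕ} (hu : u.length = n) (ha : s.a.length = n) (i : ℕ) :
    ent (s.mid u) i = 2 * TD * ent u i + s.hn * ent s.a i := by
  simp only [ent, Seg1.mid]
  rcases lt_or_ge i n with h | h
  · rw [List.getD_eq_getElem _ _ (by simp; omega), List.getD_eq_getElem _ _ (by omega),
      List.getD_eq_getElem _ _ (by omega)]
    simp
  · rw [List.getD_eq_default _ _ (by simp; omega), List.getD_eq_default _ _ (by omega),
      List.getD_eq_default _ _ (by omega)]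
    simp

theorem ent_fin {s : Seg1} {u : List ℤ} {n : ℕ} (hu : u.length = n) (ha : s.a.length = n)
    (he : s.e.length = n) (i : ℕ) :
    ent (s.fin u) i = 2 * TD * ent u i + s.hn * (ent s.a i + ent s.e i) := by
  simp only [ent, Seg1.fin]
  rcases lt_or_ge i n with h | h
  · rw [List.getD_eq_getElem _ _ (by simp; omega), List.getD_eq_getElem _ _ (by omega),
      List.getD_eq_getElem _ _ (by omega), List.getD_eq_getElem _ _ (by omega)]
    simp
  · rw [List.getD_eq_default _ _ (by simp; omega), List.getD_eq_default _ _ (by omega),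
      List.getD_eq_default _ _ (by omega), List.getD_eq_default _ _ (by omega)]
    simp

theorem sum_fin_ite {M : ℕ} {v : ℕ → ℝ} (hv : ∀ l, M ≤ l → v l = 0) :
    ∀ ts : List (ℕ × ℤ), ∑ l : Fin M, (ts.map fun q => if q.1 = (l : ℕ) then (q.2 : ℝ) else 0).sum * v l =
      (ts.map fun q => (q.2 : ℝ) * v q.1).sum
  | [] => by simp
  | q :: ts => by
    simp only [List.map_cons, List.sum_cons, add_mul, Finset.sum_add_distrib, sum_fin_ite hv ts]
    congr 1
    rcases lt_or_ge q.1 M with h | h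
    · rw [Finset.sum_eq_single (⟨q.1, h⟩ : Fin M) (fun l _ hl => by
        rw [if_neg (fun hh => hl (Fin.ext hh.symm)), zero_mul]) (by simp), if_pos rfl]
    · rw [hv _ h, mul_zero]
      exact Finset.sum_eq_zero fun l _ => by
        rw [if_neg (fun hh => by have := l.isLt; omega), zero_mul]

theorem sum_terms_quad (s : Seg1) (u : List ℤ) (w : ℝ) {n : ℕ} (hu : u.length = n)
    (ha : s.a.length = n) (he : s.e.length = n) (hn : (s.hn : ℝ) ≠ 0) :
    ∀ ts : List (ℕ × ℤ), (ts.map fun q => (q.2 : ℝ) * quadU s u w q.1).sum * (2 * TD) =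
      (1 - w / s.hn) ^ 2 * (2 * TD) * ((ts.map fun q => q.2 * ent u q.1).sum : ℤ) +
      2 * (w / s.hn) * (1 - w / s.hn) * ((ts.map fun q => q.2 * ent (s.mid u) q.1).sum : ℤ) +
      (w / s.hn) ^ 2 * ((ts.map fun q => q.2 * ent (s.fin u) q.1).sum : ℤ)
  | [] => by simp
  | q :: ts => by
    have ih := sum_terms_quad s u w hu ha he hn ts
    simp only [List.map_cons, List.sum_cons, Int.cast_add, Int.cast_mul]
    rw [add_mul, ih, ent_mid hu ha, ent_fin hu ha he]
    simp only [quadU, rent, TD]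
    push_cast
    field_simp
    ring

theorem seg_bound {T : List Tpl} {b : Box} {c : Fin 4 → ℝ} {H H' : ℝ → Fin 4 → ℝ}
    (hm : b.Mem c) (hf : FlowPt T c H H') {rows : List (List Row)}
    (hr : ∀ k < T.length, ∀ cv ∈ b.corners, ∃ R ∈ rows.getD k [], RowSpecAt T k cv R)
    {s : Seg1} {u : List ℤ} (hu : u.length = T.length) (ha : s.a.length = T.length)
    (he : s.e.length = T.length) (hh : 0 < s.hn)
    (hs : segRows s u (s.mid u) (s.fin u) 0 rows = true) {t0 : ℕ} (h0 : Bnd T H t0 (rent u))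
    {w : ℝ} (hw : w ∈ Set.Icc (0 : ℝ) s.hn) : Bnd T H (t0 + w) (quadU s u w) := by
  have hTD : (0 : ℝ) < TD := by norm_num [TD]
  have hSS : (0 : ℝ) < SS := by norm_num [SS]
  have hZ : (0 : ℝ) < ZZ := by norm_num [ZZ, QQ]
  have hn : (0 : ℝ) < s.hn := by exact_mod_cast hh
  set M := T.length
  set v : ℕ → ℝ → ℝ := fun k x => quadU s u x k / SS - tplDot T k (H ((t0 + x) / TD))
  set v' : ℕ → ℝ → ℝ := fun k x => (rent s.a k + (rent s.e k - rent s.a k) * x / s.hn) / TD / SS -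
    tplDot T k (H' ((t0 + x) / TD)) / TD
  have hd : ∀ k x, HasDerivAt (v k) (v' k x) x := by
    intro k x
    have h1 : HasDerivAt (fun x : ℝ => quadU s u x k / SS)
        ((rent s.a k + (rent s.e k - rent s.a k) * x / s.hn) / TD / SS) x := by
      simp only [quadU]
      refine ((((((hasDerivAt_id x).const_mul (rent s.a k)).add (((hasDerivAt_pow 2 x).const_mul
        (rent s.e k - rent s.a k)).div_const (2 * (s.hn : ℝ)))).div_const (TD : ℝ)).const_add
          (rent u k)).div_const (SS : ℝ)).congr_deriv ?_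
      field_simp
      push_cast
      ring
    have h2 : HasDerivAt (fun x : ℝ => tplDot T k (H ((t0 + x) / TD)))
        (tplDot T k (H' ((t0 + x) / TD)) / TD) x := by
      simp only [tplDot, Finset.sum_div]
      refine HasDerivAt.fun_sum fun i _ => ?_
      have h3 : HasDerivAt (fun x : ℝ => ((t0 : ℝ) + x) / TD) (1 / TD) x :=
        (((hasDerivAt_id x).const_add (t0 : ℝ)).div_const (TD : ℝ))
      exact ((((hf.deriv _ i).comp x h3)).const_mul _).congr_deriv (by ring)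
    exact h1.sub h2
  have v0 : ∀ k, M ≤ k → ∀ x, v k x = 0 := by
    intro k hk x
    have e1 : tpl T k = ⟨[], [], []⟩ := List.getD_eq_default _ _ hk
    have e2 : rent u k = 0 ∧ rent s.a k = 0 ∧ rent s.e k = 0 := by
      simp [rent, ent, hu, ha, he, hk]
    simp only [v, quadU, e2]
    simp [tplDot, e1, rent, ent]
  -- the corner and the row in use
  have key : ∀ (k : Fin M) (x : ℝ), ∃ R ∈ rows.getD k [], (0 < R.N ∧ ∀ q ∈ R.terms, 0 ≤ q.2) ∧
      (x ∈ Set.Icc (0 : ℝ) s.hn → (R.N : ℝ) * ZZ * tplDot T k (H' ((t0 + x) / TD)) ≤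
        R.N * R.c + (R.terms.map fun q => (q.2 : ℝ) * tplDot T q.1 (H ((t0 + x) / TD))).sum -
          R.N * KAP * ZZ * tplDot T k (H ((t0 + x) / TD))) := by
    intro k x
    obtain ⟨cv, hcv, hle⟩ := exists_corner hm fun j : Fin 4 => rent (tpl T k).C0 j +
      ∑ i : Fin 4, rent ((tpl T k).C.getD i []) j * H ((t0 + x) / TD) i
    obtain ⟨R, hR, hN, hq, hspec⟩ := hr k k.isLt cv hcv
    refine ⟨R, hR, ⟨hN, hq⟩, fun hx => ?_⟩
    rw [← hspec]
    have hg := hf.gain k k.isLt ((t0 + x) / TD) (div_nonneg (by linarith [hx.1, (Nat.cast_nonneg t0 : (0:ℝ) ≤ t0)]) hTD.le)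
    have hN' : (0 : ℝ) < R.N := by exact_mod_cast hN
    rw [mul_assoc]
    refine mul_le_mul_of_nonneg_left ?_ hN'.le
    exact (mul_le_mul_of_nonneg_left hg hZ.le).trans hle
  choose R hR hRok hRle using key
  set K : Fin M → ℝ → Fin M → ℝ := fun k x l =>
    (((R k x).terms.map fun q => if q.1 = (l : ℕ) then (q.2 : ℝ) else 0).sum / ((R k x).N * ZZ) -
      if l = k then (KAP : ℝ) else 0) / TD
  obtain ⟨Λ, hΛ⟩ : ∃ Λ, ∀ (k : Fin M) x, ∑ l, K k x l ≤ Λ := by
    let F : Fin M → Row → ℝ := fun k R =>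
      ∑ l : Fin M, ((R.terms.map fun q => if q.1 = (l : ℕ) then (q.2 : ℝ) else 0).sum / (R.N * ZZ) -
        if l = k then (KAP : ℝ) else 0) / TD
    refine ⟨∑ k : Fin M, ((rows.getD k []).map fun R => |F k R|).sum, fun k x => ?_⟩
    have h2 : |F k (R k x)| ≤ ((rows.getD k []).map fun R => |F k R|).sum :=
      List.single_le_sum (fun y hy => by
        obtain ⟨R, -, rfl⟩ := List.mem_map.1 hy; exact abs_nonneg _) _
        (List.mem_map.2 ⟨_, hR k x, rfl⟩)
    have h3 : ((rows.getD k []).map fun R => |F k R|).sum ≤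
        ∑ i : Fin M, ((rows.getD i []).map fun R => |F i R|).sum :=
      Finset.single_le_sum (f := fun i : Fin M => ((rows.getD i []).map fun R => |F i R|).sum)
        (fun i _ => List.sum_nonneg fun y hy => by
          obtain ⟨R, -, rfl⟩ := List.mem_map.1 hy; exact abs_nonneg _) (Finset.mem_univ k)
    exact (le_abs_self _).trans (h2.trans h3)
  intro k hk
  have hv0 : ∀ i : Fin M, 0 ≤ v i 0 := fun i => by
    have := h0 i i.isLt
    simpa [v, quadU] using this
  have hv := nonneg_of_coop (a := 0) (b := (s.hn : ℝ)) (v := fun i : Fin M => v i)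
    (v' := fun i : Fin M => v' i) (K := K) (fun i x => hd i x) (fun i x _ l hl => ?_)
    (fun i x _ => hΛ i x) (fun i x hx => ?_) hv0 hw ⟨k, hk⟩
  · simpa [v] using hv
  · simp only [K, if_neg hl, sub_zero]
    refine div_nonneg (div_nonneg (List.sum_nonneg fun y hy => ?_) ?_) hTD.le
    · obtain ⟨q, hq, rfl⟩ := List.mem_map.1 hy
      split_ifs
      · exact_mod_cast (hRok i x).2 q hq
      · exact le_rfl
    · exact mul_nonneg (by exact_mod_cast (hRok i x).1.le) hZ.le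
  · set R' := R i x
    have hN : (0 : ℝ) < R'.N := by exact_mod_cast (hRok i x).1
    have hle := hRle i x hx
    have hrow := segRows_get hs (i : ℕ) R' (hR i x)
    simp only [zero_add, rowOK, Bool.and_eq_true, decide_eq_true_eq, Row.sum] at hrow
    obtain ⟨⟨a0, a1⟩, a2⟩ := hrow
    rw [ent_mid hu ha] at a1
    rw [ent_fin hu ha he] at a2
    set z := x / s.hn with hz
    have z0 : 0 ≤ z := div_nonneg hx.1 hn.le
    have z1 : 0 ≤ 1 - z := by rw [sub_nonneg, hz, div_le_one hn]; exact hx.2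
    have b0 := mul_le_mul_of_nonneg_left (Int.cast_le (R := ℝ).2 a0)
      (mul_nonneg (sq_nonneg (1 - z)) (by linarith : (0 : ℝ) ≤ 2 * TD))
    have b1 := mul_le_mul_of_nonneg_left (Int.cast_le (R := ℝ).2 a1) (mul_nonneg z0 z1)
    have b2 := mul_le_mul_of_nonneg_left (Int.cast_le (R := ℝ).2 a2) (sq_nonneg z)
    simp only [Int.cast_mul, Int.cast_add, Int.cast_sub, Int.cast_ofNat, Int.cast_natCast] at b0 b1 b2
    have hq := sum_terms_quad s u x hu ha he hn.ne' R'.terms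
    have e : quadU s u x i * (2 * TD) = (1 - z) ^ 2 * (2 * TD * rent u i) +
        2 * z * (1 - z) * (2 * TD * rent u i + s.hn * rent s.a i) +
        z ^ 2 * (2 * TD * rent u i + s.hn * (rent s.a i + rent s.e i)) := by
      simp only [quadU, hz]; field_simp; ring
    have eσ : rent s.a i + (rent s.e i - rent s.a i) * x / s.hn =
        rent s.a i + (rent s.e i - rent s.a i) * z := by rw [hz]; ring
    have hU : SS * (R'.N * R'.c) + (R'.terms.map fun q => (q.2 : ℝ) * quadU s u x q.1).sum -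
        R'.N * KAP * ZZ * quadU s u x i ≤
        (rent s.a i + (rent s.e i - rent s.a i) * z) * ZZ * R'.N := by
      refine le_of_mul_le_mul_right (a := 2 * (TD : ℝ)) ?_ (by linarith)
      simp only [rent] at e ⊢
      linear_combination b0 + 2 * b1 + b2 + hq - (R'.N * KAP * ZZ : ℝ) * e
    have hKv : ∑ l, K i x l * v l x =
        ((R'.terms.map fun q => (q.2 : ℝ) * v q.1 x).sum / (R'.N * ZZ) - KAP * v i x) / TD := by
      have := sum_fin_ite (v := fun l => v l x) (fun l hl => v0 l hl x) R'.terms (M := M)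
      simp only [K, R', div_mul_eq_mul_div, sub_mul, Finset.sum_sub_distrib, ← Finset.sum_div,
        ite_mul, zero_mul, Finset.sum_ite_eq', Finset.mem_univ, if_true] at this ⊢
      rw [this]
    have hsum : (R'.terms.map fun q => (q.2 : ℝ) * v q.1 x).sum =
        (R'.terms.map fun q => (q.2 : ℝ) * quadU s u x q.1).sum / SS -
          (R'.terms.map fun q => (q.2 : ℝ) * tplDot T q.1 (H ((t0 + x) / TD))).sum := by
      induction R'.terms with
      | nil => simp
      | cons q ts ih => simp only [List.map_cons, List.sum_cons, ih, v]; ring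
    rw [hKv, hsum]
    simp only [v, v', eσ]
    refine le_of_le_of_eq (b := ((rent s.a i + (rent s.e i - rent s.a i) * z) / SS -
      tplDot T i (H' ((t0 + x) / TD))) / TD) (div_le_div_of_nonneg_right ?_ hTD.le) (by ring)
    refine le_of_mul_le_mul_left (a := (R'.N : ℝ) * ZZ * SS) ?_ (by positivity)
    field_simp
    linarith [hU, mul_le_mul_of_nonneg_left hle hSS.le]

/-! ### Pieces -/

theorem quadLe_sound {c0 c1 c2 : ℤ} {p : ℕ} {m : ℤ} (h : quadLe c0 c1 c2 p m = true) {z : ℝ}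
    (hz : z ∈ Set.Icc ((p : ℝ) / 8) ((p + 1) / 8)) : 64 * (c0 + c1 * z + c2 * z ^ 2) ≤ -(m : ℝ) := by
  simp only [quadLe, Bool.and_eq_true, decide_eq_true_eq] at h
  obtain ⟨⟨h0, h1⟩, h2⟩ := h
  have y0 : 0 ≤ 8 * z - p := by linarith [hz.1]
  have y1 : 0 ≤ (p : ℝ) + 1 - 8 * z := by linarith [hz.2]
  have b0 := mul_le_mul_of_nonneg_left (Int.cast_le (R := ℝ).2 h0) (sq_nonneg ((p : ℝ) + 1 - 8 * z))
  have b1 := mul_le_mul_of_nonneg_left (Int.cast_le (R := ℝ).2 h1) (mul_nonneg y0 y1)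
  have b2 := mul_le_mul_of_nonneg_left (Int.cast_le (R := ℝ).2 h2) (sq_nonneg (8 * z - p))
  push_cast at b0 b1 b2
  linarith

/-- A checked piece bounds one template by a multiple of the time. -/
theorem pieceLe_sound {T : List Tpl} {s : Seg1} {u : List ℤ} {t0 p k : ℕ} {α β m : ℤ}
    (h : pieceLe s t0 u k α β p m = true) (hh : 0 < s.hn) {z : ℝ}
    (hz : z ∈ Set.Icc ((p : ℝ) / 8) ((p + 1) / 8)) (hk : k < T.length) (hα : 0 ≤ α)
    {H : ℝ → Fin 4 → ℝ} (hB : Bnd T H (t0 + s.hn * z) (quadU s u (s.hn * z))) :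
    (α : ℝ) * (TD * SS) * tplDot T k (H ((t0 + s.hn * z) / TD)) ≤
      β * (t0 + s.hn * z) - m / 128 := by
  have h1 := quadLe_sound h hz
  have hSS : (0 : ℝ) < SS := by norm_num [SS]
  have hn : (0 : ℝ) < s.hn := by exact_mod_cast hh
  have h2 := hB k hk
  rw [le_div_iff₀ hSS] at h2
  have e : (TD : ℝ) * quadU s u (s.hn * z) k = TD * rent u k + (rent s.a k * (s.hn * z) +
      (rent s.e k - rent s.a k) * (s.hn * z ^ 2) / 2) := by
    simp only [quadU, TD]; field_simp
  have h3 := mul_le_mul_of_nonneg_left h2 (mul_nonneg (Int.cast_nonneg hα) (by norm_num [TD]) : (0 : ℝ) ≤ (α : ℝ) * TD)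
  push_cast [rent] at h1 e h3 ⊢
  linear_combination h3 + (1 / 128) * h1 + (α : ℝ) * e

theorem unit_dot {T : List Tpl} {k i : ℕ} {σ : ℤ} (hi : i < 4) (h : unitOK T k i σ = true) :
    k < T.length ∧ 0 < σ * ent (tpl T k).y i ∧
      ∀ v : Fin 4 → ℝ, tplDot T k v = rent (tpl T k).y i * v ⟨i, hi⟩ := by
  simp only [unitOK, Bool.and_eq_true, decide_eq_true_eq, List.all_eq_true, List.mem_range,
    Bool.or_eq_true] at h
  refine ⟨?_, h.1, fun v => ?_⟩
  · by_contra hk
    have : tpl T k = ⟨[], [], []⟩ := List.getD_eq_default _ _ (not_lt.1 hk)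
    simp [this, ent] at h
  · rw [tplDot, Finset.sum_eq_single (⟨i, hi⟩ : Fin 4) (fun j _ hj => ?_) (by simp)]
    rcases h.2 j j.isLt with he | he
    · exact absurd (Fin.ext he) hj
    · simp [rent, he]

/-- A checked piece bounds a nonnegative multiple of one signed moment by a multiple of the time. -/
theorem unit_piece {T : List Tpl} {s : Seg1} {u : List ℤ} {t0 p k i : ℕ} {α β σ m : ℤ}
    (hh : 0 < s.hn) {z : ℝ} (hz : z ∈ Set.Icc ((p : ℝ) / 8) ((p + 1) / 8)) (hi : i < 4)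
    (hu : unitOK T k i σ = true) (h : pieceLe s t0 u k α β p m = true) (hα : 0 ≤ α) (hσ : σ ^ 2 = 1)
    {H : ℝ → Fin 4 → ℝ} (hB : Bnd T H (t0 + s.hn * z) (quadU s u (s.hn * z))) :
    0 < (σ : ℝ) * rent (tpl T k).y i ∧
      (α : ℝ) * (TD * SS) * (σ * rent (tpl T k).y i) * (σ * H ((t0 + s.hn * z) / TD) ⟨i, hi⟩) ≤
        β * (t0 + s.hn * z) - m / 128 := by
  obtain ⟨hk, hp, hd⟩ := unit_dot hi hu
  have h1 := pieceLe_sound h hh hz hk hα hB
  refine ⟨by unfold rent; exact_mod_cast hp, le_of_eq_of_le ?_ h1⟩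
  rw [hd]
  have : (σ : ℝ) ^ 2 = 1 := by exact_mod_cast hσ
  linear_combination ((α : ℝ) * (TD * SS) * (rent (tpl T k).y i * H ((t0 + s.hn * z) / TD) ⟨i, hi⟩)) * this

theorem belowTime_sound {T : List Tpl} {s : Seg1} {u : List ℤ} {t0 p : ℕ} (hh : 0 < s.hn)
    (h : belowTime T s t0 u p = true) {z : ℝ} (hz : z ∈ Set.Icc ((p : ℝ) / 8) ((p + 1) / 8))
    {H : ℝ → Fin 4 → ℝ} (hB : Bnd T H (t0 + s.hn * z) (quadU s u (s.hn * z))) :
    H ((t0 + s.hn * z) / TD) 0 < (t0 + s.hn * z) / TD := by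
  simp only [belowTime, Bool.and_eq_true] at h
  obtain ⟨h0, h1⟩ := unit_piece hh hz (by norm_num) h.1 h.2 zero_le_one (by norm_num) hB
  have hSS : (0 : ℝ) < SS := by norm_num [SS]
  have hTD : (0 : ℝ) < TD := by norm_num [TD]
  push_cast [rent] at h0 h1
  rw [lt_div_iff₀ hTD]
  refine lt_of_mul_lt_mul_right ?_ (mul_pos hSS h0).le
  linarith

theorem wide {b : Box} {c : Fin 4 → ℝ} (hm : b.Mem c) : 0 ≤ 1 - 2 * c 1 := by linarith [hm.half]

/-- Checked conditions put the child moments in the child box. -/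
theorem inChild_sound {T : List Tpl} {s : Seg1} {u : List ℤ} {t0 p : ℕ} {b b' : Box}
    (hh : 0 < s.hn) (h : inChild T s t0 u p b b' = true) {c : Fin 4 → ℝ} (hm : b.Mem c)
    {H : ℝ → Fin 4 → ℝ} {X : ℝ} (hfix : FixPt c X H)
    {z : ℝ} (hz : z ∈ Set.Icc ((p : ℝ) / 8) ((p + 1) / 8))
    (hX : (t0 + s.hn * z) / (TD : ℝ) = X)
    (hB : Bnd T H (t0 + s.hn * z) (quadU s u (s.hn * z))) : b'.Mem c := by
  obtain ⟨hpos, -, h4, μ, μ0, μ1, e1, e2, e3⟩ := hfix
  have hSS : (0 : ℝ) < SS := by norm_num [SS]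
  have hTD : (0 : ℝ) < TD := by norm_num [TD]
  have hQ : (0 : ℝ) < QQ := by norm_num [QQ]
  have hτ : (t0 : ℝ) + s.hn * z = X * TD := by rw [← hX, div_mul_cancel₀ _ hTD.ne']
  have hμ3 : μ ^ 3 ≤ 1 / 8 := by
    have := pow_le_pow_left₀ μ0 μ1 3; norm_num at this; linarith
  have hμ2 : μ ^ 2 ≤ 1 / 4 := by
    have := pow_le_pow_left₀ μ0 μ1 2; norm_num at this; linarith
  have e1x : (QQ : ℝ) * (c 1 * X) = QQ * -(μ * H X 1) := by rw [e1]
  have e2x : (4 : ℝ) * QQ * QQ * (c 2 * X) = 4 * QQ * QQ * (μ ^ 2 * H X 2) := by rw [e2]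
  have e3x : (QQ : ℝ) * QQ * QQ * (c 3 * X) = QQ * QQ * QQ * -(μ ^ 3 * H X 3) := by rw [e3]
  -- a signed moment is at most `r X`, the piece being checked
  have sig : ∀ {k : ℕ} {i : Fin 4} {α β σ : ℤ}, unitOK T k i σ = true →
      pieceLe s t0 u k α β p 0 = true → 0 < α → σ ^ 2 = 1 → ∀ r : ℝ,
      (β : ℝ) = α * r * (rent (tpl T k).y i * σ) * SS → (σ : ℝ) * H X i ≤ r * X := by
    intro k i α β σ hu hp hα hσ r hr
    obtain ⟨h0, h1⟩ := unit_piece hh hz i.isLt hu hp hα.le hσ hB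
    rw [hX, hτ, hr, Fin.eta] at h1
    have hα' : (0 : ℝ) < α := by exact_mod_cast hα
    refine le_of_mul_le_mul_left ?_
      (mul_pos (mul_pos hα' (mul_pos hTD hSS)) h0)
    simp only [Int.cast_zero, zero_div, sub_zero] at h1
    linarith
  simp only [inChild, Bool.and_eq_true, Bool.or_eq_true, decide_eq_true_eq] at h
  obtain ⟨⟨⟨⟨⟨hr0, hr1⟩, hl0⟩, hl1⟩, hg0⟩, hg1⟩ := h
  have R0 : (b'.r0 : ℝ) ≤ QQ * c 1 := by
    rcases hr0 with hle | ⟨⟨hsgn, hu⟩, hp⟩
    · exact (Int.cast_le.2 hle).trans hm.r0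
    · have hb := sig (i := 1) (σ := 1) hu hp (by norm_num [QQ]) (by norm_num)
        (-2 * b'.r0 / QQ) (by simp only [rent, Fin.val_one]; push_cast; field_simp)
      have hsgn' : (b'.r0 : ℝ) ≤ 0 := by exact_mod_cast hsgn
      rw [show ((-2 * b'.r0 : ℝ) / QQ) * X = (-2 * b'.r0 * X) / QQ by ring, le_div_iff₀ hQ] at hb
      simp only [Int.cast_one, one_mul] at hb
      refine le_of_mul_le_mul_right ?_ hpos
      linarith [mul_le_mul_of_nonneg_left hb μ0,
        mul_le_mul_of_nonneg_right (mul_le_mul_of_nonpos_left μ1 hsgn') hpos.le,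
        e1x]
  have R1 : (QQ : ℝ) * c 1 ≤ b'.r1 := by
    rcases hr1 with hle | ⟨⟨hsgn, hu⟩, hp⟩
    · exact hm.r1.trans (Int.cast_le.2 hle)
    · have hb := sig (i := 1) (σ := -1) hu hp (by norm_num [QQ]) (by norm_num)
        (2 * b'.r1 / QQ) (by simp only [rent, Fin.val_one]; push_cast; field_simp)
      have hsgn' : (0 : ℝ) ≤ b'.r1 := by exact_mod_cast hsgn
      rw [show ((2 * b'.r1 : ℝ) / QQ) * X = (2 * b'.r1 * X) / QQ by ring, le_div_iff₀ hQ] at hb
      simp only [Int.cast_neg, Int.cast_one] at hb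
      refine le_of_mul_le_mul_right ?_ hpos
      linarith [mul_le_mul_of_nonneg_left hb μ0,
        mul_le_mul_of_nonneg_right (mul_le_mul_of_nonneg_left μ1 hsgn') hpos.le,
        e1x]
  have a0 : 0 ≤ c 2 := hm.apos.le
  have r1' : c 1 ≤ b'.r1 / (QQ : ℝ) := by rw [le_div_iff₀ hQ]; linarith
  have hwidth : 0 ≤ 1 - 2 * c 1 → 3 * (b'.l0 : ℝ) * (1 - 2 * c 1) ≤ 4 * QQ * c 2 := fun hw =>
    (mul_le_mul_of_nonneg_right (mul_le_mul_of_nonneg_left (Int.cast_le.2 hl0)
      (by norm_num : (0 : ℝ) ≤ 3)) hw).trans hm.l0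
  refine ⟨hm.c0, hm.half, hm.apos, R0, R1, ?_, ?_, ?_, ?_⟩
  · exact hwidth (wide hm)
  · rcases hl1 with hle | ⟨⟨⟨hsgn, hr⟩, hu⟩, hp⟩
    · exact hm.l1.trans (mul_le_mul_of_nonneg_right
        (mul_le_mul_of_nonneg_left (Int.cast_le.2 hle) (by norm_num)) (wide hm))
    · have hb := sig (i := 2) (σ := 1) hu hp (by norm_num [QQ]) (by norm_num)
        (3 * b'.l1 * (QQ - 2 * b'.r1) / (QQ * QQ)) (by simp only [rent, Fin.val_two]; push_cast; field_simp)
      have hsgn' : (0 : ℝ) ≤ b'.l1 := by exact_mod_cast hsgn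
      rw [div_mul_eq_mul_div, le_div_iff₀ (mul_pos hQ hQ)] at hb
      simp only [Int.cast_one, one_mul] at hb
      refine le_of_mul_le_mul_right ?_ (mul_pos hQ hpos)
      have h5 := mul_le_mul_of_nonneg_left (mul_le_mul_of_nonneg_right hμ2 h4)
        (by positivity : (0 : ℝ) ≤ 4 * QQ * QQ)
      have h6 := mul_le_mul_of_nonneg_left R1 (by positivity : (0 : ℝ) ≤ 6 * b'.l1 * X)
      linarith [e2x]
  · rcases hg0 with hle | ⟨⟨⟨⟨hsgn, hl⟩, hr⟩, hu⟩, hp⟩
    · exact (mul_le_mul_of_nonneg_right (Int.cast_le.2 hle) a0).trans hm.g0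
    · have hb := sig (i := 3) (σ := 1) hu hp (by norm_num [QQ]) (by norm_num)
        (-6 * b'.g0 * b'.l0 * (QQ - 2 * b'.r1) / (QQ * QQ * QQ))
        (by simp only [rent, show ((3 : Fin 4) : ℕ) = 3 from rfl]; push_cast; field_simp)
      have hsgn' : (b'.g0 : ℝ) ≤ 0 := by exact_mod_cast hsgn
      have hl' : (0 : ℝ) ≤ b'.l0 := by exact_mod_cast hl
      have hr' : 2 * (b'.r1 : ℝ) ≤ QQ := by exact_mod_cast hr
      rw [div_mul_eq_mul_div, le_div_iff₀ (by positivity)] at hb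
      simp only [Int.cast_one, one_mul] at hb
      refine le_of_mul_le_mul_right ?_ (mul_pos (mul_pos hQ hQ) hpos)
      -- the right side of `hb` is nonnegative
      have hpos' : 0 ≤ -6 * (b'.g0 : ℝ) * b'.l0 * (QQ - 2 * b'.r1) * X := by
        have := mul_nonneg (mul_nonneg (mul_nonneg (neg_nonneg.2 hsgn') hl') (sub_nonneg.2 hr')) hpos.le
        linarith
      have h5 : μ ^ 3 * (H X 3 * (QQ * QQ * QQ)) ≤
          1 / 8 * (-6 * (b'.g0 : ℝ) * b'.l0 * (QQ - 2 * b'.r1) * X) :=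
        (mul_le_mul_of_nonneg_left hb (pow_nonneg μ0 3)).trans
          (mul_le_mul_of_nonneg_right hμ3 hpos')
      have h6 := mul_le_mul_of_nonpos_left (hwidth (wide hm)) hsgn'
      have h7 := mul_le_mul_of_nonpos_left (mul_le_mul_of_nonneg_left
        (show (QQ : ℝ) - 2 * b'.r1 ≤ QQ * (1 - 2 * c 1) by linarith) hl') hsgn'
      linarith [e3x,
        mul_le_mul_of_nonneg_right h6 (by positivity : (0 : ℝ) ≤ QQ * X),
        mul_le_mul_of_nonneg_right h7 (by positivity : (0 : ℝ) ≤ X)]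
  · rcases hg1 with hle | ⟨⟨⟨⟨hsgn, hl⟩, hr⟩, hu⟩, hp⟩
    · exact hm.g1.trans (mul_le_mul_of_nonneg_right (Int.cast_le.2 hle) a0)
    · have hb := sig (i := 3) (σ := -1) hu hp (by norm_num [QQ]) (by norm_num)
        (6 * b'.g1 * b'.l0 * (QQ - 2 * b'.r1) / (QQ * QQ * QQ))
        (by simp only [rent, show ((3 : Fin 4) : ℕ) = 3 from rfl]; push_cast; field_simp)
      have hsgn' : (0 : ℝ) ≤ b'.g1 := by exact_mod_cast hsgn
      have hl' : (0 : ℝ) ≤ b'.l0 := by exact_mod_cast hl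
      have hr' : 2 * (b'.r1 : ℝ) ≤ QQ := by exact_mod_cast hr
      rw [div_mul_eq_mul_div, le_div_iff₀ (by positivity)] at hb
      simp only [Int.cast_neg, Int.cast_one] at hb
      refine le_of_mul_le_mul_right ?_ (mul_pos (mul_pos hQ hQ) hpos)
      have hpos' : 0 ≤ 6 * (b'.g1 : ℝ) * b'.l0 * (QQ - 2 * b'.r1) * X := by
        have := mul_nonneg (mul_nonneg (mul_nonneg hsgn' hl') (sub_nonneg.2 hr')) hpos.le
        linarith
      have h5 : μ ^ 3 * (-1 * H X 3 * (QQ * QQ * QQ)) ≤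
          1 / 8 * (6 * (b'.g1 : ℝ) * b'.l0 * (QQ - 2 * b'.r1) * X) :=
        (mul_le_mul_of_nonneg_left hb (pow_nonneg μ0 3)).trans
          (mul_le_mul_of_nonneg_right hμ3 hpos')
      have h6 := mul_le_mul_of_nonneg_left (hwidth (wide hm)) hsgn'
      have h7 := mul_le_mul_of_nonneg_left (mul_le_mul_of_nonneg_left
        (show (QQ : ℝ) - 2 * b'.r1 ≤ QQ * (1 - 2 * c 1) by linarith) hl') hsgn'
      linarith [e3x,
        mul_le_mul_of_nonneg_right h6 (by positivity : (0 : ℝ) ≤ QQ * X),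
        mul_le_mul_of_nonneg_right h7 (by positivity : (0 : ℝ) ≤ X)]

/-! ### Segments, groups, trees -/

/-- The end of a segment is covered by the bound handed on. -/
theorem bnd_next {T : List Tpl} {H : ℝ → Fin 4 → ℝ} {s : Seg1} {u : List ℤ} (hh : 0 < s.hn)
    (hu : u.length = T.length) (ha : s.a.length = T.length) (he : s.e.length = T.length) {t0 : ℕ}
    (hB : Bnd T H ((t0 : ℝ) + s.hn) (quadU s u s.hn)) :
    Bnd T H ((t0 + s.hn : ℕ) : ℝ) (rent (s.next u)) ∧ (s.next u).length = T.length := by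
  have hl : (s.fin u).length = T.length := by simp [Seg1.fin, hu, ha, he]
  refine ⟨fun k hk => ?_, by simp [Seg1.next, hl]⟩
  have hSS : (0 : ℝ) < SS := by norm_num [SS]
  push_cast
  refine (hB k hk).trans (div_le_div_of_nonneg_right ?_ hSS.le)
  have e : ent (s.next u) k = -((-ent (s.fin u) k) / (2 * TD)) := by
    simp only [ent, Seg1.next]
    rw [List.getD_eq_getElem _ _ (by simp [hl, hk]), List.getD_eq_getElem _ _ (by omega),
      List.getElem_map]
  have h2 : ent (s.fin u) k ≤ 2 * TD * ent (s.next u) k := by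
    have := Int.ediv_mul_le (-ent (s.fin u) k) (b := 2 * TD) (by norm_num [TD])
    rw [e]; linarith
  have h3 : (2 * (TD : ℝ)) * quadU s u s.hn k = (ent (s.fin u) k : ℝ) := by
    have hn : (s.hn : ℝ) ≠ 0 := by exact_mod_cast hh.ne'
    rw [ent_fin hu ha he]; simp only [quadU, rent, TD]; push_cast; field_simp; ring
  have h4 := Int.cast_le (R := ℝ).2 h2
  push_cast at h4
  refine le_of_mul_le_mul_left (a := 2 * (TD : ℝ)) ?_ (by norm_num [TD])
  simp only [rent] at h3 h4 ⊢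
  linarith

theorem thenInts_eq (l : List ℤ) (k : List ℤ → Bool) : thenInts l k = k l :=
  thenL_eq thenI_eq l k

theorem thenRow_eq (R : Row) (k : Row → Bool) : thenRow R k = k R := by
  rcases R with ⟨c, N, t⟩
  simp only [thenRow, thenI_eq]
  rw [thenL_eq fun q k' => by simp only]

/-- What a checked node leaves of a point. -/
def Left (ex : Exit) (c : Fin 4 → ℝ) (X : ℝ) : Prop :=
  ∃ b' f0 f1, ex = some (b', f0, f1) ∧ b'.Mem c ∧ (f0 : ℝ) ≤ X * TD ∧ X * TD ≤ f1

theorem segsOK_sound {T : List Tpl} {b : Box} {s0 s1 : ℕ} {ex : Exit} {rows : List (List Row)}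
    {rest : ℕ → List ℤ → Bool} {c : Fin 4 → ℝ} {X : ℝ} {H H' : ℝ → Fin 4 → ℝ} (hm : b.Mem c)
    (hf : FlowPt T c H H') (hfix : FixPt c X H) (hs0 : (s0 : ℝ) ≤ X * TD) (hs1 : X * TD ≤ s1)
    (hr : ∀ k < T.length, ∀ cv ∈ b.corners, ∃ R ∈ rows.getD k [], RowSpecAt T k cv R) :
    ∀ (segs : List Seg1) (t0 : ℕ) (u : List ℤ),
      segsOK T b s0 s1 ex rows rest segs t0 u = true → u.length = T.length →
      Bnd T H t0 (rent u) → (t0 : ℝ) < X * TD →
      Left ex c X ∨ ∃ (t : ℕ) (u' : List ℤ), rest t u' = true ∧ u'.length = T.length ∧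
        Bnd T H t (rent u') ∧ (t : ℝ) < X * TD
  | [], t0, u, h, hu, hB, ht => Or.inr ⟨t0, u, by simpa [segsOK] using h, hu, hB, ht⟩
  | s :: ss, t0, u, h, hu, hB, ht => by
    simp only [segsOK, thenInts_eq, Bool.and_eq_true, decide_eq_true_eq, List.all_eq_true,
      List.mem_range] at h
    obtain ⟨⟨⟨⟨⟨ha, he⟩, hh⟩, hrows⟩, hpieces⟩, hnext⟩ := h
    have hn : (0 : ℝ) < s.hn := by exact_mod_cast hh
    have hseg := fun {w : ℝ} (hw : w ∈ Set.Icc (0 : ℝ) s.hn) =>
      seg_bound hm hf hr hu ha he hh hrows hB hw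
    rcases lt_or_ge ((t0 : ℝ) + s.hn) (X * TD) with hc | hc
    · obtain ⟨hB', hl⟩ := bnd_next hh hu ha he (hseg (Set.right_mem_Icc.2 hn.le))
      exact segsOK_sound hm hf hfix hs0 hs1 hr ss _ _ hnext hl hB' (by push_cast; linarith)
    · set z := (X * TD - t0) / s.hn with hz
      have z0 : 0 ≤ z := div_nonneg (by linarith) hn.le
      have z1 : z ≤ 1 := by rw [hz, div_le_one hn]; linarith
      set p := min ⌊8 * z⌋₊ 7 with hp'
      have hp : p < 8 := by omega
      have hpz : z ∈ Set.Icc ((p : ℝ) / 8) ((p + 1) / 8) := by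
        rcases min_cases ⌊8 * z⌋₊ 7 with ⟨e, -⟩ | ⟨e, h7⟩ <;> rw [hp', e]
        · exact ⟨by linarith [Nat.floor_le (by linarith : (0 : ℝ) ≤ 8 * z)],
            by linarith [Nat.lt_floor_add_one (8 * z)]⟩
        · have := Nat.cast_le (α := ℝ).2 (Nat.succ_le_of_lt h7)
          push_cast at this ⊢
          exact ⟨by linarith [Nat.floor_le (by linarith : (0 : ℝ) ≤ 8 * z)], by linarith⟩
      have hτ : (t0 : ℝ) + s.hn * z = X * TD := by rw [hz]; field_simp; ring
      have hTD : (0 : ℝ) < TD := by norm_num [TD]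
      have hX : ((t0 : ℝ) + s.hn * z) / TD = X := by rw [hτ]; field_simp
      have hBz := hseg (w := s.hn * z) ⟨mul_nonneg hn.le z0, by
        have := mul_le_mul_of_nonneg_left z1 hn.le; linarith⟩
      have hpc := hpieces p hp
      simp only [pieceOK, Bool.or_eq_true, decide_eq_true_eq] at hpc
      have lo : (((8 * t0 + s.hn * p : ℕ)) : ℝ) ≤ 8 * (X * TD) := by
        push_cast; linarith [mul_le_mul_of_nonneg_left hpz.1 hn.le]
      have hi : 8 * (X * TD) ≤ (((8 * t0 + s.hn * p + s.hn : ℕ)) : ℝ) := by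
        push_cast; linarith [mul_le_mul_of_nonneg_left hpz.2 hn.le]
      rcases hpc with (hout | hout) | hin
      · exfalso
        have := Nat.cast_lt (α := ℝ).2 hout
        push_cast at this hi
        linarith
      · exfalso
        have := Nat.cast_lt (α := ℝ).2 hout
        push_cast at this lo
        linarith
      · by_cases hb : s.flags.testBit p = true
        · rw [if_pos hb] at hin
          have := belowTime_sound hh hin hpz hBz
          rw [hX, hfix.mag] at this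
          exact absurd this (lt_irrefl _)
        · rw [if_neg hb] at hin
          rcases ex with _ | ⟨b', f0, f1⟩
          · simp at hin
          · simp only [Bool.and_eq_true, decide_eq_true_eq] at hin
            refine Or.inl ⟨b', f0, f1, rfl, inChild_sound hh hin.2 hm hfix hpz hX hBz, ?_, ?_⟩
            · have := Nat.cast_le (α := ℝ).2 hin.1.1
              push_cast at this lo
              rcases max_cases ((8 : ℝ) * t0 + s.hn * p) (8 * s0) with ⟨e, -⟩ | ⟨e, -⟩ <;>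
                rw [e] at this <;> linarith
            · have := Nat.cast_le (α := ℝ).2 hin.1.2
              push_cast at this hi
              rcases min_cases ((8 : ℝ) * t0 + s.hn * p + s.hn) (8 * s1) with ⟨e, -⟩ | ⟨e, -⟩ <;>
                rw [e] at this <;> linarith

/-- A ray with nonnegative weights cannot be below the bounds. -/
theorem ray_false {T : List Tpl} {H : ℝ → Fin 4 → ℝ} {t : ℝ} {u : List ℤ} {ray : List (ℕ × ℕ)}
    (h : rayOK T u ray = true) (hB : Bnd T H t (rent u)) : False := by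
  simp only [rayOK, Bool.and_eq_true, decide_eq_true_eq, List.all_eq_true, List.mem_range] at h
  obtain ⟨⟨h0, h1⟩, h2⟩ := h
  have hSS : (0 : ℝ) < SS := by norm_num [SS]
  have e : ∀ l : List (ℕ × ℕ), (l.map fun q => (q.2 : ℝ) * tplDot T q.1 (H (t / TD))).sum =
      ∑ i : Fin 4, ((l.map fun q => (q.2 : ℤ) * ent (tpl T q.1).y i).sum : ℤ) * H (t / TD) i := by
    intro l
    induction l with
    | nil => simp
    | cons q l ih =>
      simp only [List.map_cons, List.sum_cons, ih]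
      simp only [tplDot, rent, Fin.sum_univ_four, Int.cast_add, Int.cast_mul, Int.cast_natCast]
      ring
  have z : (ray.map fun q => (q.2 : ℝ) * tplDot T q.1 (H (t / TD))).sum = 0 := by
    rw [e]; exact Finset.sum_eq_zero fun i _ => by rw [h0 i i.isLt]; simp
  have le : ∀ l : List (ℕ × ℕ), (∀ q ∈ l, q.1 < T.length) →
      (l.map fun q => (q.2 : ℝ) * tplDot T q.1 (H (t / TD))).sum * SS ≤
        ((l.map fun q => (q.2 : ℤ) * ent u q.1).sum : ℤ) := by
    intro l hl
    induction l with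
    | nil => simp
    | cons q l ih =>
      have a := ih fun x hx => hl x (List.mem_cons_of_mem _ hx)
      have b := mul_le_mul_of_nonneg_left
        ((le_div_iff₀ hSS).1 (hB q.1 (hl q (List.mem_cons_self ..)))) (Nat.cast_nonneg q.2)
      simp only [List.map_cons, List.sum_cons, rent, Int.cast_add, Int.cast_mul, Int.cast_natCast] at b ⊢
      linarith
  have := le ray h2
  rw [z, zero_mul] at this
  have h1' : ((ray.map fun q => (q.2 : ℤ) * ent u q.1).sum : ℝ) < 0 := by exact_mod_cast h1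
  linarith

theorem grpsOK_sound {T : List Tpl} {bt : BT} (hbt : bt.ok T = true) {b : Box} {s0 s1 : ℕ}
    {ex : Exit} {ray : List (ℕ × ℕ)} {c : Fin 4 → ℝ} {X : ℝ} {H H' : ℝ → Fin 4 → ℝ}
    (hm : b.Mem c) (hf : FlowPt T c H H') (hfix : FixPt c X H) (hs0 : (s0 : ℝ) ≤ X * TD)
    (hs1 : X * TD ≤ s1) :
    ∀ (gs : List Grp) (t0 : ℕ) (u : List ℤ), grpsOK T bt b s0 s1 ex ray gs t0 u = true →
      u.length = T.length → Bnd T H t0 (rent u) → (t0 : ℝ) < X * TD → Left ex c X
  | [], t0, u, h, _, hB, ht => by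
    simp only [grpsOK, Bool.or_eq_true, decide_eq_true_eq] at h
    rcases h with h | h
    · exfalso
      have := Nat.cast_le (α := ℝ).2 h
      linarith
    · exact (ray_false h hB).elim
  | g :: gs, t0, u, h, hu, hB, ht => by
    simp only [grpsOK, thenL_eq (thenL_eq thenRow_eq), Bool.and_eq_true, decide_eq_true_eq] at h
    obtain ⟨hlen, hok, hsegs⟩ := h
    obtain ⟨-, hr⟩ := rows_spec hbt hlen hok
    rcases segsOK_sound hm hf hfix hs0 hs1 hr g.segs t0 u hsegs hu hB ht with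
      hl | ⟨t, u', h', hu', hB', ht'⟩
    · exact hl
    · exact grpsOK_sound hbt hm hf hfix hs0 hs1 gs t u' h' hu' hB' ht'

theorem bnd_zero {T : List Tpl} {c : Fin 4 → ℝ} {H H' : ℝ → Fin 4 → ℝ} (hf : FlowPt T c H H') :
    Bnd T H ((0 : ℕ) : ℝ) (rent (List.replicate T.length 0)) := by
  intro k hk
  simp [tplDot, hf.zero, rent, ent, hk]

/-- Soundness: a checked tree excludes the points of its box and its range of times. -/
theorem Cert.sound {T : List Tpl} {bt : BT} (hbt : bt.ok T = true) {c : Fin 4 → ℝ} {X : ℝ}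
    {H H' : ℝ → Fin 4 → ℝ} (hf : FlowPt T c H H') (hfix : FixPt c X H) :
    ∀ (C : Cert) (b : Box) (s0 s1 : ℕ), C.ok T bt b s0 s1 = true → b.Mem c →
      (s0 : ℝ) ≤ X * TD → X * TD ≤ s1 → False
  | .done gs ray, b, s0, s1, h, hm, h0, h1 => by
    have ht : ((0 : ℕ) : ℝ) < X * TD := by
      push_cast; exact mul_pos hfix.pos (by norm_num [TD])
    obtain ⟨b', f0, f1, he, -⟩ := grpsOK_sound hbt hm hf hfix h0 h1 gs 0 _ h (by simp)
      (bnd_zero hf) ht
    simp at he
  | .narrow gs ray b'' g0 g1 sub, b, s0, s1, h, hm, h0, h1 => by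
    simp only [Cert.ok, Bool.and_eq_true] at h
    have ht : ((0 : ℕ) : ℝ) < X * TD := by
      push_cast; exact mul_pos hfix.pos (by norm_num [TD])
    obtain ⟨b', f0, f1, he, hb, hlo, hhi⟩ := grpsOK_sound hbt hm hf hfix h0 h1 gs 0 _ h.1 (by simp)
      (bnd_zero hf) ht
    simp only [Option.some.injEq, Prod.mk.injEq] at he
    obtain ⟨rfl, rfl, rfl⟩ := he
    exact Cert.sound hbt hf hfix sub _ _ _ h.2 hb hlo hhi
  | .empty, b, s0, s1, h, hm, _, _ => by
    simp only [Cert.ok, Bool.or_eq_true, decide_eq_true_eq] at h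
    rcases h with (h | h) | h
    · linarith [hm.r0.trans hm.r1, Int.cast_lt (R := ℝ).2 h]
    · linarith [hm.l0.trans hm.l1, mul_lt_mul_of_pos_right (Int.cast_lt (R := ℝ).2 h)
        (by linarith [hm.half] : (0 : ℝ) < 1 - 2 * c 1)]
    · linarith [hm.g0.trans hm.g1, mul_lt_mul_of_pos_right (Int.cast_lt (R := ℝ).2 h) hm.apos]
  | .split ax m l r, b, s0, s1, h, hm, h0, h1 => by
    simp only [Cert.ok, Bool.and_eq_true] at h
    have : (b.lower ax m).Mem c ∨ (b.upper ax m).Mem c := by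
      simp only [Box.lower, Box.upper]
      split_ifs with a0 a1
      · rcases le_total ((QQ : ℝ) * c 1) m with hc | hc
        · exact Or.inl { hm with r1 := hc }
        · exact Or.inr { hm with r0 := hc }
      · rcases le_total (4 * (QQ : ℝ) * c 2) (3 * m * (1 - 2 * c 1)) with hc | hc
        · exact Or.inl { hm with l1 := hc }
        · exact Or.inr { hm with l0 := hc }
      · rcases le_total ((QQ : ℝ) * c 3) (m * c 2) with hc | hc
        · exact Or.inl { hm with g1 := hc }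
        · exact Or.inr { hm with g0 := hc }
    rcases this with hb | hb
    · exact Cert.sound hbt hf hfix l _ _ _ h.1 hb h0 h1
    · exact Cert.sound hbt hf hfix r _ _ _ h.2 hb h0 h1

end Vale.Agent.P154.Q3.End.Semi
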