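import Vale.Agent.P154.End.Semi.Pointwise

/-!
# Certificates for the one-child bilinear bounds

A certificate consists of integer weights `w` of the four functionals, an integer matrix `C`, a
polynomial majorant `R` and subdivisions. If it checks, the gain of `w` from one child is at most
the bilinear form of `C` in the moments of the node and of the child, on the whole slice and for
every child in `-1/2` times the slice.
-/

namespace Vale.Agent.P154.Q3.End.Semi

open scoped BigOperators

/-- A subdivision in the child with a subdivision in the node on each cell. -/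
inductive ETree where
  | leaf (t : Tree)
  | node (first : Bool) (left right : ETree)

/-- A certificate. The bilinear check uses `k` bits per coefficient. -/
structure SemiCert where
  w0 : ℤ
  w1 : ℤ
  w2 : ℤ
  w3 : ℤ
  C : List (List ℤ)
  R : P3v
  N : ℕ
  k : ℕ
  qA : Tree
  qB : Tree
  dAA : ETree
  dAB : ETree
  dBA : ETree
  dBB : ETree

/-- An entry of `C`. -/
def SemiCert.coef (c : SemiCert) (i j : ℕ) : ℤ := (c.C.getD i []).getD j 0

/-- A row of `C` in the invariants of the child, times eight. -/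
def SemiCert.child (c : SemiCert) (i : ℕ) (w : ℤ) : P2v :=
  [[w, -6 * c.coef i 1], [12 * c.coef i 0, -9 * c.coef i 3], [18 * c.coef i 2]]

/-- The bilinear form plus the functional at the node, times eight. -/
def SemiCert.linTable (c : SemiCert) : P4v :=
  [[c.child 0 0, o2.scale 6 (c.child 2 (8 * c.w1))],
    [o2.scale 6 (c.child 1 (8 * c.w0)), o2.scale 36 (c.child 4 (8 * c.w3))],
    [o2.scale 36 (c.child 3 (8 * c.w2))]]

/-- The majorant of the certificate. -/
def SemiCert.maj (c : SemiCert) : P3v := majPoly c.w0 c.w1 c.w2 c.w3 c.R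

/-- The polynomial of the averaged inequality. -/
def SemiCert.diff (c : SemiCert) : P4v :=
  o4.add (o4.scale (36 * 729 * 2 ^ (c.N - 3)) c.linTable) (o4.scale (-1) (avgOf c.N c.maj))

/-- The root intervals of the first parameter. -/
def rootS (isB : Bool) : Seg := if isB then ⟨1, 2, 2⟩ else ⟨0, 1, 2⟩
/-- The root interval of the second parameter. -/
def rootT : Seg := ⟨0, 1, 1⟩
/-- The range of `u`. -/
def rootU : Seg := ⟨-2, 1, 2⟩

/-- Length of the padded entries. -/
def sigLen (N : ℕ) (isB drop : Bool) : ℕ := if !isB && drop then N - 1 else N + 1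

/-- Bases and shape carried along the subdivisions. -/
structure Bases where
  k : ℕ
  H : ℤ
  H3 : ℤ
  H2 : ℤ
  H1 : ℤ

/-- Check along a subdivision in the node. -/
def aCheck (b : Bases) (N ns : ℕ) (isB : Bool) (M : List (List (ℤ × ℤ))) : Tree → Seg → Seg → Bool
  | .leaf, s, t =>
    tableOK isB false s t N (sigLen N isB false) 4 &&
      thenP (s.subB (2 * b.H1)) fun uA =>
      thenP (t.subB (2 * b.H2)) fun uB =>
      thenL (thenL thenP)
        (tablePair isB false N (sigLen N isB false) 4 uA uB s.subA t.subA) fun tA =>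
        coreCheck b.k b.H ns (sigLen N isB false) tA M
  | .node 0 l r, s, t => aCheck b N ns isB M l s.left t && aCheck b N ns isB M r s.right t
  | .node (_ + 1) l r, s, t => aCheck b N ns isB M l s t.left && aCheck b N ns isB M r s t.right

/-- Check along a subdivision in the child. -/
def eCheck (k : ℕ) (N : ℕ) (isA isE : Bool) (D : P4v) : ETree → Seg → Seg → Bool
  | .leaf T, s, t =>
    let ns := sigLen N isE true
    decide (0 < ns) && tableOK isE true s t N ns 4 &&
    D.all (fun row => row.all fun m => fits m (table isE true s t N ns 4)) &&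
    thenI (2 ^ k) fun H =>
    thenI (nextH H 4) fun H3 =>
    thenI (nextH H3 ns) fun H2 =>
    thenI (nextH H2 4) fun H1 =>
    thenP (s.subB (2 * H3)) fun uA =>
    thenP (t.subB (2 * H)) fun uB =>
    thenL (thenL thenP) (tablePair isE true N ns 4 uA uB s.subA t.subA) fun pE =>
      thenL (thenL thenP) (packMid pE D) fun M =>
        aCheck ⟨k, H, H3, H2, H1⟩ N ns isA M T (rootS isA) rootT
  | .node true l r, s, t => eCheck k N isA isE D l s.left t && eCheck k N isA isE D r s.right t
  | .node false l r, s, t => eCheck k N isA isE D l s t.left && eCheck k N isA isE D r s t.right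

/-- The check of a certificate. -/
def SemiCert.check (c : SemiCert) : Bool :=
  decide (3 ≤ c.N) && degLe c.N c.maj &&
    (thenL (thenL (thenL thenI)) (pointPoly c.w0 c.w1 c.w2 c.w3 c.R false) fun p =>
      tree3 c.qA rootU (rootS false) rootT p) &&
    (thenL (thenL (thenL thenI)) (pointPoly c.w0 c.w1 c.w2 c.w3 c.R true) fun p =>
      tree3 c.qB rootU (rootS true) rootT p) &&
    thenL (thenL (thenL (thenL thenI))) c.diff fun D =>
      D.all (fun row => row.all fun m => zero00 m) &&
        eCheck c.k c.N false false D c.dAA (rootS false) rootT &&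
        eCheck c.k c.N false true D c.dAB (rootS true) rootT &&
        eCheck c.k c.N true false D c.dBA (rootS false) rootT &&
        eCheck c.k c.N true true D c.dBB (rootS true) rootT

/-! ### Soundness -/

theorem ev4_pieces_continuous (isB isE : Bool) (D : P4v) {X : Type} [TopologicalSpace X]
    {a b c d : X → ℝ} (ha : Continuous a) (hb : Continuous b) (hc : Continuous c)
    (hd : Continuous d) :
    Continuous fun z => ev4 (a z ^ 2) (pieceY isB (a z) (b z)) (c z ^ 2) (pieceY isE (c z) (d z)) D := by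
  have h : ∀ (i : Bool) {p q : X → ℝ}, Continuous p → Continuous q →
      Continuous fun z => pieceY i (p z) (q z) := fun i p q hp hq => by
    cases i <;> simp only [pieceY, Bool.false_eq_true, if_false, if_true] <;> fun_prop
  exact continuous_ev4 (ha.pow 2) (h isB ha hb) (hc.pow 2) (h isE hc hd) D

theorem ev2_zero00 {m : P2v} (h : zero00 m = true) : ev2 0 0 m = 0 := by
  rcases m with _ | ⟨_ | ⟨c, cs⟩, rs⟩ <;> simp_all [zero00, ev2, ev1, gev, ev0]

theorem tableK_pos {isB drop : Bool} {s t : Seg} (hs : s.ok = true) (ht : t.ok = true) {ns nt : ℕ}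
    {a b : ℝ} (ha : 0 ≤ a) (hb : 0 ≤ b) (hσ : isB = false ∧ drop = true → s.at a ≠ 0) :
    0 < tableK isB drop s t ns nt a b := by
  have := Seg.den_pos hs ha
  have := Seg.den_pos ht hb
  refine div_pos (by positivity) ?_
  split_ifs with h
  · have := hσ h; positivity
  · exact one_pos

theorem aCheck_sound {k : ℕ} {H H3 H2 H1 : ℤ} {N : ℕ} {isA isE : Bool} {se te : Seg} {D : P4v}
    (eH : H = 2 ^ k) (e3 : H3 = nextH H 4) (e2 : H2 = nextH H3 (sigLen N isE true))
    (e1 : H1 = nextH H2 4) (hn : 0 < sigLen N isE true)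
    (hk : tableOK isE true se te N (sigLen N isE true) 4 = true)
    (hfit : D.all (fun row => row.all fun m =>
      fits m (table isE true se te N (sigLen N isE true) 4)) = true)
    (hz : ∀ row ∈ D, ∀ m ∈ row, zero00 m = true) :
    ∀ (T : Tree) (s t : Seg), aCheck ⟨k, H, H3, H2, H1⟩ N (sigLen N isE true) isA
        (packMid (tablePair isE true N (sigLen N isE true) 4 (se.subB (2 * H3)) (te.subB (2 * H))
          se.subA te.subA) D) T s t = true →
      ∀ {x y p q : ℝ}, s.Mem x → t.Mem y → se.Mem p → te.Mem q →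
        0 ≤ ev4 (x ^ 2) (pieceY isA x y) (p ^ 2) (pieceY isE p q) D
  | .node 0 a b, s, t, h, _, _, _, _, hx, hy, hp, hq => by
    simp only [aCheck, Bool.and_eq_true] at h
    rcases Seg.split hx with c | c
    · exact aCheck_sound eH e3 e2 e1 hn hk hfit hz a _ _ h.1 c hy hp hq
    · exact aCheck_sound eH e3 e2 e1 hn hk hfit hz b _ _ h.2 c hy hp hq
  | .node (_ + 1) a b, s, t, h, _, _, _, _, hx, hy, hp, hq => by
    simp only [aCheck, Bool.and_eq_true] at h
    rcases Seg.split hy with c | c
    · exact aCheck_sound eH e3 e2 e1 hn hk hfit hz a _ _ h.1 hx c hp hq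
    · exact aCheck_sound eH e3 e2 e1 hn hk hfit hz b _ _ h.2 hx c hp hq
  | .leaf, s, t, h, x, y, p, q, hx, hy, hp, hq => by
    simp only [aCheck, thenP_eq, thenL_eq (thenL_eq thenP_eq), Bool.and_eq_true] at h
    obtain ⟨hkA, hcore⟩ := h
    have hA := hkA
    have hE := hk
    simp only [tableOK, Bool.and_eq_true] at hA hE
    obtain ⟨⟨hs, ht⟩, -⟩ := hA
    obtain ⟨⟨hse, hte⟩, -⟩ := hE
    have hH : 0 < H := eH ▸ pow_pos two_pos k
    have h3p : 0 < H3 := e3 ▸ nextH_pos hH 4
    have h2p : 0 < H2 := e2 ▸ nextH_pos h3p _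
    have h1p : 0 < H1 := e1 ▸ nextH_pos h2p _
    refine Seg.extend hte (f := fun q => ev4 (x ^ 2) (pieceY isA x y) (p ^ 2) (pieceY isE p q) D)
      (ev4_pieces_continuous isA isE D continuous_const continuous_const continuous_const
        continuous_id) (fun d hd => ?_) hq
    refine Seg.extend hse
      (f := fun p => ev4 (x ^ 2) (pieceY isA x y) (p ^ 2) (pieceY isE p (te.at d)) D)
      (ev4_pieces_continuous isA isE D continuous_const continuous_const continuous_id
        continuous_const) (fun c hc => ?_) hp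
    refine Seg.extend ht (f := fun y => ev4 (x ^ 2) (pieceY isA x y) (se.at c ^ 2)
      (pieceY isE (se.at c) (te.at d)) D)
      (ev4_pieces_continuous isA isE D continuous_const continuous_id continuous_const
        continuous_const) (fun b hb => ?_) hy
    refine Seg.extend hs (f := fun x => ev4 (x ^ 2) (pieceY isA x (t.at b)) (se.at c ^ 2)
      (pieceY isE (se.at c) (te.at d)) D)
      (ev4_pieces_continuous isA isE D continuous_id continuous_const continuous_const
        continuous_const) (fun a ha => ?_) hx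
    by_cases h0 : isE = false ∧ se.at c = 0
    · obtain ⟨rfl, h0⟩ := h0
      have e : pieceY false 0 (te.at d) = 0 := by simp [pieceY]
      rw [h0, e, zero_pow two_ne_zero]
      refine le_of_eq ?_
      rw [ev4, gev_congr_mem (ev' := fun _ => 0) (k := 0) (fun row hrow => ?_), zero_mul]
      rw [ev3, gev_congr_mem (ev' := fun _ => 0) (k := 0)
        (fun m hm => by rw [ev2_zero00 (hz row hrow m hm)]; ring)]
      ring
    · have hσ : isE = false ∧ true = true → se.at c ≠ 0 := fun hh he => h0 ⟨hh.1, he⟩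
      have key := coreCheck_sound eH e3 e2 e1 hn
        (tablePair_rel hk (by omega) (by omega)) (tablePair_rel hkA (by omega) (by omega))
        hfit hcore (table_spec hkA ha hb)
        (fun row hrow m hm hf => comb_table hk hc hd (fun _ => hz row hrow m hm) hσ hf) ha hb hc hd
      exact nonneg_of_mul_nonneg_right key (mul_pos (tableK_pos hs ht ha hb (by simp))
        (tableK_pos hse hte hc hd hσ))

theorem eCheck_sound {k : ℕ} {N : ℕ} {isA isE : Bool} {D : P4v}
    (hz : ∀ row ∈ D, ∀ m ∈ row, zero00 m = true) :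
    ∀ (T : ETree) (s t : Seg), eCheck k N isA isE D T s t = true →
      ∀ {x y p q : ℝ}, (rootS isA).Mem x → rootT.Mem y → s.Mem p → t.Mem q →
        0 ≤ ev4 (x ^ 2) (pieceY isA x y) (p ^ 2) (pieceY isE p q) D
  | .leaf T, s, t, h, _, _, _, _, hx, hy, hp, hq => by
    simp only [eCheck, thenI_eq, thenP_eq, thenL_eq (thenL_eq thenP_eq), Bool.and_eq_true,
      decide_eq_true_eq] at h
    obtain ⟨⟨⟨hn, hk⟩, hfit⟩, hT⟩ := h
    exact aCheck_sound rfl rfl rfl rfl hn hk hfit hz T _ _ hT hx hy hp hq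
  | .node true a b, s, t, h, _, _, _, _, hx, hy, hp, hq => by
    simp only [eCheck, Bool.and_eq_true] at h
    rcases Seg.split hp with c | c
    · exact eCheck_sound hz a _ _ h.1 hx hy c hq
    · exact eCheck_sound hz b _ _ h.2 hx hy c hq
  | .node false a b, s, t, h, _, _, _, _, hx, hy, hp, hq => by
    simp only [eCheck, Bool.and_eq_true] at h
    rcases Seg.split hq with c | c
    · exact eCheck_sound hz a _ _ h.1 hx hy hp c
    · exact eCheck_sound hz b _ _ h.2 hx hy hp c

theorem rootS_mem {isB : Bool} {σ : ℝ}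
    (h : if isB then 1 / 2 ≤ σ ∧ σ ≤ 1 else 0 ≤ σ ∧ σ ≤ 1 / 2) : (rootS isB).Mem σ := by
  cases isB <;> simp [rootS, Seg.Mem] at h ⊢ <;> constructor <;> linarith [h.1, h.2]

theorem rootT_mem {τ : ℝ} (h0 : 0 ≤ τ) (h1 : τ ≤ 1) : rootT.Mem τ := by
  simp [rootT, Seg.Mem, h0, h1]

theorem tot_child_le {r r' : Fin 3 → ℝ} (hr : InSlice r) (hr' : InSlice r') (k : Fin 6) :
    tot (fun i => (1 + r i) * (1 - r' (six k i) / 2)) ≤ 9 / 2 := by
  have a := fun i => (hr.1 i).1
  have b := fun i => (hr'.1 i).1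
  have hp : ∀ i j, 0 ≤ (1 + r i) * (1 + r' j) :=
    fun i j => mul_nonneg (by linarith [a i]) (by linarith [b j])
  fin_cases k <;> simp [tot, six] <;>
    linarith [hr.2, hr'.2, hp 0 0, hp 0 1, hp 0 2, hp 1 0, hp 1 1, hp 1 2, hp 2 0, hp 2 1, hp 2 2]

theorem linTable_eq (c : SemiCert) (r r' : Fin 3 → ℝ) :
    ev4 (P2 r / 6) (P3 r / 6) (P2 r' / 6) (P3 r' / 6) c.linTable = 8 * (hW c.w0 c.w1 c.w2 c.w3 r +
      ∑ i ∈ Finset.range 5, ∑ j ∈ Finset.range 4, (c.coef i j : ℝ) *
        [1, P2 r, P3 r, P4 r, P5 r].getD i 0 *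
        [P2 r' / 4, -(P3 r' / 8), P4 r' / 16, -(P5 r' / 32)].getD j 0) := by
  simp only [SemiCert.linTable, ev4, ev3, gev, (ok2 _ _).scale, SemiCert.child, Finset.sum_range_succ,
    Finset.sum_range_zero, List.getD_cons_zero, List.getD_cons_succ, hW, P4, P5]
  simp only [ev2, gev, ev1, ev0]
  push_cast
  ring

/-- Soundness: the bound on the gain from one child `e = -r' / 2`. -/
theorem SemiCert.sound {c : SemiCert} (h : c.check = true) {r r' : Fin 3 → ℝ} (hr : InSlice r)
    (hr' : InSlice r') :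
    (∑ k, rf (hW c.w0 c.w1 c.w2 c.w3) fun i => (1 + r i) * (1 - r' (six k i) / 2)) / 6 -
        hW c.w0 c.w1 c.w2 c.w3 r ≤
      ∑ i ∈ Finset.range 5, ∑ j ∈ Finset.range 4, (c.coef i j : ℝ) *
        [1, P2 r, P3 r, P4 r, P5 r].getD i 0 *
        [P2 r' / 4, -(P3 r' / 8), P4 r' / 16, -(P5 r' / 32)].getD j 0 := by
  simp only [SemiCert.check, thenL_eq (thenL_eq (thenL_eq (thenL_eq thenI_eq))),
    thenL_eq (thenL_eq (thenL_eq thenI_eq)), Bool.and_eq_true,
    decide_eq_true_eq] at h
  obtain ⟨⟨⟨⟨hN, hdeg⟩, hqA⟩, hqB⟩, ⟨⟨⟨hz, hAA⟩, hAB⟩, hBA⟩, hBB⟩ := h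
  simp only [List.all_eq_true] at hz
  have hQ : ∀ (isB : Bool) (u σ τ : ℝ), -1 ≤ u → u ≤ 1 / 2 →
      (if isB then 1 / 2 ≤ σ ∧ σ ≤ 1 else 0 ≤ σ ∧ σ ≤ 1 / 2) → 0 ≤ τ → τ ≤ 1 →
      0 ≤ ev3 u σ τ (pointPoly c.w0 c.w1 c.w2 c.w3 c.R isB) := by
    intro isB u σ τ u0 u1 hσ t0 t1
    have hu : rootU.Mem u := by simp [rootU, Seg.Mem]; constructor <;> linarith
    cases isB
    · exact tree3_sound _ _ _ _ _ hqA hu (rootS_mem hσ) (rootT_mem t0 t1)
    · exact tree3_sound _ _ _ _ _ hqB hu (rootS_mem hσ) (rootT_mem t0 t1)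
  obtain ⟨iA, x, y, hx, y0, y1, ex, ey⟩ := slice_param hr
  obtain ⟨iE, p, q, hp, q0, q1, ep, eq⟩ := slice_param hr'
  have hD : 0 ≤ ev4 (x ^ 2) (pieceY iA x y) (p ^ 2) (pieceY iE p q) c.diff := by
    have hx' := rootS_mem hx
    have hy' := rootT_mem y0 y1
    have hp' := rootS_mem hp
    have hq' := rootT_mem q0 q1
    cases iA <;> cases iE
    · exact eCheck_sound hz _ _ _ hAA hx' hy' hp' hq'
    · exact eCheck_sound hz _ _ _ hAB hx' hy' hp' hq'
    · exact eCheck_sound hz _ _ _ hBA hx' hy' hp' hq'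
    · exact eCheck_sound hz _ _ _ hBB hx' hy' hp' hq'
  rw [← ex, ← ey, ← ep, ← eq, SemiCert.diff, (ok4 _ _ _ _).add, (ok4 _ _ _ _).scale,
    (ok4 _ _ _ _).scale, avgOf_eq hdeg hr.2 hr'.2, linTable_eq] at hD
  have hk : ∀ k : Fin 6, 729 * rf (hW c.w0 c.w1 c.w2 c.w3)
      (fun i => (1 + r i) * (1 - r' (six k i) / 2)) ≤
      majVal c.maj fun i => (1 + r i) * (1 - r' (six k i) / 2) := fun k =>
    majorant_le hQ (fun i => mul_nonneg (by linarith [(hr.1 i).1])
      (by linarith [(hr'.1 (six k i)).2])) (tot_child_le hr hr' k)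
  have hs := Finset.sum_le_sum fun k (_ : k ∈ Finset.univ) => hk k
  rw [← Finset.mul_sum] at hs
  set S := ∑ k, majVal c.maj fun i => (1 + r i) * (1 - r' (six k i) / 2)
  obtain ⟨n, hn⟩ : ∃ n, c.N = n + 3 := ⟨c.N - 3, by omega⟩
  rw [hn, Nat.add_sub_cancel, pow_add] at hD
  push_cast at hD
  refine le_of_mul_le_mul_left (a := 729 * 6 * (2 : ℝ) ^ n) ?_ (by positivity)
  have := mul_le_mul_of_nonneg_left hs (pow_nonneg (zero_le_two : (0 : ℝ) ≤ 2) n)
  linarith

end Vale.Agent.P154.Q3.End.Semi
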