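import Vale.Agent.P154.End.Semi.Seg

/-!
# The bilinear combination of two tables

The combination is checked through one packed value and one bound: each table entry contributes
the pair of its value at the bases and its norm.
-/

namespace Vale.Agent.P154.Q3.End.Semi

/-- Outer product with a first-factor entry. -/
def outer {β : Type} (o : Ops β) (N : β) (A : P2v) : List (List β) :=
  A.map fun row => row.map fun a => o.scale a N

/-- The combination of products. -/
def coreSum {β : Type} (o : Ops β) (tA : List (List P2v)) (tE : List (List β))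
    (M : List (List P2v)) : List (List β) :=
  comb2 o.up.up (outer o) (M.map fun row => row.map fun m => comb2 o o.scale m tE) tA

theorem gev_outer {β : Type} {o : Ops β} {ev : β → ℝ} (h : o.OK ev) (N : β) (A : P2v) (a b : ℝ) :
    gev (fun r => gev ev r b) (outer o N A) a = ev N * ev2 a b A := by
  rw [outer, gev_map_comp, ev2]
  refine gev_congr_mem (fun row _ => ?_) a
  rw [gev_map_comp, ev1]
  exact gev_congr_mem (fun x _ => by rw [h.scale, ev0]; ring) b

theorem coreSum_eval {tA tE : List (List P2v)} {M : List (List P2v)} {a b c d F G X Y X' Y' : ℝ}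
    (hA : TblSpec (ev2 a b) F X Y tA)
    (hE : ∀ row ∈ M, ∀ m ∈ row, ev2 c d (comb2 o2 o2.scale m tE) = G * ev2 X' Y' m)
    (hf : fits M tA = true) :
    ev4 a b c d (coreSum o2 tA tE M) = F * G * ev4 X Y X' Y' M := by
  have hf' : ∀ (M : List (List P2v)) (t : List (List P2v)), fits M t = true →
      fits (M.map fun row => row.map fun m => comb2 o2 o2.scale m tE) t = true := by
    intro M
    induction M with
    | nil => intro t _; simp [fits]
    | cons r rs ih =>
      intro t ht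
      cases t with
      | nil => simp [fits] at ht
      | cons t ts =>
        simp only [fits, List.map_cons, Bool.and_eq_true, decide_eq_true_eq, List.length_map] at ht ⊢
        exact ⟨ht.1, ih ts ht.2⟩
  have he := comb2_eval (o := o4) (ev := fun p => ev4 a b c d p) (ok4 a b c d) (sc := outer o2)
    (f := ev2 c d) (g := ev2 a b) (fun N A => gev_outer (ok2 c d) N A a b) _ tA F hA
    (hf' M tA hf)
  simp only [o4, o3] at he
  rw [coreSum, he, gev_map_comp]
  have e : ∀ row ∈ M, gev (ev2 c d) (row.map fun m => comb2 o2 o2.scale m tE) Y =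
      G * gev (ev2 X' Y') row Y := by
    intro row hrow
    rw [gev_map_comp]
    exact gev_congr_mem (fun m hmm => hE row hrow m hmm) Y
  rw [gev_congr_mem e, mul_assoc]
  rfl

/-- Pairs of a packed value and a bound. -/
def oP : Ops (ℤ × ℤ) where
  zero := (0, 0)
  add a b := (Int.add a.1 b.1, Int.add a.2 b.2)
  scale c a := (Int.mul c a.1, Int.mul (c.natAbs : ℤ) a.2)

/-- Product of pairs. -/
def mulP (N A : ℤ × ℤ) : ℤ × ℤ := (Int.mul N.1 A.1, Int.mul N.2 A.2)

/-- The rows of the middle product. -/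
def packMid (pE : List (List (ℤ × ℤ))) (M : List (List P2v)) : List (List (ℤ × ℤ)) :=
  M.map fun row => row.map fun m => comb2 oP oP.scale m pE

/-- The pair of one table entry. -/
def entryPair (ns nt : ℕ) (a b aA bA : ℤ × ℤ) (g : P2v) : ℤ × ℤ :=
  (hz2 ns nt a b id g, hz2 ns nt aA bA (fun c => (c.natAbs : ℤ)) g)

/-- The check of the combined pair. -/
def coreCheck (k : ℕ) (H : ℤ) (nE nA : ℕ) (tA : List (List (ℤ × ℤ)))
    (N : List (List (ℤ × ℤ))) : Bool :=
  fits N tA &&
    thenP (comb2 oP mulP N tA) fun Z =>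
      decide (Z.2 < H) && smallDigits k (nA * (4 * (nE * (4 * 1)))) Z.1

/-- A pair represents a table entry at the bases. -/
def RelT (A B : ℝ) (ns nt : ℕ) (g : P2v) (a : ℤ × ℤ) : Prop :=
  (a.1 : ℝ) = ev2 A B g ∧ nv2 g ≤ (a.2 : ℝ) ∧ Shape (Shape AnyInt nt) ns g

/-- A pair represents a combination of four variables at the bases. -/
def RelF (A B C D : ℝ) (nA nE : ℕ) (G : P4v) (a : ℤ × ℤ) : Prop :=
  (a.1 : ℝ) = ev4 A B C D G ∧ gev (fun r => gev nv2 r 1) G 1 ≤ (a.2 : ℝ) ∧
    Shape (Shape (Shape (Shape AnyInt 4) nE) 4) nA G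

theorem relT_zero (A B : ℝ) (ns nt : ℕ) : RelT A B ns nt o2.zero oP.zero :=
  ⟨by simp [oP, o2, Ops.up, ev2, gev], by simp [oP, o2, Ops.up, nv2, gev],
    (Ops.up_closed (Ops.up_closed closed0 nt) ns).zero⟩

theorem relT_add {A B : ℝ} {ns nt : ℕ} {g g' : P2v} {a a' : ℤ × ℤ} (h : RelT A B ns nt g a)
    (h' : RelT A B ns nt g' a') : RelT A B ns nt (o2.add g g') (oP.add a a') := by
  obtain ⟨h1, h2, h3⟩ := h
  obtain ⟨k1, k2, k3⟩ := h'
  refine ⟨?_, ?_, (Ops.up_closed (Ops.up_closed closed0 nt) ns).add _ _ h3 k3⟩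
  · simp only [oP, Int.add_def, (ok2 A B).add, Int.cast_add, h1, k1]
  · refine (nok2.add g g').trans ?_
    simp only [oP, Int.add_def, Int.cast_add]
    linarith

theorem relT_scale {A B : ℝ} {ns nt : ℕ} (c : ℤ) {g : P2v} {a : ℤ × ℤ}
    (h : RelT A B ns nt g a) : RelT A B ns nt (o2.scale c g) (oP.scale c a) := by
  obtain ⟨h1, h2, h3⟩ := h
  refine ⟨?_, ?_, (Ops.up_closed (Ops.up_closed closed0 nt) ns).scale c g h3⟩
  · simp only [oP, Int.mul_def, (ok2 A B).scale, Int.cast_mul, h1]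
  · refine (nok2.scale c g).trans ?_
    simp only [oP, Int.mul_def, Int.cast_mul, Nat.cast_natAbs, Int.cast_abs, Int.cast_natCast]
    exact mul_le_mul_of_nonneg_left h2 (abs_nonneg _)

theorem nok4 : o4.NOK fun G => gev (fun r => gev nv2 r 1) G 1 :=
  Ops.up_nok (Ops.up_nok nok2)

theorem closed4 (nA nE : ℕ) : o4.Closed (Shape (Shape (Shape (Shape AnyInt 4) nE) 4) nA) :=
  Ops.up_closed (Ops.up_closed (Ops.up_closed (Ops.up_closed closed0 4) nE) 4) nA

theorem relF_zero (A B C D : ℝ) (nA nE : ℕ) : RelF A B C D nA nE o4.zero oP.zero :=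
  ⟨by simp [oP, o4, Ops.up, ev4, gev], by simp [oP, o4, Ops.up, gev], (closed4 nA nE).zero⟩

theorem relF_add {A B C D : ℝ} {nA nE : ℕ} {g g' : P4v} {a a' : ℤ × ℤ}
    (h : RelF A B C D nA nE g a) (h' : RelF A B C D nA nE g' a') :
    RelF A B C D nA nE (o4.add g g') (oP.add a a') := by
  obtain ⟨h1, h2, h3⟩ := h
  obtain ⟨k1, k2, k3⟩ := h'
  refine ⟨?_, ?_, (closed4 nA nE).add _ _ h3 k3⟩
  · simp only [oP, Int.add_def, (ok4 A B C D).add, Int.cast_add, h1, k1]
  · refine (nok4.add g g').trans ?_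
    simp only [oP, Int.add_def, Int.cast_add]
    linarith

theorem relF_outer {A B C D : ℝ} {nA nE : ℕ} {N E : P2v} {n e : ℤ × ℤ}
    (hN : RelT C D nE 4 N n) (hE : RelT A B nA 4 E e) :
    RelF A B C D nA nE (outer o2 N E) (mulP n e) := by
  obtain ⟨n1, n2, n3⟩ := hN
  obtain ⟨e1, e2, e3⟩ := hE
  refine ⟨?_, ?_, ?_⟩
  · simp only [mulP, Int.mul_def, Int.cast_mul, n1, e1]
    exact (gev_outer (ok2 C D) N E A B).symm
  · have h0 := nok2.nonneg N
    have h1 : gev (fun r => gev nv2 r 1) (outer o2 N E) 1 ≤ nv2 N * nv2 E := by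
      rw [outer, Ops.up_nok.gev_map_one, nv2]
      refine gev_mono zero_le_one fun row _ => ?_
      rw [Ops.up_nok.gev_map_one, nv1]
      exact gev_mono zero_le_one fun x _ => (nok2.scale x N).trans
        (le_of_eq (by rw [nv0, nv2]; ring))
    refine h1.trans ?_
    simp only [mulP, Int.mul_def, Int.cast_mul]
    exact mul_le_mul n2 e2 (nok2.nonneg E) (h0.trans n2)
  · refine ⟨by simpa [outer] using e3.1, fun row hrow => ?_⟩
    simp only [outer, List.mem_map] at hrow
    obtain ⟨row', hrow', rfl⟩ := hrow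
    refine ⟨by simpa using (e3.2 row' hrow').1, fun g hg => ?_⟩
    obtain ⟨x, -, rfl⟩ := List.mem_map.1 hg
    exact (Ops.up_closed (Ops.up_closed closed0 4) nE).scale x N n3

/-- Soundness of the check for tables represented by pairs. -/
theorem coreCheck_sound {k : ℕ} {H H3 H2 H1 : ℤ} {nE nA : ℕ} {tA tE : List (List P2v)}
    {pA pE : List (List (ℤ × ℤ))} {M : List (List P2v)} {a b c d F G X Y X' Y' : ℝ}
    (eH : H = 2 ^ k) (e3 : H3 = nextH H 4) (e2 : H2 = nextH H3 nE) (e1 : H1 = nextH H2 4) (hnE : 0 < nE)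
    (hEr : List.Forall₂ (List.Forall₂
      (RelT ((2 * H3 : ℤ) : ℝ) ((2 * H : ℤ) : ℝ) nE 4)) tE pE)
    (hAr : List.Forall₂ (List.Forall₂
      (RelT ((2 * H1 : ℤ) : ℝ) ((2 * H2 : ℤ) : ℝ) nA 4)) tA pA)
    (hm : M.all (fun row => row.all fun m => fits m tE) = true)
    (h : coreCheck k H nE nA pA (packMid pE M) = true)
    (hA : TblSpec (ev2 a b) F X Y tA)
    (hE : ∀ row ∈ M, ∀ m ∈ row, fits m tE = true →
      ev2 c d (comb2 o2 o2.scale m tE) = G * ev2 X' Y' m)
    (ha : 0 ≤ a) (hb : 0 ≤ b) (hc : 0 ≤ c) (hd : 0 ≤ d) : 0 ≤ F * G * ev4 X Y X' Y' M := by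
  simp only [coreCheck, thenP_eq, Bool.and_eq_true, decide_eq_true_eq] at h
  obtain ⟨hf0, hbound, hsm⟩ := h
  have hH : 0 < H := eH ▸ pow_pos two_pos k
  simp only [List.all_eq_true] at hm
  have hf : fits M tA = true := by
    revert hf0
    clear hsm hbound hA hm hE
    unfold packMid
    induction hAr generalizing M with
    | nil => cases M <;> simp [fits]
    | cons hr _ ih =>
      cases M with
      | nil => simp [fits]
      | cons m ms =>
        simp only [fits, List.map_cons, List.length_map, Bool.and_eq_true, decide_eq_true_eq]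
        exact fun hh => ⟨by rw [hr.length_eq]; exact hh.1, ih hh.2⟩
  rw [← coreSum_eval hA (fun row hr m hm' => hE row hr m hm' (hm row hr m hm')) hf]
  have hR : RelF ((2 * H1 : ℤ) : ℝ) ((2 * H2 : ℤ) : ℝ) ((2 * H3 : ℤ) : ℝ) ((2 * H : ℤ) : ℝ)
      nA nE (coreSum o2 tA tE M) (comb2 oP mulP (packMid pE M) pA) := by
    refine comb_rel (o := o4) (o' := oP) (relF_zero ..) (fun _ _ _ _ => relF_add)
      (S := List.Forall₂ (RelT ((2 * H3 : ℤ) : ℝ) ((2 * H : ℤ) : ℝ) nE 4))
      (T := List.Forall₂ (RelT ((2 * H1 : ℤ) : ℝ) ((2 * H2 : ℤ) : ℝ) nA 4)) ?_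
      (forall₂_map fun row _ => forall₂_map fun m _ => ?_) hAr
    · intro cs cs' ts ts' hcs hts
      exact comb_rel (o := o4) (o' := oP) (relF_zero ..) (fun _ _ _ _ => relF_add)
        (S := RelT ((2 * H3 : ℤ) : ℝ) ((2 * H : ℤ) : ℝ) nE 4)
        (T := RelT ((2 * H1 : ℤ) : ℝ) ((2 * H2 : ℤ) : ℝ) nA 4)
        (fun N n E e hN hE => relF_outer hN hE) hcs hts
    · exact comb_rel (relT_zero ..) (fun _ _ _ _ => relT_add) (S := (· = ·))
        (T := List.Forall₂ (RelT ((2 * H3 : ℤ) : ℝ) ((2 * H : ℤ) : ℝ) nE 4))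
        (fun r r' t t' hr ht' => by
          subst hr
          exact comb_rel (relT_zero ..) (fun _ _ _ _ => relT_add) (S := (· = ·))
            (fun x x' g g' hx hg => by subst hx; exact relT_scale x hg) (forall₂_self r) ht')
        (forall₂_self m) hEr
  obtain ⟨hval, hnorm, hlen, hshape⟩ := hR
  set g := coreSum o2 tA tE M
  have h3p : 0 < H3 := e3 ▸ nextH_pos hH 4
  have h2p : 0 < H2 := e2 ▸ nextH_pos h3p nE
  let pk1 : P1 → ℤ := packI (2 * H)
  let pk2 : P2v → ℤ := fun q => packI (2 * H3) (q.map pk1)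
  let pk3 : List P2v → ℤ := fun q => packI (2 * H2) (q.map pk2)
  have hb0 : ∀ q ∈ g, ∀ r ∈ q, ∀ row ∈ r, ∀ x ∈ row, |x| < H := fun q hq r hr row hrow x hx => by
    have h1 := le_nrm_of_mem nok0.nonneg hx
    have h2 := le_nrm_of_mem nok1.nonneg hrow
    have h3 := le_nrm_of_mem nok2.nonneg hr
    have h4 := le_nrm_of_mem (Ops.up_nok nok2).nonneg hq
    simp only [nv0, nv1, nv2] at h1 h2 h3 h4 hnorm
    have h5 := (((h1.trans h2).trans h3).trans h4).trans hnorm
    have : (|x| : ℤ) ≤ (comb2 oP mulP (packMid pE M) pA).2 := by exact_mod_cast h5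
    omega
  have hb1 : ∀ q ∈ g, ∀ r ∈ q, ∀ row ∈ r, |pk1 row| < H3 := fun q hq r hr row hrow =>
    e3 ▸ packI_lt hH (by norm_num) (hb0 q hq r hr row hrow)
      (((hshape q hq).2 r hr).2 row hrow).1
  have hb2 : ∀ q ∈ g, ∀ r ∈ q, |pk2 r| < H2 := fun q hq r hr => by
    rw [e2]
    refine packI_lt h3p hnE (fun z hz => ?_) ?_
    · obtain ⟨row, hrow, rfl⟩ := List.mem_map.1 hz; exact hb1 q hq r hr row hrow
    · rw [List.length_map]; exact ((hshape q hq).2 r hr).1
  have hb3 : ∀ q ∈ g, |pk3 q| < H1 := fun q hq => by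
    rw [e1]
    refine packI_lt h2p (by norm_num) (fun z hz => ?_) ?_
    · obtain ⟨r, hr, rfl⟩ := List.mem_map.1 hz; exact hb2 q hq r hr
    · rw [List.length_map]; exact (hshape q hq).1
  have hZ : (comb2 oP mulP (packMid pE M) pA).1 = packI (2 * H1) (g.map pk3) := by
    refine Int.cast_injective (α := ℝ) ?_
    rw [hval, packI_map_cast, ev4]
    congr 1
    funext q
    simp only [pk3, packI_map_cast, ev3]
    congr 1
    funext r
    simp only [pk2, packI_map_cast, ev2]
    congr 1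
    funext row
    simp only [pk1, packI_cast, ev1]
  have d0 : 2 * H = 2 ^ (1 * (k + 1)) := by rw [one_mul, pow_succ', eH]
  have d1 := e3 ▸ two_nextH (show 0 < 4 by norm_num) d0
  have d2 := e2 ▸ two_nextH hnE d1
  have d3 := e1 ▸ two_nextH (show 0 < 4 by norm_num) d2
  have hu : unpackG (unpackG (unpackG (unpackG (fun d => decide (0 ≤ d)) H 4) H3 nE) H2 4) H1 nA
      (packI (2 * H1) (g.map pk3)) = true := by
    rw [hZ] at hsm
    obtain ⟨z, hz, hc⟩ := smallDigits_sound hsm
    rw [hz]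
    refine unpackG_clear ?_ d3 (unpackG_clear ?_ d2 (unpackG_clear ?_ d1
      (unpackG_clear one_pos d0 (fun a _ => by simp) 4) nE) 4) nA z hc
    all_goals positivity
  have l1 := unpack_level hb3 hlen hu
  refine gev_nonneg (fun q hq => gev_nonneg (fun r hr => gev_nonneg (fun row hrow =>
    gev_nonneg (fun x hx => ?_) hd) hc) hb) ha
  have l2 := unpack_level (hb2 q hq) (hshape q hq).1 (l1 q hq)
  have l3 := unpack_level (hb1 q hq r hr) ((hshape q hq).2 r hr).1 (l2 r hr)
  have l4 := unpackG_sound row 4 (hb0 q hq r hr row hrow)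
    (((hshape q hq).2 r hr).2 row hrow).1 (l3 row hrow) x hx
  simp only [decide_eq_true_eq] at l4
  simp only [ev0]
  exact_mod_cast l4

end Vale.Agent.P154.Q3.End.Semi
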