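import Vale.Agent.P154.End.Majorant

/-!
# Dense polynomials in several variables

A polynomial in `n + 1` variables is a list of polynomials in `n` variables, constant term first.
The operations are generic in the type of the coefficients; `Ops.OK` records what they must satisfy.
-/

namespace Vale.Agent.P154.Q3.End.Semi

/-- Operations on coefficients. -/
structure Ops (α : Type) where
  zero : α
  add : α → α → α
  scale : ℤ → α → α

/-- The operations agree with an evaluation. -/
structure Ops.OK {α : Type} (o : Ops α) (ev : α → ℝ) : Prop where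
  zero : ev o.zero = 0
  add : ∀ a b, ev (o.add a b) = ev a + ev b
  scale : ∀ c a, ev (o.scale c a) = (c : ℝ) * ev a

/-- Evaluation in the outer variable. -/
def gev {α : Type} (ev : α → ℝ) : List α → ℝ → ℝ
  | [], _ => 0
  | c :: cs, x => ev c + x * gev ev cs x

/-- Coefficientwise sum. -/
def gadd {α : Type} (f : α → α → α) : List α → List α → List α
  | [], q => q
  | a :: as, [] => a :: as
  | a :: as, b :: bs => f a b :: gadd f as bs

/-- Operations one level up. -/
def Ops.up {α : Type} (o : Ops α) : Ops (List α) :=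
  ⟨[], gadd o.add, fun c p => p.map (o.scale c)⟩

/-- Product with `a + b x`. -/
def Ops.mulLin {α : Type} (o : Ops α) (a b : ℤ) (p : List α) : List α :=
  gadd o.add (p.map (o.scale a)) (o.zero :: p.map (o.scale b))

/-- Product with a power of the outer variable. -/
def Ops.shift {α : Type} (o : Ops α) : ℕ → List α → List α
  | 0, p => p
  | n + 1, p => o.zero :: o.shift n p

/-- The power `(a + b x) ^ n` times `c`. -/
def Ops.linPow {α : Type} (o : Ops α) (a b : ℤ) (c : α) : ℕ → List α
  | 0 => [c]
  | n + 1 => o.mulLin a b (o.linPow a b c n)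

/-- Horner scheme in a target structure. -/
def horner {α β : Type} (o : Ops β) (step : β → β) (emb : α → β) : List α → β
  | [] => o.zero
  | c :: cs => o.add (emb c) (step (horner o step emb cs))

theorem gev_gadd {α : Type} {ev : α → ℝ} {f : α → α → α} (hf : ∀ a b, ev (f a b) = ev a + ev b)
    (x : ℝ) : ∀ p q, gev ev (gadd f p q) x = gev ev p x + gev ev q x
  | [], q => by simp [gadd, gev]
  | a :: as, [] => by simp [gadd, gev]
  | a :: as, b :: bs => by simp only [gadd, gev, gev_gadd hf x as bs, hf]; ring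

theorem gev_map {α : Type} {ev : α → ℝ} {g : α → α} {k : ℝ} (hg : ∀ a, ev (g a) = k * ev a)
    (x : ℝ) : ∀ p, gev ev (p.map g) x = k * gev ev p x
  | [] => by simp [gev]
  | a :: as => by simp only [List.map_cons, gev, gev_map hg x as, hg]; ring

theorem Ops.up_ok {α : Type} {o : Ops α} {ev : α → ℝ} (h : o.OK ev) (x : ℝ) :
    o.up.OK (fun p => gev ev p x) :=
  ⟨rfl, fun a b => gev_gadd h.add x a b, fun c a => gev_map (h.scale c) x a⟩

theorem gev_mulLin {α : Type} {o : Ops α} {ev : α → ℝ} (h : o.OK ev) (a b : ℤ) (x : ℝ)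
    (p : List α) : gev ev (o.mulLin a b p) x = (a + b * x) * gev ev p x := by
  simp only [Ops.mulLin, gev_gadd h.add, gev, h.zero, gev_map (h.scale a), gev_map (h.scale b)]
  ring

theorem gev_shift {α : Type} {o : Ops α} {ev : α → ℝ} (h : o.OK ev) (x : ℝ) :
    ∀ n p, gev ev (o.shift n p) x = x ^ n * gev ev p x
  | 0, p => by simp [Ops.shift]
  | n + 1, p => by simp only [Ops.shift, gev, h.zero, gev_shift h x n p]; ring

theorem gev_linPow {α : Type} {o : Ops α} {ev : α → ℝ} (h : o.OK ev) (a b : ℤ) (c : α) (x : ℝ) :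
    ∀ n, gev ev (o.linPow a b c n) x = (a + b * x) ^ n * ev c
  | 0 => by simp [Ops.linPow, gev]
  | n + 1 => by rw [Ops.linPow, gev_mulLin h, gev_linPow h a b c x n]; ring

theorem horner_eq {α β : Type} {o : Ops β} {ev : β → ℝ} (h : o.OK ev) {step : β → β}
    {emb : α → β} {e : α → ℝ} {s : ℝ} (hs : ∀ p, ev (step p) = s * ev p)
    (he : ∀ c, ev (emb c) = e c) : ∀ p, ev (horner o step emb p) = gev e p s
  | [] => h.zero
  | c :: cs => by simp only [horner, h.add, hs, he, horner_eq h hs he cs, gev]

theorem continuous_gev {α : Type} {X : Type} [TopologicalSpace X] {ev : X → α → ℝ} {x : X → ℝ}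
    (hx : Continuous x) (hev : ∀ a, Continuous fun z => ev z a) :
    ∀ p, Continuous fun z => gev (ev z) p (x z)
  | [] => continuous_const
  | c :: cs => (hev c).add (hx.mul (continuous_gev hx hev cs))

theorem nonneg_Icc {f : ℝ → ℝ} {a b : ℝ} (hab : a < b) (hf : Continuous f)
    (h : ∀ x, a ≤ x → x < b → 0 ≤ f x) {x : ℝ} (h1 : a ≤ x) (h2 : x ≤ b) : 0 ≤ f x := by
  have hc : Set.Icc a b ⊆ {y | 0 ≤ f y} := by
    rw [← closure_Ico hab.ne]
    exact closure_minimal (fun y hy => h y hy.1 hy.2) (isClosed_le continuous_const hf)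
  exact hc ⟨h1, h2⟩

/-- Polynomials in one variable. -/
abbrev P1 := List ℤ
/-- Polynomials in two variables. -/
abbrev P2v := List P1
/-- Polynomials in three variables. -/
abbrev P3v := List P2v
/-- Polynomials in four variables. -/
abbrev P4v := List P3v

/-- Integer coefficients. -/
def o0 : Ops ℤ := ⟨0, Int.add, Int.mul⟩
/-- One variable. -/
def o1 : Ops P1 := o0.up
/-- Two variables. -/
def o2 : Ops P2v := o1.up
/-- Three variables. -/
def o3 : Ops P3v := o2.up
/-- Four variables. -/
def o4 : Ops P4v := o3.up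

/-- Integer coefficient as a real number. -/
def ev0 (c : ℤ) : ℝ := c
/-- Value in one variable. -/
def ev1 (x : ℝ) (p : P1) : ℝ := gev ev0 p x
/-- Value in two variables, the outer one first. -/
def ev2 (x y : ℝ) (p : P2v) : ℝ := gev (ev1 y) p x
/-- Value in three variables. -/
def ev3 (x y z : ℝ) (p : P3v) : ℝ := gev (ev2 y z) p x
/-- Value in four variables. -/
def ev4 (x y z w : ℝ) (p : P4v) : ℝ := gev (ev3 y z w) p x

theorem ok0 : o0.OK ev0 := ⟨by simp [o0, ev0], fun a b => by simp [o0, ev0], fun c a => by simp [o0, ev0]⟩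
theorem ok1 (x : ℝ) : o1.OK (ev1 x) := Ops.up_ok ok0 x
theorem ok2 (x y : ℝ) : o2.OK (ev2 x y) := Ops.up_ok (ok1 y) x
theorem ok3 (x y z : ℝ) : o3.OK (ev3 x y z) := Ops.up_ok (ok2 y z) x
theorem ok4 (x y z w : ℝ) : o4.OK (ev4 x y z w) := Ops.up_ok (ok3 y z w) x

theorem gev_map_comp {α β : Type} (ev : β → ℝ) (g : α → β) (x : ℝ) :
    ∀ p, gev ev (p.map g) x = gev (fun c => ev (g c)) p x
  | [] => rfl
  | c :: cs => by simp only [List.map_cons, gev, gev_map_comp ev g x cs]

theorem gev_congr_mem {α : Type} {ev ev' : α → ℝ} {k : ℝ} {p : List α}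
    (h : ∀ c ∈ p, ev c = k * ev' c) (x : ℝ) : gev ev p x = k * gev ev' p x := by
  induction p with
  | nil => simp [gev]
  | cons c cs ih =>
    simp only [gev, h c (List.mem_cons_self ..), ih fun d hd => h d (List.mem_cons_of_mem _ hd)]
    ring

theorem gev_nonneg {α : Type} {ev : α → ℝ} {p : List α} (h : ∀ c ∈ p, 0 ≤ ev c) {x : ℝ}
    (hx : 0 ≤ x) : 0 ≤ gev ev p x := by
  induction p with
  | nil => simp [gev]
  | cons c cs ih =>
    simp only [gev]
    exact add_nonneg (h c (List.mem_cons_self ..))
      (mul_nonneg hx (ih fun d hd => h d (List.mem_cons_of_mem _ hd)))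

theorem continuous_ev2 {X : Type} [TopologicalSpace X] {x y : X → ℝ} (hx : Continuous x)
    (hy : Continuous y) (p : P2v) : Continuous fun z => ev2 (x z) (y z) p :=
  continuous_gev hx (fun q => continuous_gev (ev := fun _ => ev0) hy (fun _ => continuous_const) q) p

theorem continuous_ev3 {X : Type} [TopologicalSpace X] {x y w : X → ℝ} (hx : Continuous x)
    (hy : Continuous y) (hw : Continuous w) (p : P3v) :
    Continuous fun z => ev3 (x z) (y z) (w z) p :=
  continuous_gev hx (continuous_ev2 hy hw) p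

theorem continuous_ev4 {X : Type} [TopologicalSpace X] {x y v w : X → ℝ} (hx : Continuous x)
    (hy : Continuous y) (hv : Continuous v) (hw : Continuous w) (p : P4v) :
    Continuous fun z => ev4 (x z) (y z) (v z) (w z) p :=
  continuous_gev hx (continuous_ev3 hy hv hw) p

end Vale.Agent.P154.Q3.End.Semi
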