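import Vale.Agent.P154.End.Limit

/-!
# Poisson mixtures and comparison for linear differential inequalities
-/

namespace Vale.Agent.P154.Q3.End.Semi

open scoped BigOperators Topology
open Filter

/-- The mixture of a sequence under the Poisson law of mean `x`. -/
noncomputable def mix (f : ℕ → ℝ) (x : ℝ) : ℝ := ∑' j, poissonWeight x j * f j

theorem summable_expSeries {f : ℕ → ℝ} {B : ℝ} (hf : ∀ j, |f j| ≤ B) (x : ℝ) :
    Summable fun j => f j * (x ^ j / (j.factorial : ℝ)) :=
  Summable.of_norm_bounded ((Real.summable_pow_div_factorial |x|).mul_left B) fun j => by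
    rw [Real.norm_eq_abs, abs_mul, abs_div, abs_pow, Nat.abs_cast]
    exact mul_le_mul_of_nonneg_right (hf j) (by positivity)

theorem mix_eq (f : ℕ → ℝ) (x : ℝ) :
    mix f x = Real.exp (-x) * ∑' j, f j * (x ^ j / (j.factorial : ℝ)) := by
  rw [mix, ← tsum_mul_left]
  exact tsum_congr fun j => by simp only [poissonWeight]; ring

theorem mix_zero (f : ℕ → ℝ) : mix f 0 = f 0 := by
  rw [mix, tsum_eq_single 0 fun j hj => by simp [poissonWeight, zero_pow hj]]
  simp [poissonWeight]

/-- The derivative of a Poisson mixture is the mixture of the increments. -/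
theorem hasDerivAt_mix {f : ℕ → ℝ} {B : ℝ} (hf : ∀ j, |f j| ≤ B) (x : ℝ) :
    HasDerivAt (mix f) (mix (fun j => f (j + 1)) x - mix f x) x := by
  set R := |x| + 1 with hR
  set g' : ℕ → ℝ → ℝ := fun j y => f j * ((j : ℝ) * y ^ (j - 1) / (j.factorial : ℝ)) with hg'
  set u : ℕ → ℝ := fun j => B * ((j : ℝ) * R ^ (j - 1) / (j.factorial : ℝ)) with hu
  have e : ∀ (j : ℕ) (y : ℝ),
      ((j + 1 : ℕ) : ℝ) * y ^ (j + 1 - 1) / ((j + 1).factorial : ℝ) = y ^ j / (j.factorial : ℝ) := by
    intro j y
    rw [Nat.factorial_succ, Nat.cast_mul, Nat.add_sub_cancel]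
    exact mul_div_mul_left _ _ (by positivity)
  have hsum : Summable u := by
    refine (summable_nat_add_iff 1).1 ?_
    simpa only [hu, e] using (Real.summable_pow_div_factorial R).mul_left B
  have hd : HasDerivAt (fun y => ∑' j, f j * (y ^ j / (j.factorial : ℝ))) (∑' j, g' j x) x := by
    refine hasDerivAt_tsum_of_isPreconnected hsum (Metric.isOpen_ball (x := (0 : ℝ)) (ε := R))
      (convex_ball _ _).isPreconnected (fun j y _ => ((hasDerivAt_pow j y).div_const _).const_mul _)
      (fun j y hy => ?_) (Metric.mem_ball_self (by positivity)) (summable_expSeries hf 0) ?_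
    · rw [Metric.mem_ball, dist_zero_right, Real.norm_eq_abs] at hy
      rw [Real.norm_eq_abs, abs_mul, abs_div, abs_mul, abs_pow, Nat.abs_cast, Nat.abs_cast]
      exact mul_le_mul (hf j) (by gcongr) (by positivity) ((abs_nonneg _).trans (hf j))
    · rw [Metric.mem_ball, dist_zero_right, Real.norm_eq_abs, hR]; linarith
  have hs : ∑' j, g' j x = ∑' j, f (j + 1) * (x ^ j / (j.factorial : ℝ)) := by
    have hg : Summable fun j => g' (j + 1) x := by
      simpa only [hg', e] using summable_expSeries (f := fun j => f (j + 1)) (fun j => hf (j + 1)) x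
    have h0 : g' 0 x = 0 := by simp [hg']
    have hs' := ((summable_nat_add_iff (f := fun j => g' j x) 1).1 hg).tsum_eq_zero_add
    rw [h0, zero_add] at hs'
    rw [hs']
    exact tsum_congr fun j => by simp only [hg', e]
  rw [hs] at hd
  have := ((hasDerivAt_neg x).exp).mul hd
  rw [funext (mix_eq f), mix_eq (fun j => f (j + 1))]
  refine this.congr_deriv ?_
  ring

theorem mix_sum {ι : Type} [Fintype ι] {f : ι → ℕ → ℝ} {B : ℝ} (hf : ∀ i j, |f i j| ≤ B)
    (a : ι → ℝ) (x : ℝ) (hx : 0 ≤ x) :
    mix (fun j => ∑ i, a i * f i j) x = ∑ i, a i * mix (f i) x := by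
  have h : ∀ i, HasSum (fun j => a i * (poissonWeight x j * f i j)) (a i * mix (f i) x) := fun i =>
    ((summable_weighted (poissonWeight_nonneg hx) (hasSum_poisson x).summable (hf i)).hasSum).mul_left _
  refine HasSum.tsum_eq ((hasSum_sum fun i (_ : i ∈ Finset.univ) => h i).congr_fun fun j => ?_)
  rw [Finset.mul_sum]
  exact Finset.sum_congr rfl fun i _ => by ring

theorem mix_le {f g : ℕ → ℝ} {B B' : ℝ} (hf : ∀ j, |f j| ≤ B) (hg : ∀ j, |g j| ≤ B') {x : ℝ}
    (hx : 0 ≤ x) (h : ∀ j, f j ≤ g j) : mix f x ≤ mix g x :=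
  (summable_weighted (poissonWeight_nonneg hx) (hasSum_poisson x).summable hf).tsum_le_tsum
    (fun j => mul_le_mul_of_nonneg_left (h j) (poissonWeight_nonneg hx j))
    (summable_weighted (poissonWeight_nonneg hx) (hasSum_poisson x).summable hg)

/-- A solution of a differential inequality with nonnegative off-diagonal coefficients stays
nonnegative. -/
theorem nonneg_of_coop {ι : Type} [Fintype ι] {a b Λ : ℝ} {v v' : ι → ℝ → ℝ}
    {K : ι → ℝ → ι → ℝ} (hd : ∀ i t, HasDerivAt (v i) (v' i t) t)
    (hK : ∀ i t, t ∈ Set.Icc a b → ∀ l, l ≠ i → 0 ≤ K i t l)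
    (hΛ : ∀ i t, t ∈ Set.Icc a b → ∑ l, K i t l ≤ Λ)
    (hv : ∀ i t, t ∈ Set.Icc a b → ∑ l, K i t l * v l t ≤ v' i t)
    (ha : ∀ i, 0 ≤ v i a) {t : ℝ} (ht : t ∈ Set.Icc a b) (i : ι) : 0 ≤ v i t := by
  refine le_of_forall_pos_le_add fun δ hδ => ?_
  set Γ := |Λ| + 1
  set ε := δ / Real.exp (Γ * (b - a))
  have hε : 0 < ε := div_pos hδ (Real.exp_pos _)
  set z : ι → ℝ → ℝ := fun i s => v i s + ε * Real.exp (Γ * (s - a))
  have hz : ∀ i s, HasDerivAt (z i) (v' i s + ε * (Real.exp (Γ * (s - a)) * Γ)) s := fun i s =>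
    (hd i s).add ((((hasDerivAt_id s).sub_const a).const_mul Γ).exp.const_mul ε |>.congr_deriv (by simp))
  have cz : ∀ i, Continuous (z i) := fun i =>
    continuous_iff_continuousAt.2 fun s => (hz i s).continuousAt
  set S := {s | ∀ i, 0 ≤ z i s}
  have hS : IsClosed (S ∩ Set.Icc a b) := by
    refine IsClosed.inter ?_ isClosed_Icc
    rw [show S = ⋂ i, {s | 0 ≤ z i s} from by ext; simp [S]]
    exact isClosed_iInter fun i => isClosed_le continuous_const (cz i)
  have haS : a ∈ S := fun i => add_nonneg (ha i) (mul_pos hε (Real.exp_pos _)).le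
  have key : Set.Icc a b ⊆ S := by
    refine hS.Icc_subset_of_forall_mem_nhdsWithin haS fun s hs => ?_
    have hm : s ∈ Set.Icc a b := Set.Ico_subset_Icc_self hs.2
    simp only [S]
    refine eventually_all.2 fun i => ?_
    rcases (hs.1 i).eq_or_lt with h0 | hpos
    · have hpos' : 0 < v' i s + ε * (Real.exp (Γ * (s - a)) * Γ) := by
        have hge : 0 ≤ ∑ l, K i s l * z l s := Finset.sum_nonneg fun l _ => by
          rcases eq_or_ne l i with rfl | hl
          · simp [← h0]
          · exact mul_nonneg (hK i s hm l hl) (hs.1 l)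
        have e : ∑ l, K i s l * z l s =
            ∑ l, K i s l * v l s + (∑ l, K i s l) * (ε * Real.exp (Γ * (s - a))) := by
          simp only [z, mul_add, Finset.sum_add_distrib, Finset.sum_mul]
        have hp : 0 < ε * Real.exp (Γ * (s - a)) := mul_pos hε (Real.exp_pos _)
        have := mul_lt_mul_of_pos_right
          (lt_of_le_of_lt (hΛ i s hm) (by linarith [le_abs_self Λ] : Λ < Γ)) hp
        linarith [hv i s hm]
      have hsl := hasDerivAt_iff_tendsto_slope.1 (hz i s)
      have hr : ∀ᶠ y in 𝓝[>] s, 0 < slope (z i) s y :=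
        (hsl.mono_left (nhdsWithin_mono _ fun y hy => ne_of_gt hy)).eventually (eventually_gt_nhds hpos')
      filter_upwards [hr, self_mem_nhdsWithin] with y hy hy'
      rw [slope_def_field, ← h0, sub_zero] at hy
      exact ((div_pos_iff.1 hy).resolve_right fun h => by
        linarith [h.2, Set.mem_Ioi.1 hy']).1.le
    · exact ((cz i).continuousAt.eventually (eventually_gt_nhds hpos)).filter_mono
        nhdsWithin_le_nhds |>.mono fun y hy => le_of_lt hy
  have h1 := key ht i
  have h2 : ε * Real.exp (Γ * (t - a)) ≤ δ := by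
    calc ε * Real.exp (Γ * (t - a)) ≤ ε * Real.exp (Γ * (b - a)) := by
          gcongr; exact ht.2
      _ = δ := div_mul_cancel₀ _ (Real.exp_pos _).ne'
  simp only [z] at h1
  linarith

end Vale.Agent.P154.Q3.End.Semi
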