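import Vale.Agent.P154.End.Semi.Comb

/-!
# Reading the coefficients of a substituted polynomial from one evaluation

The value at a large base of a polynomial with bounded coefficients determines them. Values and
bounds are computed by homogeneous Horner schemes, without forming the substituted polynomial.
-/

namespace Vale.Agent.P154.Q3.End.Semi

theorem comb_rel {γ γ' τ τ' β β' : Type} {o : Ops β} {o' : Ops β'} {R : β → β' → Prop}
    (h0 : R o.zero o'.zero) (ha : ∀ a a' b b', R a a' → R b b' → R (o.add a b) (o'.add a' b'))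
    {S : γ → γ' → Prop} {T : τ → τ' → Prop} {sc : γ → τ → β} {sc' : γ' → τ' → β'}
    (hs : ∀ c c' t t', S c c' → T t t' → R (sc c t) (sc' c' t')) {cs : List γ} {cs' : List γ'}
    (hc : List.Forall₂ S cs cs') :
    ∀ {ts : List τ} {ts' : List τ'}, List.Forall₂ T ts ts' →
      R (comb o sc cs ts) (comb o' sc' cs' ts') := by
  induction hc with
  | nil => intro ts ts' _; simpa [comb] using h0
  | cons hab _ ih =>
    intro ts ts' ht
    cases ht with
    | nil => simpa [comb] using h0
    | cons htt hts => exact ha _ _ _ _ (hs _ _ _ _ hab htt) (ih hts)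

theorem forall₂_self {γ : Type} : ∀ l : List γ, List.Forall₂ (· = ·) l l
  | [] => List.Forall₂.nil
  | _ :: l => List.Forall₂.cons rfl (forall₂_self l)

theorem forall₂_map {γ τ τ' : Type} {R : τ → τ' → Prop} {f : γ → τ} {f' : γ → τ'} :
    ∀ {l : List γ}, (∀ c ∈ l, R (f c) (f' c)) → List.Forall₂ R (l.map f) (l.map f')
  | [], _ => List.Forall₂.nil
  | c :: l, h => List.Forall₂.cons (h c (List.mem_cons_self ..))
      (forall₂_map fun d hd => h d (List.mem_cons_of_mem _ hd))

theorem forall₂_gadd {α α' : Type} {R : α → α' → Prop} {f : α → α → α} {f' : α' → α' → α'}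
    (hf : ∀ a a' b b', R a a' → R b b' → R (f a b) (f' a' b')) {p : List α} {p' : List α'}
    (hp : List.Forall₂ R p p') : ∀ {q : List α} {q' : List α'}, List.Forall₂ R q q' →
      List.Forall₂ R (gadd f p q) (gadd f' p' q') := by
  induction hp with
  | nil => intro q q' hq; simpa [gadd] using hq
  | cons hab hl ih =>
    intro q q' hq
    cases hq with
    | nil => exact List.Forall₂.cons hab hl
    | cons hb hq => exact List.Forall₂.cons (hf _ _ _ _ hab hb) (ih hq)

theorem gadd_length {α : Type} (f : α → α → α) : ∀ p q : List α,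
    (gadd f p q).length = max p.length q.length
  | [], q => by simp [gadd]
  | a :: as, [] => by simp [gadd]
  | a :: as, b :: bs => by simp [gadd, gadd_length f as bs]

theorem forall_gadd {α : Type} {f : α → α → α} {P Q R : α → Prop} (hP : ∀ a, P a → R a)
    (hQ : ∀ a, Q a → R a) (hf : ∀ a b, P a → Q b → R (f a b)) :
    ∀ p q : List α, (∀ a ∈ p, P a) → (∀ b ∈ q, Q b) → ∀ c ∈ gadd f p q, R c
  | [], q, _, hq, c, hc => hQ c (hq c (by simpa [gadd] using hc))
  | a :: as, [], hp, _, c, hc => hP c (hp c (by simpa [gadd] using hc))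
  | a :: as, b :: bs, hp, hq, c, hc => by
    simp only [gadd, List.mem_cons] at hc
    rcases hc with rfl | hc
    · exact hf a b (hp a (List.mem_cons_self ..)) (hq b (List.mem_cons_self ..))
    · exact forall_gadd hP hQ hf as bs (fun d hd => hp d (List.mem_cons_of_mem _ hd))
        (fun d hd => hq d (List.mem_cons_of_mem _ hd)) c hc

/-! ### Norms -/

/-- A seminorm on coefficients. -/
structure Ops.NOK {α : Type} (o : Ops α) (nrm : α → ℝ) : Prop where
  nonneg : ∀ a, 0 ≤ nrm a
  zero : nrm o.zero = 0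
  add : ∀ a b, nrm (o.add a b) ≤ nrm a + nrm b
  scale : ∀ c a, nrm (o.scale c a) ≤ |(c : ℝ)| * nrm a

theorem gev_nonneg' {α : Type} {ev : α → ℝ} (h : ∀ a, 0 ≤ ev a) {x : ℝ} (hx : 0 ≤ x) :
    ∀ p, 0 ≤ gev ev p x
  | [] => le_rfl
  | c :: cs => add_nonneg (h c) (mul_nonneg hx (gev_nonneg' h hx cs))

theorem gev_mono {α : Type} {ev ev' : α → ℝ} {k x : ℝ} (hx : 0 ≤ x) {p : List α}
    (h : ∀ c ∈ p, ev c ≤ k * ev' c) : gev ev p x ≤ k * gev ev' p x := by
  induction p with
  | nil => simp [gev]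
  | cons c cs ih =>
    simp only [gev]
    have := mul_le_mul_of_nonneg_left (ih fun d hd => h d (List.mem_cons_of_mem _ hd)) hx
    linarith [h c (List.mem_cons_self ..)]

theorem nrm_gadd {α : Type} {nrm : α → ℝ} {f : α → α → α}
    (hf : ∀ a b, nrm (f a b) ≤ nrm a + nrm b) :
    ∀ p q, gev nrm (gadd f p q) 1 ≤ gev nrm p 1 + gev nrm q 1
  | [], q => by simp [gadd, gev]
  | a :: as, [] => by simp [gadd, gev]
  | a :: as, b :: bs => by
    simp only [gadd, gev]
    linarith [hf a b, nrm_gadd hf as bs]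

theorem Ops.up_nok {α : Type} {o : Ops α} {nrm : α → ℝ} (h : o.NOK nrm) :
    o.up.NOK fun p => gev nrm p 1 :=
  ⟨fun p => gev_nonneg' h.nonneg zero_le_one p, rfl, fun a b => nrm_gadd h.add a b, fun c a => by
    simp only [Ops.up, gev_map_one]
    exact gev_mono zero_le_one fun d _ => h.scale c d⟩
where
  gev_map_one {α β : Type} {ev : β → ℝ} {g : α → β} {p : List α} :
      gev ev (p.map g) 1 = gev (fun c => ev (g c)) p 1 := by
    induction p with
    | nil => rfl
    | cons c cs ih => simp [gev, ih]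

/-- Absolute value of a coefficient. -/
def nv0 (c : ℤ) : ℝ := |(c : ℝ)|
/-- Sum of absolute values in one variable. -/
def nv1 (p : P1) : ℝ := gev nv0 p 1
/-- Sum of absolute values in two variables. -/
def nv2 (p : P2v) : ℝ := gev nv1 p 1

theorem nok0 : o0.NOK nv0 :=
  ⟨fun _ => abs_nonneg _, by simp [o0, nv0], fun a b => by simp [o0, nv0, abs_add_le],
    fun c a => by simp [o0, nv0, abs_mul]⟩
theorem nok1 : o1.NOK nv1 := Ops.up_nok nok0
theorem nok2 : o2.NOK nv2 := Ops.up_nok nok1

theorem le_nrm_of_mem {α : Type} {nrm : α → ℝ} (h : ∀ a, 0 ≤ nrm a) {p : List α} {c : α}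
    (hc : c ∈ p) : nrm c ≤ gev nrm p 1 := by
  induction p with
  | nil => simp at hc
  | cons d ds ih =>
    simp only [gev, one_mul]
    rcases List.mem_cons.1 hc with rfl | hc
    · linarith [gev_nonneg' h zero_le_one ds]
    · linarith [ih hc, h d]

/-- A table row is bounded by `F Y ^ j`. -/
def RowLe {τ : Type} (g : τ → ℝ) : ℝ → ℝ → List τ → Prop
  | _, _, [] => True
  | F, Y, t :: ts => g t ≤ F ∧ RowLe g (F * Y) Y ts

theorem rowLe_range {τ : Type} (g : τ → ℝ) (Y : ℝ) : ∀ (n : ℕ) (f : ℕ → τ) (F : ℝ),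
    (∀ j < n, g (f j) ≤ F * Y ^ j) → RowLe g F Y ((List.range n).map f)
  | 0, f, F, _ => by simp [RowLe]
  | n + 1, f, F, h => by
    rw [List.range_succ_eq_map, List.map_cons, List.map_map]
    exact ⟨by simpa using h 0 (Nat.succ_pos n), rowLe_range g Y n (f ∘ Nat.succ) (F * Y)
      fun j hj => by
        rw [Function.comp_apply]
        exact (h (j + 1) (Nat.succ_lt_succ hj)).trans (le_of_eq (by ring))⟩

theorem comb_le {γ τ β : Type} {o : Ops β} {nrm : β → ℝ} (h : o.NOK nrm) {sc : γ → τ → β}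
    {f : γ → ℝ} (hf : ∀ c, 0 ≤ f c) {g : τ → ℝ} (hs : ∀ c t, nrm (sc c t) ≤ f c * g t) {Y : ℝ}
    (hY : 0 ≤ Y) : ∀ (cs : List γ) (ts : List τ) (F : ℝ), RowLe g F Y ts → 0 ≤ F →
      nrm (comb o sc cs ts) ≤ F * gev f cs Y
  | [], ts, F, _, _ => by simp [comb, gev, h.zero]
  | c :: cs, [], F, _, hF => by
    simp only [comb, h.zero]
    exact mul_nonneg hF (gev_nonneg' hf hY _)
  | c :: cs, t :: ts, F, hr, hF => by
    simp only [comb, gev]
    refine (h.add _ _).trans ?_
    have h1 := (hs c t).trans (mul_le_mul_of_nonneg_left hr.1 (hf c))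
    have h2 := comb_le h hf hs hY cs ts _ hr.2 (mul_nonneg hF hY)
    linarith

/-! ### Shapes -/

/-- A property of coefficients closed under the operations. -/
structure Ops.Closed {α : Type} (o : Ops α) (P : α → Prop) : Prop where
  zero : P o.zero
  add : ∀ a b, P a → P b → P (o.add a b)
  scale : ∀ c a, P a → P (o.scale c a)

/-- At most `n` members, all with the property. -/
def Shape {α : Type} (P : α → Prop) (n : ℕ) (p : List α) : Prop :=
  p.length ≤ n ∧ ∀ c ∈ p, P c

theorem Ops.up_closed {α : Type} {o : Ops α} {P : α → Prop} (h : o.Closed P) (n : ℕ) :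
    o.up.Closed (Shape P n) :=
  ⟨⟨Nat.zero_le _, by simp [Ops.up]⟩,
    fun a b ha hb => ⟨by simp only [Ops.up, gadd_length]; exact max_le ha.1 hb.1,
      forall_gadd (fun _ h => h) (fun _ h => h) h.add a b ha.2 hb.2⟩,
    fun c a ha => ⟨by simpa [Ops.up] using ha.1, fun d hd => by
      obtain ⟨d', hd', rfl⟩ := List.mem_map.1 hd
      exact h.scale c d' (ha.2 d' hd')⟩⟩

theorem comb_closed {γ τ β : Type} {o : Ops β} {P : β → Prop} (h : o.Closed P) {sc : γ → τ → β} :
    ∀ {cs : List γ} {ts : List τ}, (∀ c ∈ cs, ∀ t ∈ ts, P (sc c t)) → P (comb o sc cs ts)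
  | [], ts, _ => by simpa [comb] using h.zero
  | c :: cs, [], _ => by simpa [comb] using h.zero
  | c :: cs, t :: ts, hp => by
    simp only [comb]
    exact h.add _ _ (hp c (List.mem_cons_self ..) t (List.mem_cons_self ..))
      (comb_closed h fun c' hc t' ht =>
        hp c' (List.mem_cons_of_mem _ hc) t' (List.mem_cons_of_mem _ ht))

/-- No condition on integer coefficients. -/
def AnyInt : ℤ → Prop := fun _ => True

theorem closed0 : o0.Closed AnyInt := ⟨trivial, fun _ _ _ _ => trivial, fun _ _ _ => trivial⟩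

/-! ### Homogeneous Horner schemes -/

/-- Value and power of the denominator. -/
def hPair {α : Type} (f : α → ℤ) (N D : ℤ) : List α → ℤ × ℤ
  | [] => (0, 1)
  | c :: cs =>
    match hPair f N D cs with
    | (v, p) => (Int.add (Int.mul (f c) p) (Int.mul N v), Int.mul D p)

/-- Homogeneous value in degree `n - 1`. -/
def hVal {α : Type} (n : ℕ) (f : α → ℤ) (N D : ℤ) (p : List α) : ℤ :=
  Int.mul (hPair f N D p).1 (D ^ (n - p.length))

theorem hPair_cast {α : Type} (f : α → ℤ) {N D : ℤ} (hD : (D : ℝ) ≠ 0) : ∀ p : List α,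
    ((hPair f N D p).2 : ℝ) = (D : ℝ) ^ p.length ∧
      ((hPair f N D p).1 : ℝ) * D =
        (D : ℝ) ^ p.length * gev (fun c => (f c : ℝ)) p ((N : ℝ) / D)
  | [] => by simp [hPair, gev]
  | c :: cs => by
    obtain ⟨h1, h2⟩ := hPair_cast f hD cs
    simp only [hPair, Int.add_def, Int.mul_def, gev, List.length_cons, pow_succ]
    push_cast
    refine ⟨by rw [h1]; ring, ?_⟩
    rw [h1, add_mul, mul_assoc ((N : ℤ) : ℝ), h2]
    field_simp

theorem hVal_cast {α : Type} {n : ℕ} {f : α → ℤ} {N D : ℤ} (hD : (D : ℝ) ≠ 0) {p : List α}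
    (hl : p.length ≤ n) :
    (hVal n f N D p : ℝ) = (D : ℝ) ^ (n - 1) * gev (fun c => (f c : ℝ)) p ((N : ℝ) / D) := by
  rcases p with _ | ⟨c, cs⟩
  · simp [hVal, hPair, gev]
  · obtain ⟨-, h2⟩ := hPair_cast f (N := N) hD (c :: cs)
    simp only [List.length_cons] at hl
    obtain ⟨k, rfl⟩ : ∃ k, n = cs.length + 1 + k := ⟨n - (cs.length + 1), by omega⟩
    refine mul_right_cancel₀ hD ?_
    simp only [hVal, Int.mul_def, List.length_cons] at h2 ⊢
    push_cast
    rw [mul_right_comm, h2, show cs.length + 1 + k - (cs.length + 1) = k by omega,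
      show cs.length + 1 + k - 1 = cs.length + k by omega, pow_succ, pow_add]
    ring

/-! ### Unpacking -/

/-- Value at an integer. -/
def packI (B : ℤ) : List ℤ → ℤ
  | [] => 0
  | c :: cs => Int.add c (Int.mul B (packI B cs))

/-- Check `n` digits in base `2 H`. -/
def unpackG (chk : ℤ → Bool) (H : ℤ) : ℕ → ℤ → Bool
  | 0, _ => true
  | n + 1, z =>
    thenI z fun z => thenI ((z + H) % (2 * H) - H) (fun d => chk d) &&
      unpackG chk H n ((z + H) / (2 * H))

theorem unpackG_sound {chk : ℤ → Bool} {H : ℤ} : ∀ (d : List ℤ) (n : ℕ),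
    (∀ c ∈ d, |c| < H) → d.length ≤ n → unpackG chk H n (packI (2 * H) d) = true →
      ∀ c ∈ d, chk c = true
  | [], _, _, _, _ => by simp
  | c :: cs, 0, _, hl, _ => absurd hl (by simp)
  | c :: cs, n + 1, hb, hl, h => by
    have hc := abs_lt.1 (hb c (List.mem_cons_self ..))
    have h2 : (2 * H) ≠ 0 := by omega
    simp only [unpackG, thenI_eq, Bool.and_eq_true] at h
    simp only [packI, Int.add_def, Int.mul_def] at h
    rw [show c + 2 * H * packI (2 * H) cs + H = (c + H) + 2 * H * packI (2 * H) cs by ring,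
      Int.add_mul_emod_self_left, Int.emod_eq_of_lt (by omega) (by omega),
      Int.add_mul_ediv_left _ _ h2, Int.ediv_eq_zero_of_lt (by omega) (by omega), zero_add,
      add_sub_cancel_right] at h
    intro x hx
    rcases List.mem_cons.1 hx with rfl | hx
    · exact h.1
    · exact unpackG_sound cs n (fun y hy => hb y (List.mem_cons_of_mem _ hy))
        (Nat.le_of_succ_le_succ hl) h.2 x hx

theorem two_packI_lt {H : ℤ} (hH : 0 < H) : ∀ (d : List ℤ), (∀ c ∈ d, |c| < H) →
    2 * |packI (2 * H) d| < (2 * H) ^ d.length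
  | [], _ => by simp [packI]
  | c :: cs, h => by
    have hc := h c (List.mem_cons_self ..)
    have ih := two_packI_lt hH cs fun x hx => h x (List.mem_cons_of_mem _ hx)
    have ha : |packI (2 * H) (c :: cs)| ≤ |c| + 2 * H * |packI (2 * H) cs| := by
      simp only [packI, Int.add_def, Int.mul_def]
      refine (abs_add_le _ _).trans (le_of_eq ?_)
      rw [abs_mul, abs_of_pos (by omega : (0 : ℤ) < 2 * H)]
    have : 2 * H * (2 * |packI (2 * H) cs| + 1) ≤ 2 * H * (2 * H) ^ cs.length :=
      mul_le_mul_of_nonneg_left ih (by omega)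
    rw [List.length_cons, pow_succ]
    linarith

/-- Half the base of the next level. -/
def nextH (H : ℤ) (n : ℕ) : ℤ := H * (2 * H) ^ (n - 1)

theorem packI_lt {H : ℤ} (hH : 0 < H) {n : ℕ} (hn : 0 < n) {d : List ℤ}
    (hb : ∀ c ∈ d, |c| < H) (hl : d.length ≤ n) : |packI (2 * H) d| < nextH H n := by
  have h1 := two_packI_lt hH d hb
  have h2 : (2 * H) ^ d.length ≤ (2 * H) ^ n := pow_le_pow_right₀ (by omega) hl
  have e : (2 * H) ^ n = 2 * nextH H n := by
    obtain ⟨k, rfl⟩ : ∃ k, n = k + 1 := ⟨n - 1, by omega⟩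
    rw [nextH, Nat.add_sub_cancel, pow_succ]; ring
  omega

theorem nextH_pos {H : ℤ} (hH : 0 < H) (n : ℕ) : 0 < nextH H n :=
  mul_pos hH (pow_pos (by omega) _)

theorem packI_cast (B : ℤ) : ∀ p : List ℤ, (packI B p : ℝ) = gev ev0 p (B : ℝ)
  | [] => by simp [packI, gev]
  | c :: cs => by simp [packI, gev, ev0, packI_cast B cs]

theorem packI_map_cast {α : Type} (B : ℤ) (pk : α → ℤ) (p : List α) :
    (packI B (p.map pk) : ℝ) = gev (fun c => (pk c : ℝ)) p (B : ℝ) := by
  rw [packI_cast]
  induction p with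
  | nil => rfl
  | cons c cs ih => simp [gev, ev0, ih]

/-- One level: the members pass `chk` after packing. -/
theorem unpack_level {α : Type} {pk : α → ℤ} {chk : ℤ → Bool} {H : ℤ} {n : ℕ} {g : List α}
    (hb : ∀ c ∈ g, |pk c| < H) (hl : g.length ≤ n)
    (h : unpackG chk H n (packI (2 * H) (g.map pk)) = true) : ∀ c ∈ g, chk (pk c) = true :=
  fun _ hc => unpackG_sound (g.map pk) n
    (fun z hz => by obtain ⟨d, hd, rfl⟩ := List.mem_map.1 hz; exact hb d hd)
    (by simpa using hl) h _ (List.mem_map_of_mem hc)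

/-! ### All digits at once -/

/-- The top bit of each of the first `n` digits is not set. -/
def Clear (k n a : ℕ) : Prop := ∀ i < n, a.testBit (i * (k + 1) + k) = false

/-- The number with ones at the places of `n` digits. -/
def repunit (k n : ℕ) : ℕ := (2 ^ ((k + 1) * n) - 1) / (2 ^ (k + 1) - 1)

/-- All digits in base `2 ^ (k + 1)` are in the lower half, read by one bitwise operation. -/
def smallDigits (k n : ℕ) : ℤ → Bool
  | .ofNat a => Nat.beq (Nat.land a (2 ^ k * repunit k n)) 0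
  | .negSucc _ => false

theorem repunit_succ (k n : ℕ) : repunit k (n + 1) = 2 ^ (k + 1) * repunit k n + 1 := by
  have h2 : 2 ≤ 2 ^ (k + 1) := by
    calc 2 = 2 ^ 1 := (pow_one 2).symm
      _ ≤ _ := Nat.pow_le_pow_right (by norm_num) (by omega)
  obtain ⟨q, hq⟩ := Nat.sub_one_dvd_pow_sub_one (2 ^ (k + 1)) n
  rw [← pow_mul] at hq
  have h1 : 1 ≤ 2 ^ ((k + 1) * n) := Nat.one_le_two_pow
  have hd : 0 < 2 ^ (k + 1) - 1 := by omega
  simp only [repunit, hq, Nat.mul_div_cancel_left _ hd]
  rw [Nat.mul_add, Nat.mul_one, pow_add]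
  have e : 2 ^ ((k + 1) * n) * 2 ^ (k + 1) - 1 =
      (2 ^ (k + 1) - 1) * (2 ^ (k + 1) * q + 1) := by
    obtain ⟨d, hd'⟩ : ∃ d, 2 ^ (k + 1) = d + 1 := ⟨2 ^ (k + 1) - 1, by omega⟩
    have h3 : 2 ^ ((k + 1) * n) = d * q + 1 := by rw [hd', Nat.add_sub_cancel] at hq; omega
    rw [h3, hd', Nat.add_sub_cancel]
    have h4 : (d * q + 1) * (d + 1) = d * ((d + 1) * q + 1) + 1 := by ring
    omega
  rw [e, Nat.mul_div_cancel_left _ hd]

theorem repunit_testBit (k : ℕ) : ∀ n, ∀ i < n, (repunit k n).testBit (i * (k + 1)) = true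
  | 0, _, h => absurd h (Nat.not_lt_zero _)
  | n + 1, i, h => by
    rw [repunit_succ, Nat.testBit_two_pow_mul_add _ (Nat.one_lt_two_pow (by omega))]
    cases i with
    | zero => simp
    | succ i =>
      rw [if_neg (by rw [Nat.succ_mul]; omega), Nat.succ_mul, Nat.add_sub_cancel]
      exact repunit_testBit k n i (Nat.lt_of_succ_lt_succ h)

theorem smallDigits_sound {k n : ℕ} {z : ℤ} (h : smallDigits k n z = true) :
    ∃ a : ℕ, z = a ∧ Clear k n a := by
  cases z with
  | negSucc a => simp [smallDigits] at h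
  | ofNat a =>
    refine ⟨a, rfl, fun i hi => ?_⟩
    have h0 : Nat.land a (2 ^ k * repunit k n) = 0 := Nat.eq_of_beq_eq_true h
    have h1 : (a &&& 2 ^ k * repunit k n).testBit (i * (k + 1) + k) = false := by
      show (Nat.land a (2 ^ k * repunit k n)).testBit _ = false
      rw [h0, Nat.zero_testBit]
    rw [Nat.testBit_and, Nat.testBit_two_pow_mul, Nat.add_sub_cancel, repunit_testBit k n i hi]
      at h1
    simpa using h1

theorem two_nextH {H : ℤ} {k w n : ℕ} (hn : 0 < n) (h : 2 * H = 2 ^ (w * (k + 1))) :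
    2 * nextH H n = 2 ^ (n * w * (k + 1)) := by
  obtain ⟨m, rfl⟩ : ∃ m, n = m + 1 := ⟨n - 1, by omega⟩
  rw [nextH, Nat.add_sub_cancel, ← mul_assoc, ← pow_succ', h, ← pow_mul]
  congr 1
  ring

/-- A number without top bits passes the digit by digit check. -/
theorem unpackG_clear {chk : ℤ → Bool} {H : ℤ} {k w : ℕ} (hw : 0 < w)
    (hH : 2 * H = 2 ^ (w * (k + 1))) (h : ∀ a : ℕ, Clear k w a → chk (a : ℤ) = true) :
    ∀ n (a : ℕ), Clear k (n * w) a → unpackG chk H n (a : ℤ) = true
  | 0, _, _ => rfl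
  | n + 1, a, ha => by
    set W := w * (k + 1) with hW
    have hW1 : W = (w - 1) * (k + 1) + k + 1 := by
      obtain ⟨v, rfl⟩ : ∃ v, w = v + 1 := ⟨w - 1, by omega⟩
      rw [hW, Nat.add_sub_cancel, Nat.succ_mul]; omega
    have hlo : Clear k w (a % 2 ^ W) := fun i hi => by
      rw [Nat.testBit_mod_two_pow, ha i (by rw [Nat.succ_mul]; omega), Bool.and_false]
    have hr : a % 2 ^ W < 2 ^ (W - 1) := by
      refine Nat.lt_pow_two_of_testBit _ fun i hi => ?_
      rcases eq_or_lt_of_le hi with e | e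
      · rw [← e, show W - 1 = (w - 1) * (k + 1) + k by omega]
        exact hlo (w - 1) (by omega)
      · rw [Nat.testBit_mod_two_pow]
        simp only [Bool.and_eq_false_iff, decide_eq_false_iff_not]
        exact Or.inl (by omega)
    have hH' : H = 2 ^ (W - 1) := by
      have e : (2 : ℤ) ^ W = 2 * 2 ^ (W - 1) := by rw [← pow_succ']; congr 1; omega
      omega
    have hr' : ((a % 2 ^ W : ℕ) : ℤ) < H := by rw [hH']; exact_mod_cast hr
    have hH0 : 0 < H := by omega
    have e : (a : ℤ) + H = ((a % 2 ^ W : ℕ) : ℤ) + H + 2 * H * ((a / 2 ^ W : ℕ) : ℤ) := by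
      rw [hH]
      have : ((a % 2 ^ W : ℕ) : ℤ) + 2 ^ W * ((a / 2 ^ W : ℕ) : ℤ) = a := by
        exact_mod_cast Nat.mod_add_div a (2 ^ W)
      linarith
    have hb : (0 : ℤ) ≤ ((a % 2 ^ W : ℕ) : ℤ) := Int.natCast_nonneg _
    simp only [unpackG, thenI_eq, Bool.and_eq_true]
    rw [e, Int.add_mul_emod_self_left, Int.emod_eq_of_lt (by omega) (by omega),
      Int.add_mul_ediv_left _ _ (by omega), Int.ediv_eq_zero_of_lt (by omega) (by omega),
      zero_add, add_sub_cancel_right]
    refine ⟨h _ hlo, unpackG_clear hw hH h n _ fun i hi => ?_⟩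
    rw [Nat.testBit_div_two_pow]
    have := ha (i + w) (by rw [Nat.succ_mul]; omega)
    rw [← this]
    congr 1
    rw [Nat.add_mul, ← hW]
    omega

end Vale.Agent.P154.Q3.End.Semi
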