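import Vale.Agent.P154.End.Semi.Prefix
import Vale.Agent.P154.End.Semi.Excluded
import Vale.Agent.P154.End.Semi.Check

/-!
# What a checked flow certificate says about the limit moments

The flow of the moments along the number of children, at the limit channel and on the critical
line `d λ² = 1`, obeys the differential inequalities of the templates and gives back the child
moments at time `P`. So an exclusion of the root box excludes a range of `P`.
-/

namespace Vale.Agent.P154.Q3.End.Semi

open scoped BigOperators Topology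
open Filter

variable {d lam : ℝ}

/-- A template is a true bound on the gain from one child. -/
def Tpl.Valid (t : Tpl) : Prop :=
  BilBound (fun i : Fin 4 => rent t.y i) (fun j : Fin 4 => rent t.C0 j)
    fun i j : Fin 4 => rent (t.C.getD i []) j

/-- The box of all child moments. -/
def Box.root : Box := ⟨-2048, 1024, 0, 4096, -2048, 1024⟩

theorem quartic_bound {r : Fin 3 → ℝ} (hr : InSlice r) : P4 r ≤ 3 * (P2 r + P3 r) := by
  obtain ⟨hb, hs⟩ := hr
  have a := fun i => (hb i).1
  have h : ∀ i j, 0 ≤ (r i + 1) * (r j + 1) * (r i - r j) ^ 2 := fun i j =>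
    mul_nonneg (mul_nonneg (by linarith [a i]) (by linarith [a j])) (sq_nonneg _)
  have hc : r 2 = -r 0 - r 1 := by linarith
  have h1 := h 0 1
  have h2 := h 0 2
  have h3 := h 1 2
  unfold P4 P2 P3
  rw [hc] at h2 h3 ⊢
  linarith

/-- An affine inequality between the moment functions passes to the limits. -/
theorem lim_affine (hd : 0 ≤ d) (h0 : -1 / 2 ≤ lam) (h1 : lam ≤ 1) {m : Fin 4 → ℝ}
    (hm : ∀ i, Tendsto (fun n => gwAvg d lam n (rf (mf i))) atTop (𝓝 (m i))) (a : Fin 4 → ℝ)
    (e : ℝ) (ha : ∀ r, InSlice r → 0 ≤ hv a r + e) : 0 ≤ (∑ i, a i * m i) + e := by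
  refine le_of_tendsto_of_tendsto' tendsto_const_nhds
    ((tendsto_finsetSum _ fun i _ => (hm i).const_mul (a i)).add_const e) fun n => ?_
  have hw := gwWeight_nonneg hd n
  have hs := hasSum_gw hd n
  have hsum : HasSum (fun t => gwWeight d n t * (fval (rf (hv a)) (lik lam n t) + e))
      ((∑ i, a i * gwAvg d lam n (rf (mf i))) + e) := by
    have := (hasSum_sum fun i (_ : i ∈ Finset.univ) => ((summable_weighted hw hs.summable
      fun t => abs_fval_mf (isStoch_lik h0 h1 n t) i).hasSum).mul_left (a i)).add (hs.mul_right e)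
    rw [one_mul] at this
    refine this.congr_fun fun t => ?_
    rw [fval_hv, mul_add, Finset.mul_sum]
    exact congrArg (· + _) (Finset.sum_congr rfl fun i _ => by ring)
  refine hsum.nonneg fun t => mul_nonneg (hw t) ?_
  have hL := isStoch_lik h0 h1 n t
  calc (0 : ℝ) ≤ ∑ η, (rf (hv a) (lik lam n t η) + e * (tot (lik lam n t η) / 3)) := by
        refine Finset.sum_nonneg fun η _ => ?_
        rcases (tot_nonneg (hL.1 η)).eq_or_lt with ht | ht
        · simp [rf, ← ht]
        · have h := mul_nonneg (by linarith : (0 : ℝ) ≤ tot (lik lam n t η) / 3)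
            (ha _ (inSlice_rr (hL.1 η) ht))
          simp only [rf]
          linarith
    _ = _ := by rw [Finset.sum_add_distrib, ← Finset.mul_sum, sum_tot_third hL, mul_one]; rfl

/-- The moments of a checked range do not occur as limits. -/
theorem flow_excludes {T : List Tpl} (hT : ∀ k < T.length, (tpl T k).Valid) {s0 s1 : ℕ}
    (hX : Excluded T Box.root s0 s1)
    (h0 : -1 / 2 ≤ lam) (hn : lam < 0) (hd : d * lam ^ 2 = 1) {m : Fin 4 → ℝ}
    (hm : ∀ i, Tendsto (fun n => gwAvg d lam n (rf (mf i))) atTop (𝓝 (m i)))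
    (hs0 : (s0 : ℝ) ≤ m 0 * TD) (hs1 : m 0 * TD ≤ s1) (hP : 0 < m 0) : False := by
  have hl2 : 0 < lam ^ 2 := sq_pos_of_neg hn
  have hd0 : 0 < d := by
    by_contra h
    linarith [mul_nonpos_of_nonpos_of_nonneg (not_lt.1 h) hl2.le]
  have h1 : lam ≤ 1 := by linarith
  obtain ⟨F, hF⟩ := exists_limSeq hd0.le h0 hn.le hm
  set X := m 0 with hXdef
  set κ := d / X with hκ
  have hκ0 : 0 < κ := div_pos hd0 hP
  set H : ℝ → Fin 4 → ℝ := fun τ i => mix (F i) (κ * τ)
  set H' : ℝ → Fin 4 → ℝ := fun τ i => κ * (mix (fun j => F i (j + 1)) (κ * τ) - mix (F i) (κ * τ))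
  set c : Fin 4 → ℝ := fun l => lam ^ (l : ℕ) * m l / X
  -- facts about the moments
  have aff := fun a e ha => lim_affine hd0.le h0 h1 hm a e ha
  have simp4 : ∀ (a : Fin 4 → ℝ) (r : Fin 3 → ℝ),
      hv a r = a 0 * P2 r + a 1 * P3 r + a 2 * P4 r + a 3 * P5 r := fun a r => by
    simp [hv, mf, Fin.sum_univ_four]
  have hA : X ^ 2 ≤ m 2 := by
    have := aff ![-2 * X, 0, 1, 0] (X ^ 2) fun r _ => by
      rw [simp4]; simp [P4]; nlinarith [sq_nonneg (P2 r - X)]
    simp [Fin.sum_univ_four] at this
    nlinarith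
  have hR0 : -(X / 2) ≤ m 1 := by
    have := aff ![1 / 2, 1, 0, 0] 0 fun r hr => by
      rw [simp4]; simp; linarith [(slice_bounds hr).2.2.1]
    simp [Fin.sum_univ_four] at this
    linarith
  have hR1 : m 1 ≤ X := by
    have := aff ![1, -1, 0, 0] 0 fun r hr => by
      rw [simp4]; simp; linarith [(slice_bounds hr).2.2.2]
    simp [Fin.sum_univ_four] at this
    linarith
  have hA1 : m 2 ≤ 3 * (X + m 1) := by
    have := aff ![3, 3, -1, 0] 0 fun r hr => by
      rw [simp4]; simp; linarith [quartic_bound hr]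
    simp [Fin.sum_univ_four] at this
    linarith
  have hB0 : -(m 2 / 2) ≤ m 3 := by
    have := aff ![0, 0, 1 / 2, 1] 0 fun r hr => by
      rw [simp4]; simp [P4, P5]
      linarith [mul_le_mul_of_nonneg_left (slice_bounds hr).2.2.1 (slice_bounds hr).1, sq (P2 r)]
    simp [Fin.sum_univ_four] at this
    linarith
  have hB1 : m 3 ≤ m 2 := by
    have := aff ![0, 0, 1, -1] 0 fun r hr => by
      rw [simp4]; simp [P4, P5]
      linarith [mul_le_mul_of_nonneg_left (slice_bounds hr).2.2.2 (slice_bounds hr).1, sq (P2 r)]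
    simp [Fin.sum_univ_four] at this
    linarith
  have hflow : FlowPt T c H H' := by
    refine ⟨fun i => by simp [H, mix_zero, hF.zero], fun τ i => ?_, fun k hk τ hτ => ?_⟩
    · refine ((hasDerivAt_mix (hF.bound i) (κ * τ)).comp τ
        ((hasDerivAt_id τ).const_mul κ)).congr_deriv ?_
      simp [H']; ring
    · have hx : 0 ≤ κ * τ := mul_nonneg hκ0.le hτ
      have hb := hF.gain (hT k hk)
      set t := tpl T k
      set w : Fin 4 → ℝ := fun i => rent t.y i
      set A : ℕ → Fin 4 → ℝ := fun j l =>
        rent t.C0 l + ∑ i : Fin 4, rent (t.C.getD i []) l * F i j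
      have bd : ∀ (i : Fin 4) (j : ℕ), |F i (j + 1) - F i j| ≤ 72 := fun i j => by
        linarith [abs_sub (F i (j + 1)) (F i j), hF.bound i j, hF.bound i (j + 1)]
      have e1 : mix (fun j => ∑ i, w i * (F i (j + 1) - F i j)) (κ * τ) =
          ∑ i, w i * (mix (fun j => F i (j + 1)) (κ * τ) - mix (F i) (κ * τ)) := by
        rw [mix_sum (fun i j => bd i j) w _ hx]
        refine Finset.sum_congr rfl fun i _ => congrArg (w i * ·) ?_
        simp only [mix, mul_sub]
        exact Summable.tsum_sub (summable_weighted (poissonWeight_nonneg hx)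
          (hasSum_poisson _).summable fun j => hF.bound i (j + 1)) (summable_weighted
          (poissonWeight_nonneg hx) (hasSum_poisson _).summable (hF.bound i))
      set z : Fin 4 → ℝ := fun l => lam ^ ((l : ℕ) + 2) * m l
      set α : Fin 4 → ℝ := fun i => ∑ l : Fin 4, rent (t.C.getD i []) l * z l
      set β : ℝ := ∑ l : Fin 4, rent t.C0 l * z l
      have hf : ∀ j, ∑ i, w i * (F i (j + 1) - F i j) ≤ β + ∑ i, α i * F i j := fun j => by
        refine (hb j).trans (le_of_eq ?_)
        simp only [β, α, z, Fin.sum_univ_four]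
        ring
      have e2 : mix (fun j => β + ∑ i, α i * F i j) (κ * τ) = β + ∑ i, α i * H τ i := by
        rw [← mix_sum hF.bound α _ hx]
        refine HasSum.tsum_eq ?_
        have := ((hasSum_poisson (κ * τ)).mul_right β).add (summable_weighted
          (poissonWeight_nonneg hx) (hasSum_poisson (κ * τ)).summable (B := ∑ i, |α i| * 36)
          fun j => (Finset.abs_sum_le_sum_abs _ _).trans (Finset.sum_le_sum fun i _ => by
            rw [abs_mul]; exact mul_le_mul_of_nonneg_left (hF.bound i j) (abs_nonneg _))).hasSum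
        rw [one_mul] at this
        refine this.congr_fun fun j => ?_
        ring
      have hle := mix_le (B := ∑ i, |w i| * 72) (B' := |β| + ∑ i, |α i| * 36)
        (f := fun j => ∑ i, w i * (F i (j + 1) - F i j)) (g := fun j => β + ∑ i, α i * F i j)
        (fun j => (Finset.abs_sum_le_sum_abs _ _).trans (Finset.sum_le_sum fun i _ => by
          rw [abs_mul]; exact mul_le_mul_of_nonneg_left (bd i j) (abs_nonneg _)))
        (fun j => (abs_add_le _ _).trans (add_le_add le_rfl
          ((Finset.abs_sum_le_sum_abs _ _).trans (Finset.sum_le_sum fun i _ => by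
            rw [abs_mul]; exact mul_le_mul_of_nonneg_left (hF.bound i j) (abs_nonneg _)))))
        hx hf
      rw [e1, e2] at hle
      have := mul_le_mul_of_nonneg_left hle hκ0.le
      refine le_of_eq_of_le ?_ (this.trans (le_of_eq ?_))
      · simp only [tplDot, H', w, t, Finset.mul_sum]
        exact Finset.sum_congr rfl fun i _ => by ring
      · have key : ∀ l : Fin 4, κ * z l = c l := fun l => by
          simp only [z, c, hκ, pow_add]
          field_simp
          linear_combination (lam ^ (l : ℕ) * m l) * hd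
        simp only [tplGain, ← key, β, α, Fin.sum_univ_four]
        ring
  have hfix : FixPt c X H := by
    have e : κ * X = d := div_mul_cancel₀ d hP.ne'
    have hH : ∀ i, H X i = m i := fun i => by simp only [H, e]; exact (hF.fixed i).symm
    refine ⟨hP, hH 0, by rw [hH]; nlinarith, -lam, by linarith, by linarith, ?_, ?_, ?_⟩ <;>
      rw [hH] <;> simp only [c, Fin.val_one, Fin.val_two, show ((3 : Fin 4) : ℕ) = 3 from rfl] <;>
      field_simp
  refine hX c X H H' hflow hfix ?_ hs0 hs1
  have c1 : c 1 * X = lam * m 1 := by simp only [c, Fin.val_one]; field_simp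
  have c2 : c 2 * X = lam ^ 2 * m 2 := by simp only [c, Fin.val_two]; field_simp
  have c3 : c 3 * X = lam ^ 3 * m 3 := by
    simp only [c, show ((3 : Fin 4) : ℕ) = 3 from rfl]; field_simp
  have hm2 : 0 < m 2 := lt_of_lt_of_le (pow_pos hP 2) hA
  have hQ : (QQ : ℝ) = 4096 := by norm_num [QQ]
  have p1 := mul_le_mul_of_nonpos_left hR1 hn.le
  have p1' := mul_le_mul_of_nonpos_left hR0 hn.le
  constructor
  · simp only [c, Fin.val_zero, pow_zero, one_mul]; exact div_self hP.ne'
  · refine lt_of_mul_lt_mul_right (a := X) ?_ hP.le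
    linarith [mul_le_mul_of_nonneg_right h0 hP.le]
  · exact pos_of_mul_pos_left (by rw [c2]; exact mul_pos hl2 hm2) hP.le
  · refine le_of_mul_le_mul_right ?_ hP
    simp only [Box.root, hQ]; push_cast
    linarith [mul_le_mul_of_nonneg_right h0 hP.le]
  · refine le_of_mul_le_mul_right ?_ hP
    simp only [Box.root, hQ]; push_cast
    linarith [mul_le_mul_of_nonneg_right h0 hP.le]
  · refine le_of_mul_le_mul_right ?_ hP
    simp only [Box.root, hQ]; push_cast
    linarith [mul_nonneg hl2.le hm2.le]
  · refine le_of_mul_le_mul_right ?_ hP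
    simp only [Box.root, hQ]; push_cast
    have q1 := mul_le_mul_of_nonneg_left hA1 hl2.le
    have q2 : lam ^ 2 ≤ -lam / 2 := by nlinarith
    have q3 := mul_le_mul_of_nonneg_right q2 (by linarith : (0 : ℝ) ≤ 3 * (X + m 1))
    linarith [mul_le_mul_of_nonneg_right h0 hP.le]
  · refine le_of_mul_le_mul_right ?_ hP
    simp only [Box.root, hQ]; push_cast
    have q1 := mul_le_mul_of_nonneg_left hB1 (neg_nonneg.2 (show lam ^ 3 ≤ 0 by nlinarith))
    have q2 := mul_le_mul_of_nonneg_right h0 (mul_nonneg hl2.le hm2.le)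
    linarith
  · refine le_of_mul_le_mul_right ?_ hP
    simp only [Box.root, hQ]; push_cast
    have q1 := mul_le_mul_of_nonneg_left hB0 (neg_nonneg.2 (show lam ^ 3 ≤ 0 by nlinarith))
    have q2 := mul_le_mul_of_nonneg_right h0 (mul_nonneg hl2.le hm2.le)
    linarith

/-- A checked pointwise certificate gives a valid template. -/
theorem SemiCert.valid {s : SemiCert} (h : s.check = true) {t : Tpl}
    (hy : t.y = [s.w0, s.w1, s.w2, s.w3])
    (h0 : t.C0 = (List.range 4).map (s.coef 0))
    (hC : t.C = (List.range 4).map fun i => (List.range 4).map (s.coef (i + 1))) : t.Valid := by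
  intro r r' hr hr'
  have hw : hv (fun i : Fin 4 => rent t.y i) = hW s.w0 s.w1 s.w2 s.w3 := funext fun x => by
    simp [hv, hW, mf, rent, ent, hy, Fin.sum_univ_four]
  rw [hw]
  refine (SemiCert.sound h hr hr').trans (le_of_eq ?_)
  simp [rent, ent, h0, hC, mf, cc, Finset.sum_range_succ, Fin.sum_univ_four,
    show List.range 4 = [0, 1, 2, 3] from rfl]
  ring

end Vale.Agent.P154.Q3.End.Semi
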