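import Vale.Agent.P154.End.Semi.Table
import Vale.Agent.P154.End.Semi.Average

/-!
# The pointwise node majorant and the parametrisation of the triangle

`pointPoly` is the polynomial whose nonnegativity in `(u, σ, τ)` makes the node majorant valid.
-/

namespace Vale.Agent.P154.Q3.End.Semi

open scoped BigOperators

/-- The combination of the four functionals. -/
def hW (w0 w1 w2 w3 : ℤ) (r : Fin 3 → ℝ) : ℝ :=
  w0 * P2 r + w1 * P3 r + w2 * P4 r + w3 * P5 r

/-- The majorant in `27 C`, `9 V`, `3 u`, times `729`. -/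
def majPoly (w0 w1 w2 w3 : ℤ) (R : P3v) : P3v :=
  o3.add [[[], [81 * w0, -27 * w0], [9 * w2, -9 * w2]], [[27 * w1, -18 * w1], [3 * w3, -4 * w3]]]
    (o3.scale 729 (R.map fun q => q.map (o0.shift 2)))

/-- Product with `σ ^ 2`. -/
def stepX (p : P3v) : P3v := p.map (o1.shift 2)

/-- Product with twice the second coordinate. -/
def stepY (isB : Bool) (p : P3v) : P3v :=
  if isB then p.map mulY
  else o3.scale 2 (p.map fun q => o1.shift 3 (q.map (o0.mulLin (-1) 2)))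

/-- Product with `1 + u`. -/
def stepL (p : P3v) : P3v := o2.mulLin 1 1 p

/-- A polynomial in `c u` as a polynomial in `(u, σ, τ)`. -/
def liftU (c : ℤ) (p : P1) : P3v :=
  horner o3 (fun q => o3.scale c (o2.shift 1 q)) const3 p

/-- The remainder part. -/
def remPart (w0 w1 w2 w3 : ℤ) : P3v :=
  [[[], [6 * w0], [216 * w2, 288 * w2, 108 * w2]],
    [[9 * w1, 6 * w1], [180 * w3, 360 * w3, 270 * w3, 72 * w3]]]

/-- The polynomial certifying the node majorant on one piece. -/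
def pointPoly (w0 w1 w2 w3 : ℤ) (R : P3v) (isB : Bool) : P3v :=
  o3.add
    (o3.scale 9 (horner o3 (fun p => o3.scale 81 (stepY isB (stepL (stepL (stepL p)))))
      (horner o3 (fun p => o3.scale 54 (stepX (stepL (stepL p)))) (liftU 3)) R))
    (o3.scale (-1) (stepL (horner o3 (stepY isB) (horner o3 stepX (liftU 1))
      (remPart w0 w1 w2 w3))))

theorem ev3_stepX (u σ τ : ℝ) (p : P3v) : ev3 u σ τ (stepX p) = σ ^ 2 * ev3 u σ τ p :=
  gev_map (fun q => by rw [ev2, gev_shift (ok1 τ), ev2]) u p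

theorem ev3_stepY (isB : Bool) (u σ τ : ℝ) (p : P3v) :
    ev3 u σ τ (stepY isB p) = 2 * pieceY isB σ τ * ev3 u σ τ p := by
  cases isB
  · simp only [stepY, Bool.false_eq_true, if_false, (ok3 u σ τ).scale]
    rw [ev3, gev_map (g := fun q => o1.shift 3 (q.map (o0.mulLin (-1) 2)))
      (k := σ ^ 3 * (2 * τ - 1)) (fun q => by
        rw [ev2, gev_shift (ok1 τ), gev_map (g := o0.mulLin (-1) 2) (k := 2 * τ - 1) (fun r => by
          rw [ev1, gev_mulLin ok0, ev1]; push_cast; ring) σ q, ev2]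
        ring) u p, ev3, pieceY]
    simp only [Bool.false_eq_true, if_false]
    push_cast
    ring
  · simp only [stepY, if_true]
    exact gev_map (fun q => ev2_mulY σ τ q) u p

theorem ev3_stepL (u σ τ : ℝ) (p : P3v) : ev3 u σ τ (stepL p) = (1 + u) * ev3 u σ τ p := by
  rw [stepL, ev3, gev_mulLin (ok2 σ τ), ev3]; push_cast; ring

theorem ev3_liftU (u σ τ : ℝ) (c : ℤ) (p : P1) :
    ev3 u σ τ (liftU c p) = gev ev0 p ((c : ℝ) * u) :=
  horner_eq (ok3 u σ τ)
    (fun q => by rw [(ok3 u σ τ).scale, ev3, gev_shift (ok2 σ τ), pow_one, ev3]; ring)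
    (fun x => by simp [const3, ev3, ev2, ev1, gev]) p

/-- The value of `pointPoly`. -/
theorem ev3_pointPoly (w0 w1 w2 w3 : ℤ) (R : P3v) (isB : Bool) (u σ τ : ℝ) :
    ev3 u σ τ (pointPoly w0 w1 w2 w3 R isB) =
      9 * ev3 (81 * (2 * pieceY isB σ τ) * (1 + u) ^ 3) (54 * σ ^ 2 * (1 + u) ^ 2) (3 * u) R -
      (1 + u) * ev3 (2 * pieceY isB σ τ) (σ ^ 2) u (remPart w0 w1 w2 w3) := by
  have h := ok3 u σ τ
  rw [pointPoly, h.add, h.scale, h.scale, ev3_stepL]
  rw [horner_eq h (s := 81 * (2 * pieceY isB σ τ) * (1 + u) ^ 3)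
    (e := ev2 (54 * σ ^ 2 * (1 + u) ^ 2) (3 * u))
    (fun p => by rw [h.scale, ev3_stepY, ev3_stepL, ev3_stepL, ev3_stepL]; push_cast; ring)
    (fun q => horner_eq h (s := 54 * σ ^ 2 * (1 + u) ^ 2)
      (fun p => by rw [h.scale, ev3_stepX, ev3_stepL, ev3_stepL]; push_cast; ring)
      (fun r => by rw [ev3_liftU]; norm_num [ev1]) q) R]
  rw [horner_eq h (ev3_stepY isB u σ τ) (e := ev2 (σ ^ 2) u)
    (fun q => horner_eq h (ev3_stepX u σ τ) (fun r => by rw [ev3_liftU]; norm_num [ev1]) q)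
    (remPart w0 w1 w2 w3)]
  simp only [ev3]
  push_cast
  ring

/-- The two pieces cover the triangle. -/
theorem slice_param {r : Fin 3 → ℝ} (hr : InSlice r) :
    ∃ (isB : Bool) (σ τ : ℝ), (if isB then 1 / 2 ≤ σ ∧ σ ≤ 1 else 0 ≤ σ ∧ σ ≤ 1 / 2) ∧
      0 ≤ τ ∧ τ ≤ 1 ∧ P2 r / 6 = σ ^ 2 ∧ P3 r / 6 = pieceY isB σ τ := by
  obtain ⟨h0, h6, -, -⟩ := slice_bounds hr
  have h2 : r 2 = -r 0 - r 1 := by linarith [hr.2]
  set σ := Real.sqrt (P2 r / 6) with hσ
  have hσ0 : 0 ≤ σ := Real.sqrt_nonneg _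
  have hσ2 : P2 r / 6 = σ ^ 2 := (Real.sq_sqrt (by linarith)).symm
  have hσ1 : σ ≤ 1 := Real.sqrt_le_one.2 (by linarith)
  set y := P3 r / 6
  have hy : y ^ 2 ≤ (σ ^ 3) ^ 2 := by
    rw [← pow_mul, show σ ^ (3 * 2) = (σ ^ 2) ^ 3 by ring, ← hσ2]
    simp only [y, P2, P3, h2]
    nlinarith [sq_nonneg ((r 0 - r 1) * (2 * r 0 + r 1) * (r 0 + 2 * r 1))]
  have hy' := abs_le_of_sq_le_sq hy (pow_nonneg hσ0 3)
  rw [abs_le] at hy'
  rcases le_total σ (1 / 2) with hA | hB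
  · refine ⟨false, σ, (y / σ ^ 3 + 1) / 2, ⟨hσ0, hA⟩, ?_, ?_, hσ2, ?_⟩
    · rcases hσ0.eq_or_lt with h | h
      · simp [← h]
      · have : -1 ≤ y / σ ^ 3 := by rw [le_div_iff₀ (pow_pos h 3)]; linarith
        linarith
    · rcases hσ0.eq_or_lt with h | h
      · norm_num [← h]
      · have : y / σ ^ 3 ≤ 1 := by rw [div_le_iff₀ (pow_pos h 3)]; linarith
        linarith
    · simp only [pieceY, Bool.false_eq_true, if_false]
      rcases hσ0.eq_or_lt with h | h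
      · rw [← h] at hy' ⊢; norm_num at hy' ⊢; linarith
      · field_simp; ring
  · have hlo : 3 * σ ^ 2 - 1 ≤ 2 * y := by
      have hp : 0 ≤ (1 + r 0) * (1 + r 1) * (1 + r 2) := by
        have := fun i => (hr.1 i).1
        exact mul_nonneg (mul_nonneg (by linarith [this 0]) (by linarith [this 1]))
          (by linarith [this 2])
      rw [← hσ2]
      simp only [y, P2, P3, h2] at hp ⊢
      linarith
    set den := 2 * σ ^ 3 - 3 * σ ^ 2 + 1 with hd
    have hd0 : 0 ≤ den := by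
      rw [hd, show 2 * σ ^ 3 - 3 * σ ^ 2 + 1 = (2 * σ + 1) * (σ - 1) ^ 2 by ring]
      positivity
    refine ⟨true, σ, (2 * y - (3 * σ ^ 2 - 1)) / den, ⟨hB, hσ1⟩,
      div_nonneg (by linarith) hd0, ?_, hσ2, ?_⟩
    · exact div_le_one_of_le₀ (by rw [hd]; linarith) hd0
    · simp only [pieceY, if_true]
      rcases hd0.eq_or_lt with h | h
      · have h1 : σ = 1 := by
          have e : (2 * σ + 1) * (σ - 1) ^ 2 = 0 := by rw [h, hd]; ring
          rcases mul_eq_zero.1 e with e' | e'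
          · linarith
          · exact sub_eq_zero.1 ((pow_eq_zero_iff two_ne_zero).1 e')
        rw [h1] at hy' hlo ⊢
        norm_num at hy' hlo ⊢
        linarith
      · rw [← hd, div_mul_cancel₀ _ h.ne']; ring

/-- The node majorant is valid where `pointPoly` is nonnegative. -/
theorem majorant_le {w0 w1 w2 w3 : ℤ} {R : P3v}
    (hQ : ∀ (isB : Bool) (u σ τ : ℝ), -1 ≤ u → u ≤ 1 / 2 →
      (if isB then 1 / 2 ≤ σ ∧ σ ≤ 1 else 0 ≤ σ ∧ σ ≤ 1 / 2) → 0 ≤ τ → τ ≤ 1 →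
      0 ≤ ev3 u σ τ (pointPoly w0 w1 w2 w3 R isB))
    {v : Fin 3 → ℝ} (hv : ∀ i, 0 ≤ v i) (hu : tot v ≤ 9 / 2) :
    729 * rf (hW w0 w1 w2 w3) v ≤ majVal (majPoly w0 w1 w2 w3 R) v := by
  set L := tot v / 3 with hL
  set V := (v 0 - L) ^ 2 + (v 1 - L) ^ 2 + (v 2 - L) ^ 2
  set C := (v 0 - L) ^ 3 + (v 1 - L) ^ 3 + (v 2 - L) ^ 3
  set u := L - 1 with hu'
  have eC : 3 * ((2 * v 0 - v 1 - v 2) * (2 * v 1 - v 0 - v 2) * (2 * v 2 - v 0 - v 1)) = 27 * C := by
    simp only [C, hL, tot]; ring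
  have eV : 6 * (v 0 ^ 2 + v 1 ^ 2 + v 2 ^ 2 - v 0 * v 1 - v 1 * v 2 - v 2 * v 0) = 9 * V := by
    simp only [V, hL, tot]; ring
  have eU : v 0 + v 1 + v 2 - 3 = 3 * u := by simp only [hu', hL, tot]; ring
  have hM : majVal (majPoly w0 w1 w2 w3 R) v = 729 * (w0 * V * (1 - u) + w1 * C * (1 - 2 * u) +
      w2 * V ^ 2 * (1 - 3 * u) + w3 * V * C * (1 - 4 * u) +
        9 * u ^ 2 * ev3 (27 * C) (9 * V) (3 * u) R) := by
    rw [majVal, eC, eV, eU, majPoly, (ok3 _ _ _).add, (ok3 _ _ _).scale,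
      show ev3 (27 * C) (9 * V) (3 * u) (R.map fun q => q.map (o0.shift 2)) =
        (3 * u) ^ 2 * ev3 (27 * C) (9 * V) (3 * u) R from
      gev_map (fun q => gev_map (fun r => by rw [ev1, gev_shift ok0, ev1]) _ q) _ R]
    simp only [ev3, ev2, ev1, gev, ev0]
    push_cast
    ring
  rw [hM]
  rcases (tot_nonneg hv).eq_or_lt with ht | ht
  · have hL0 : L = 0 := by rw [hL, ← ht]; simp
    have hv0 := eq_zero_of_tot hv ht.symm
    have hV0 : V = 0 := by simp [V, hL0, hv0]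
    have hC0 : C = 0 := by simp [C, hL0, hv0]
    have key := hQ false (-1) 0 0 le_rfl (by norm_num) ⟨le_rfl, by norm_num⟩ le_rfl zero_le_one
    rw [ev3_pointPoly] at key
    norm_num [pieceY] at key
    simp only [rf, ← ht, zero_div, zero_mul, mul_zero, hV0, hC0, hu', hL0]
    norm_num
    linarith
  · have hLp : 0 < L := by rw [hL]; linarith
    set r := rr v with hr
    have hs := inSlice_rr hv ht
    obtain ⟨isB, σ, τ, hσ, hτ0, hτ1, hx, hy⟩ := slice_param hs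
    have key := hQ isB u σ τ (by rw [hu']; linarith) (by rw [hu', hL]; linarith) hσ hτ0 hτ1
    rw [ev3_pointPoly, ← hx, ← hy] at key
    have ev : ∀ i, v i - L = L * r i := fun i => by
      have : tot v ≠ 0 := ht.ne'
      simp only [hr, rr, hL]; field_simp
    have hV : V = L ^ 2 * P2 r := by simp only [V, ev, P2]; ring
    have hC : C = L ^ 3 * P3 r := by simp only [C, ev, P3]; ring
    have eL : (1 : ℝ) + u = L := by rw [hu']; ring
    rw [eL, show 81 * (2 * (P3 r / 6)) * L ^ 3 = 27 * C by rw [hC]; ring,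
      show 54 * (P2 r / 6) * L ^ 2 = 9 * V by rw [hV]; ring] at key
    have e : w0 * V * (1 - u) + w1 * C * (1 - 2 * u) + w2 * V ^ 2 * (1 - 3 * u) +
        w3 * V * C * (1 - 4 * u) + 9 * u ^ 2 * ev3 (27 * C) (9 * V) (3 * u) R -
        rf (hW w0 w1 w2 w3) v = u ^ 2 * (9 * ev3 (27 * C) (9 * V) (3 * u) R -
          L * ev3 (2 * (P3 r / 6)) (P2 r / 6) u (remPart w0 w1 w2 w3)) := by
      have hrf : rf (hW w0 w1 w2 w3) v = L * hW w0 w1 w2 w3 r := rfl
      rw [hrf, hV, hC, ← eL]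
      generalize ev3 (27 * ((1 + u) ^ 3 * P3 r)) (9 * ((1 + u) ^ 2 * P2 r)) (3 * u) R = Z
      simp only [hW, P4, P5, remPart, ev3, ev2, ev1, gev, ev0]
      push_cast
      ring
    have := mul_nonneg (sq_nonneg u) key
    linarith

end Vale.Agent.P154.Q3.End.Semi
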