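import Vale.Agent.P154.End.Semi.Flow

/-!
# One child more

A pointwise bilinear bound on the gain of a combination of the four functionals from one child
bounds the increment of the averaged moments of a node with `j` children, and so the increment of
their limits as the depth grows.
-/

namespace Vale.Agent.P154.Q3.End.Semi

open scoped BigOperators Topology
open Filter

/-- The four moment functions. -/
def mf : Fin 4 → (Fin 3 → ℝ) → ℝ := ![P2, P3, P4, P5]

/-- A combination of the four moment functions. -/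
def hv (w : Fin 4 → ℝ) (r : Fin 3 → ℝ) : ℝ := ∑ i, w i * mf i r

/-- The moment functions of the child `e = -r'/2`. -/
noncomputable def cc (r' : Fin 3 → ℝ) : Fin 4 → ℝ :=
  ![P2 r' / 4, -(P3 r' / 8), P4 r' / 16, -(P5 r' / 32)]

/-- A bilinear bound on the gain of `hv w` from one child. -/
def BilBound (w C₀ : Fin 4 → ℝ) (C : Fin 4 → Fin 4 → ℝ) : Prop :=
  ∀ r r', InSlice r → InSlice r' →
    (∑ k, rf (hv w) fun i => (1 + r i) * (1 - r' (six k i) / 2)) / 6 - hv w r ≤
      ∑ j, (C₀ j + ∑ i, C i j * mf i r) * cc r' j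

theorem homB_mf (i : Fin 4) : HomB (rf (mf i)) := by
  fin_cases i <;> simp only [mf] <;>
    first | exact homB_P2 | exact homB_P3 | exact homB_P4 | exact homB_P5

theorem spanned_mf (i : Fin 4) : Spanned (rf (mf i)) := by
  fin_cases i <;> simp only [mf] <;>
    first | exact spanned_P2 | exact spanned_P3 | exact spanned_P4 | exact spanned_P5

theorem abs_mf_le {r : Fin 3 → ℝ} (hr : InSlice r) (i : Fin 4) : |mf i r| ≤ 36 := by
  obtain ⟨a, b, c, e⟩ := slice_bounds hr
  fin_cases i
  · show |P2 r| ≤ 36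
    rw [abs_le]; constructor <;> linarith
  · show |P3 r| ≤ 36
    rw [abs_le]; constructor <;> linarith
  · show |P2 r ^ 2| ≤ 36
    rw [abs_of_nonneg (sq_nonneg _)]; nlinarith
  · show |P2 r * P3 r| ≤ 36
    rw [abs_le]; constructor <;> nlinarith

theorem abs_fval_mf {Ω : Type} [Fintype Ω] {L : Ω → Fin 3 → ℝ} (hL : IsStoch L) (i : Fin 4) :
    |fval (rf (mf i)) L| ≤ 36 :=
  abs_fval_le_bound (fun v hv => by
    rcases (tot_nonneg hv).eq_or_lt with ht | ht
    · simp [rf, ← ht]
    · rw [rf, abs_mul, abs_of_pos (by linarith : 0 < tot v / 3), mul_comm (36 : ℝ)]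
      exact mul_le_mul_of_nonneg_left (abs_mf_le (inSlice_rr hv ht) i) (by linarith)) hL

theorem rf_hv (w : Fin 4 → ℝ) (v : Fin 3 → ℝ) : rf (hv w) v = ∑ i, w i * rf (mf i) v := by
  simp only [rf, hv, Finset.mul_sum]
  exact Finset.sum_congr rfl fun i _ => by ring

theorem fval_hv {Ω : Type} [Fintype Ω] (w : Fin 4 → ℝ) (L : Ω → Fin 3 → ℝ) :
    fval (rf (hv w)) L = ∑ i, w i * fval (rf (mf i)) L := by
  simp only [fval, rf_hv]
  rw [Finset.sum_comm]
  simp only [Finset.mul_sum]

variable {d lam : ℝ} {w C₀ : Fin 4 → ℝ} {C : Fin 4 → Fin 4 → ℝ}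

theorem inSlice_scale {r : Fin 3 → ℝ} (hr : InSlice r) {s : ℝ} (s0 : 0 ≤ s) (s1 : s ≤ 1) :
    InSlice fun i => s * r i :=
  ⟨fun i => ⟨by linarith [mul_le_mul_of_nonneg_left (hr.1 i).1 s0],
    by linarith [mul_le_mul_of_nonneg_left (hr.1 i).2 s0]⟩, by
    rw [← mul_add, ← mul_add, hr.2, mul_zero]⟩

/-- The gain at one value of the node, averaged over a colour-symmetric child. -/
theorem node_gain (hb : BilBound w C₀ C) (h0 : -1 / 2 ≤ lam) (h1 : lam ≤ 0) {Ω : Type} [Fintype Ω]
    {L : Ω → Fin 3 → ℝ} (hL : IsStoch L) (hs : ColSym L) {v : Fin 3 → ℝ} (hv' : ∀ i, 0 ≤ v i) :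
    ∑ η, rf (hv w) (fun i => v i * edge lam L η i) ≤ rf (hv w) v +
      ∑ j : Fin 4, (C₀ j * (tot v / 3) + ∑ i, C i j * rf (mf i) v) *
        (lam ^ ((j : ℕ) + 2) * fval (rf (mf j)) L) := by
  rcases (tot_nonneg hv').eq_or_lt with ht | ht
  · have hz := eq_zero_of_tot hv' ht.symm
    simp [hz, rf, tot]
  set f : (Fin 3 → ℝ) → ℝ := fun u => rf (hv w) fun i => v i * u i
  have h6 : 6 * ∑ η, rf (hv w) (fun i => v i * edge lam L η i) =
      ∑ η, ∑ k, rf (hv w) (fun i => v i * edge lam L η (six k i)) := by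
    rw [Finset.sum_comm, Finset.sum_congr rfl fun k _ =>
      (fval_six f (colSym_edge hs lam) k).symm]
    simp [fval, f]
  have key : ∀ η, ∑ k, rf (hv w) (fun i => v i * edge lam L η (six k i)) ≤
      6 * (tot (L η) / 3 * rf (hv w) v + ∑ j : Fin 4, (C₀ j * (tot v / 3) +
        ∑ i, C i j * rf (mf i) v) * (lam ^ ((j : ℕ) + 2) * rf (mf j) (L η))) := by
    intro η
    rcases (tot_nonneg (hL.1 η)).eq_or_lt with tl | tl
    · simp [rf, edge, push, eq_zero_of_tot (hL.1 η) tl.symm, tot]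
    set r := rr v with hr
    set r'' := rr (L η) with hr''
    have sr := inSlice_rr hv' ht
    have sr' := inSlice_scale (inSlice_rr (hL.1 η) tl) (s := -2 * lam) (by linarith) (by linarith)
    have e : ∀ k, (fun i => v i * edge lam L η (six k i)) = (tot v / 3 * (tot (L η) / 3)) •
        fun i => (1 + r i) * (1 - (fun i => -2 * lam * r'' i) (six k i) / 2) := by
      intro k
      funext i
      simp only [Pi.smul_apply, smul_eq_mul, edge, push, hr, hr'', rr]
      field_simp
      ring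
    simp only [e, rf_smul, ← Finset.mul_sum]
    have hp : 0 ≤ tot v / 3 * (tot (L η) / 3) := by positivity
    have hb' := hb r _ sr sr'
    have hb'' : ∑ k, rf (hv w) (fun i => (1 + r i) * (1 - (fun i => -2 * lam * r'' i) (six k i) / 2)) ≤
        6 * (hv w r + ∑ j, (C₀ j + ∑ i, C i j * mf i r) * cc (fun i => -2 * lam * r'' i) j) := by
      linarith
    refine (mul_le_mul_of_nonneg_left hb'' hp).trans (le_of_eq ?_)
    have ec : ∀ j : Fin 4, cc (fun i => -2 * lam * r'' i) j = lam ^ ((j : ℕ) + 2) * mf j r'' := by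
      intro j
      fin_cases j <;> simp [cc, mf, P2, P3, P4, P5] <;> ring
    simp only [ec, rf, ← hr, ← hr'', mul_add, Fin.sum_univ_four]
    ring
  have := Finset.sum_le_sum fun η (_ : η ∈ Finset.univ) => key η
  rw [← h6, ← Finset.mul_sum, Finset.sum_add_distrib, ← Finset.sum_mul, sum_tot_third hL,
    one_mul, Finset.sum_comm] at this
  simp only [← Finset.mul_sum] at this
  exact le_of_mul_le_mul_left this (by norm_num)

/-- The mean of a functional at a node with `j` children observed to depth `n`. -/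
noncomputable def pre (d lam : ℝ) (n j : ℕ) (f : (Fin 3 → ℝ) → ℝ) : ℝ :=
  piAvg (gwWeight d n) j fun g => fval f (prodL fun c => edge lam (lik lam n (g c)))

theorem stoch_prod (h0 : -1 / 2 ≤ lam) (h1 : lam ≤ 1) {n j : ℕ} (g : Fin j → RTree n) :
    IsStoch (prodL fun c => edge lam (lik lam n (g c))) :=
  isStoch_prodL fun _ => (isStoch_lik h0 h1 n _).edge h0 h1

theorem hasSum_pre (hd : 0 ≤ d) {n j : ℕ} {f : (Fin 3 → ℝ) → ℝ} {B : ℝ}
    (hB : ∀ g : Fin j → RTree n, |fval f (prodL fun c => edge lam (lik lam n (g c)))| ≤ B) :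
    HasSum (fun g : Fin j → RTree n => (∏ c, gwWeight d n (g c)) *
      fval f (prodL fun c => edge lam (lik lam n (g c)))) (pre d lam n j f) :=
  (summable_weighted (fun _ => Finset.prod_nonneg fun _ _ => gwWeight_nonneg hd n _)
    (hasSum_prodWeight (gwWeight_nonneg hd n) (hasSum_gw hd n) j).summable hB).hasSum

theorem pre_hv (hd : 0 ≤ d) (h0 : -1 / 2 ≤ lam) (h1 : lam ≤ 1) (n j : ℕ) (w : Fin 4 → ℝ) :
    pre d lam n j (rf (hv w)) = ∑ i, w i * pre d lam n j (rf (mf i)) :=
  HasSum.tsum_eq ((hasSum_sum fun i (_ : i ∈ Finset.univ) =>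
    (hasSum_pre hd fun g => abs_fval_mf (stoch_prod h0 h1 g) i).mul_left (w i)).congr_fun fun g => by
      beta_reduce
      rw [fval_hv, Finset.mul_sum]
      exact Finset.sum_congr rfl fun i _ => by ring)

theorem abs_pre_le (hd : 0 ≤ d) (h0 : -1 / 2 ≤ lam) (h1 : lam ≤ 1) (n j : ℕ) (i : Fin 4) :
    |pre d lam n j (rf (mf i))| ≤ 36 :=
  abs_piAvg_le (gwWeight_nonneg hd n) (hasSum_gw hd n) fun g => abs_fval_mf (stoch_prod h0 h1 g) i

theorem pre_zero (d lam : ℝ) (n : ℕ) (i : Fin 4) : pre d lam n 0 (rf (mf i)) = 0 := by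
  have h : rr (fun _ : Fin 3 => (1 : ℝ)) = fun _ => 0 := funext fun _ => by norm_num [rr, tot]
  have hz : fval (rf (mf i)) blind = 0 := by
    rw [fval, Fintype.sum_unique, rf, show blind default = fun _ => (1 : ℝ) from rfl, h]
    fin_cases i <;> simp [mf, P2, P3, P4, P5]
  simp [pre, piAvg, fval_prodL_zero, hz]

/-- The gain from one more child. -/
theorem pre_succ_le (hb : BilBound w C₀ C) (hd : 0 ≤ d) (h0 : -1 / 2 ≤ lam) (h1 : lam ≤ 0)
    (n j : ℕ) :
    ∑ i, w i * (pre d lam n (j + 1) (rf (mf i)) - pre d lam n j (rf (mf i))) ≤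
      ∑ l : Fin 4, (C₀ l + ∑ i, C i l * pre d lam n j (rf (mf i))) *
        (lam ^ ((l : ℕ) + 2) * gwAvg d lam n (rf (mf l))) := by
  have h1' : lam ≤ 1 := by linarith
  set W := gwWeight d n
  have hW := gwWeight_nonneg hd n
  have hS := hasSum_gw hd n
  set f := rf (hv w)
  set c : Fin 4 → ℝ := fun l => lam ^ ((l : ℕ) + 2) * gwAvg d lam n (rf (mf l))
  have hf : ∀ {m : ℕ} (g : Fin m → RTree n),
      |fval f (prodL fun c => edge lam (lik lam n (g c)))| ≤ ∑ i, |w i| * 36 := fun g => by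
    rw [fval_hv]
    refine (Finset.abs_sum_le_sum_abs _ _).trans (Finset.sum_le_sum fun i _ => ?_)
    rw [abs_mul]
    exact mul_le_mul_of_nonneg_left (abs_fval_mf (stoch_prod h0 h1' g) i) (abs_nonneg _)
  set Φ : (Fin j → RTree n) → ℝ := fun g => fval f (prodL fun c => edge lam (lik lam n (g c)))
  set A : (Fin j → RTree n) → Fin 4 → ℝ := fun g l =>
    C₀ l + ∑ i, C i l * fval (rf (mf i)) (prodL fun c => edge lam (lik lam n (g c)))
  have inner : ∀ g : Fin j → RTree n, ∑' t, W t * fval f (prodL fun c =>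
      edge lam (lik lam n ((Fin.cons t g : Fin (j + 1) → RTree n) c))) ≤
        Φ g + ∑ l, A g l * c l := by
    intro g
    have hsum : HasSum (fun t => W t * (Φ g + ∑ l : Fin 4, A g l *
        (lam ^ ((l : ℕ) + 2) * fval (rf (mf l)) (lik lam n t)))) (Φ g + ∑ l, A g l * c l) := by
      have hm : ∀ l : Fin 4, HasSum (fun t => W t * fval (rf (mf l)) (lik lam n t))
          (gwAvg d lam n (rf (mf l))) := fun l => (summable_weighted hW hS.summable
            fun t => abs_fval_mf (isStoch_lik h0 h1' n t) l).hasSum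
      have := ((hS.mul_right (Φ g)).add (hasSum_sum fun l (_ : l ∈ Finset.univ) =>
        ((hm l).mul_left (lam ^ ((l : ℕ) + 2))).mul_left (A g l)))
      rw [one_mul] at this
      refine this.congr_fun fun t => ?_
      rw [mul_add, Finset.mul_sum]
      exact congrArg _ (Finset.sum_congr rfl fun l _ => by ring)
    refine hasSum_le (fun t => mul_le_mul_of_nonneg_left ?_ (hW t))
      (summable_weighted hW hS.summable fun t => hf _).hasSum hsum
    have sP := stoch_prod h0 h1' g
    have e2 : fval f (prodL fun c => edge lam (lik lam n ((Fin.cons t g : Fin (j + 1) → RTree n) c))) =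
        fval (fun v => ∑ η, f fun i => v i * edge lam (lik lam n t) η i)
          (prodL fun c => edge lam (lik lam n (g c))) := by
      rw [fval_prodL_succ, fval_tens_comm, fval_tens]; rfl
    rw [e2, fval]
    refine (Finset.sum_le_sum fun η _ => node_gain hb h0 h1 (isStoch_lik h0 h1' n t)
      (colSym_lik lam n t) (sP.1 η)).trans (le_of_eq ?_)
    rw [Finset.sum_add_distrib, Finset.sum_comm]
    refine congrArg _ (Finset.sum_congr rfl fun l _ => ?_)
    rw [← Finset.sum_mul, Finset.sum_add_distrib, ← Finset.mul_sum, sum_tot_third sP, mul_one,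
      Finset.sum_comm]
    simp only [← Finset.mul_sum, A, fval]
  have hP := hasSum_prodWeight hW hS j
  have hm : ∀ i : Fin 4, HasSum (fun g : Fin j → RTree n => (∏ c, W (g c)) *
      fval (rf (mf i)) (prodL fun c => edge lam (lik lam n (g c)))) (pre d lam n j (rf (mf i))) :=
    fun i => hasSum_pre hd fun g => abs_fval_mf (stoch_prod h0 h1' g) i
  have hΦ : HasSum (fun g => (∏ c, W (g c)) * Φ g) (pre d lam n j f) :=
    hasSum_pre hd fun g => hf g
  have hA : ∀ l, HasSum (fun g => (∏ c, W (g c)) * A g l)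
      (C₀ l + ∑ i, C i l * pre d lam n j (rf (mf i))) := fun l => by
    have := (hP.mul_right (C₀ l)).add (hasSum_sum fun i (_ : i ∈ Finset.univ) =>
      (hm i).mul_left (C i l))
    rw [one_mul] at this
    refine this.congr_fun fun g => ?_
    rw [mul_add, Finset.mul_sum]
    exact congrArg _ (Finset.sum_congr rfl fun i _ => by ring)
  have tot' : pre d lam n (j + 1) f ≤ pre d lam n j f +
      ∑ l, (C₀ l + ∑ i, C i l * pre d lam n j (rf (mf i))) * c l := by
    rw [pre, (piAvg_succ hW hS fun g => hf g).2]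
    refine hasSum_le (fun g => mul_le_mul_of_nonneg_left (inner g)
      (Finset.prod_nonneg fun c _ => hW _)) (summable_weighted
        (fun g => Finset.prod_nonneg fun c _ => hW _) hP.summable fun g =>
          abs_tsum_weighted_le hW hS fun t => hf _).hasSum
      ((hΦ.add (hasSum_sum fun l (_ : l ∈ Finset.univ) => (hA l).mul_right (c l))).congr_fun
        fun g => ?_)
    rw [mul_add, Finset.mul_sum]
    exact congrArg _ (Finset.sum_congr rfl fun l _ => by ring)
  simp only [f, pre_hv hd h0 h1'] at tot'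
  simp only [mul_sub, Finset.sum_sub_distrib]
  linarith

theorem tendsto_pre (hd : 0 ≤ d) (h0 : -1 / 2 ≤ lam) (h1 : lam ≤ 1) (j : ℕ) (i : Fin 4) :
    ∃ ℓ, Tendsto (fun n => pre d lam n j (rf (mf i))) atTop (𝓝 ℓ) := by
  have key : ∀ {f}, Sublin f → ∃ ℓ, Tendsto (fun n => pre d lam n j f) atTop (𝓝 ℓ) := fun hf =>
    ⟨_, tendsto_atTop_ciInf (antitone_nat_of_succ_le fun n =>
      piAvg_node_le hd h0 h1 (fun hg => gwAvg_succ_le hd h0 h1 n hg) hf) ⟨-fbound _, by
        rintro _ ⟨n, rfl⟩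
        exact (abs_le.1 (abs_piAvg_le (gwWeight_nonneg hd n) (hasSum_gw hd n) fun g =>
          abs_fval_le hf (stoch_prod h0 h1 g))).1⟩⟩
  obtain ⟨a, b, f₁, f₂, s₁, s₂, he⟩ := spanned_mf i
  obtain ⟨l₁, t₁⟩ := key s₁
  obtain ⟨l₂, t₂⟩ := key s₂
  refine ⟨_, ((t₁.const_mul a).add (t₂.const_mul b)).congr fun n => (HasSum.tsum_eq
    ((((hasSum_pre hd fun g => abs_fval_le s₁ (stoch_prod h0 h1 g)).mul_left a).add
      ((hasSum_pre hd fun g => abs_fval_le s₂ (stoch_prod h0 h1 g)).mul_left b)).congr_fun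
        fun g => ?_)).symm⟩
  beta_reduce
  rw [fval_span (stoch_prod h0 h1 g).1 he]
  ring

theorem gwAvg_mix (hd : 0 ≤ d) (h0 : -1 / 2 ≤ lam) (h1 : lam ≤ 1) (n : ℕ) (i : Fin 4) :
    gwAvg d lam (n + 1) (rf (mf i)) = mix (fun j => pre d lam n j (rf (mf i))) d := by
  obtain ⟨a, b, f₁, f₂, s₁, s₂, he⟩ := spanned_mf i
  have hp := poissonWeight_nonneg hd
  have hsum : ∀ {f}, Sublin f → HasSum (fun k => poissonWeight d k * pre d lam n k f)
      (gwAvg d lam (n + 1) f) := fun hf => by
    rw [gwAvg_succ hd h0 h1 hf]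
    exact (summable_weighted hp (hasSum_poisson d).summable fun k =>
      abs_piAvg_le (gwWeight_nonneg hd n) (hasSum_gw hd n) fun g =>
        abs_fval_le hf (stoch_prod h0 h1 g)).hasSum
  rw [gwAvg_span hd h0 h1 s₁ s₂ he]
  refine (HasSum.tsum_eq ((((hsum s₁).mul_left a).add ((hsum s₂).mul_left b)).congr_fun
    fun k => ?_)).symm
  have e : pre d lam n k (rf (mf i)) = a * pre d lam n k f₁ + b * pre d lam n k f₂ :=
    HasSum.tsum_eq ((((hasSum_pre hd fun g => abs_fval_le s₁ (stoch_prod h0 h1 g)).mul_left a).add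
      ((hasSum_pre hd fun g => abs_fval_le s₂ (stoch_prod h0 h1 g)).mul_left b)).congr_fun fun g => by
        beta_reduce; rw [fval_span (stoch_prod h0 h1 g).1 he]; ring)
  beta_reduce
  rw [e]
  ring

/-- The limits of the moments at nodes with `j` children. -/
structure LimSeq (d lam : ℝ) (m : Fin 4 → ℝ) (F : Fin 4 → ℕ → ℝ) : Prop where
  zero : ∀ i, F i 0 = 0
  bound : ∀ i j, |F i j| ≤ 36
  fixed : ∀ i, m i = mix (F i) d
  gain : ∀ {w C₀ : Fin 4 → ℝ} {C : Fin 4 → Fin 4 → ℝ}, BilBound w C₀ C → ∀ j,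
    ∑ i, w i * (F i (j + 1) - F i j) ≤
      ∑ l : Fin 4, (C₀ l + ∑ i, C i l * F i j) * (lam ^ ((l : ℕ) + 2) * m l)

/-- The limits exist. -/
theorem exists_limSeq (hd : 0 ≤ d) (h0 : -1 / 2 ≤ lam) (h1 : lam ≤ 0) {m : Fin 4 → ℝ}
    (hm : ∀ i, Tendsto (fun n => gwAvg d lam n (rf (mf i))) atTop (𝓝 (m i))) :
    ∃ F, LimSeq d lam m F := by
  have h1' : lam ≤ 1 := by linarith
  choose F hF using fun (i : Fin 4) (j : ℕ) => tendsto_pre hd h0 h1' j i
  refine ⟨F, fun i => ?_, fun i j => ?_, fun i => ?_, fun {w C₀ C} hb j => ?_⟩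
  · have h := hF i 0
    simp only [pre_zero] at h
    exact tendsto_nhds_unique h tendsto_const_nhds
  · exact le_of_tendsto' ((hF i j).abs) fun n => abs_pre_le hd h0 h1' n j i
  · refine tendsto_nhds_unique ((hm i).comp (tendsto_add_atTop_nat 1)) ?_
    simp only [Function.comp_def, gwAvg_mix hd h0 h1']
    have hp := poissonWeight_nonneg hd
    refine tendsto_tsum_of_dominated_convergence ((hasSum_poisson d).summable.mul_right 36)
      (fun k => (hF i k).const_mul _) (Eventually.of_forall fun n k => ?_)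
    rw [Real.norm_eq_abs, abs_mul, abs_of_nonneg (hp k)]
    exact mul_le_mul_of_nonneg_left (abs_pre_le hd h0 h1' n k i) (hp k)
  · exact le_of_tendsto_of_tendsto'
      (tendsto_finsetSum _ fun i _ => ((hF i (j + 1)).sub (hF i j)).const_mul (w i))
      (tendsto_finsetSum _ fun l _ => (tendsto_const_nhds.add
        (tendsto_finsetSum _ fun i _ => (hF i j).const_mul (C i l))).mul ((hm l).const_mul _))
      fun n => pre_succ_le hb hd h0 h1 n j

end Vale.Agent.P154.Q3.End.Semi
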