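import Vale.Agent.P154.End.Semi.Templates

/-!
# Templates from certificates at a larger scale

A certificate with all entries multiplied by a positive number gives the template itself.
-/

namespace Vale.Agent.P154.Q3.End.Semi

open scoped BigOperators

/-- A template with all entries multiplied. -/
def Tpl.times (M : ℕ) (t : Tpl) : Tpl :=
  ⟨t.y.map fun x => (M : ℤ) * x, t.C0.map fun x => (M : ℤ) * x,
    t.C.map fun r => r.map fun x => (M : ℤ) * x⟩

theorem rent_map (M : ℕ) (l : List ℤ) (i : ℕ) :
    rent (l.map fun x => (M : ℤ) * x) i = M * rent l i := by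
  rcases lt_or_ge i l.length with h | h
  · simp [rent, ent, h]
  · simp [rent, ent, h]

theorem getD_times (M : ℕ) (C : List (List ℤ)) (i : ℕ) :
    (C.map fun r => r.map fun x => (M : ℤ) * x).getD i [] =
      (C.getD i []).map fun x => (M : ℤ) * x := by
  rcases lt_or_ge i C.length with h | h
  · simp [h]
  · simp [h]

theorem Tpl.valid_of_times {M : ℕ} (hM : 0 < M) {t : Tpl} (h : (t.times M).Valid) : t.Valid := by
  intro r r' hr hr'
  have key := h r r' hr hr'
  have hv' : ∀ x, hv (fun i : Fin 4 => rent (t.times M).y i) x =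
      M * hv (fun i : Fin 4 => rent t.y i) x := fun x => by
    simp [Tpl.times, hv, rent_map, Fin.sum_univ_four]
    ring
  have hr0 : ∀ v, rf (hv fun i : Fin 4 => rent (t.times M).y i) v =
      M * rf (hv fun i : Fin 4 => rent t.y i) v := fun v => by
    simp only [rf, hv']
    ring
  simp only [hr0, hv'] at key
  simp only [Tpl.times, rent_map, getD_times, ← Finset.mul_sum] at key
  have e : ∑ j : Fin 4, ((M : ℝ) * rent t.C0 j + ∑ i : Fin 4, (M : ℝ) * rent (t.C.getD i []) j *
      mf i r) * cc r' j =
      M * ∑ j : Fin 4, (rent t.C0 j + ∑ i : Fin 4, rent (t.C.getD i []) j * mf i r) * cc r' j := by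
    simp only [Fin.sum_univ_four]
    ring
  refine le_of_mul_le_mul_left ?_ (Nat.cast_pos.2 hM : (0 : ℝ) < M)
  rw [← e]
  linarith

/-- A checked certificate at scale `M` proves its template. -/
theorem SemiCert.valid_scaled {s : SemiCert} (h : s.check = true) (M : ℕ) (hM : 0 < M) {t : Tpl}
    (e : s.toTpl = t.times M) : t.Valid :=
  Tpl.valid_of_times hM (e ▸ SemiCert.valid h rfl rfl rfl)

/-- A list of templates from certificates checked at scale `M`. -/
theorem valid_of_scaled_certs {L : List SemiCert} (hL : ∀ s ∈ L, s.check = true) (M : ℕ)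
    (hM : 0 < M) {T : List Tpl} (e : L.map SemiCert.toTpl = T.map (Tpl.times M)) :
    ∀ k < T.length, (tpl T k).Valid := by
  intro k hk
  have hl : L.length = T.length := by simpa using congrArg List.length e
  have hk' : k < L.length := hl ▸ hk
  have ek := List.getElem_of_eq e (i := k) (by simpa using hk')
  simp only [List.getElem_map] at ek
  rw [tpl, List.getD_eq_getElem _ _ hk]
  exact SemiCert.valid_scaled (hL _ (List.getElem_mem hk')) M hM ek

end Vale.Agent.P154.Q3.End.Semi
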