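import Vale.Agent.P154.End.Semi.Kron

/-!
# Dyadic cells and nonnegativity on a cell

A polynomial in three variables is nonnegative on a cell if all coefficients of its homogenised
substitution are.
-/

namespace Vale.Agent.P154.Q3.End.Semi

/-- The interval from `l / q` to `h / q`. -/
structure Seg where
  l : ℤ
  h : ℤ
  q : ℕ

/-- A proper interval. -/
def Seg.ok (s : Seg) : Bool := decide (s.l < s.h ∧ 0 < s.q)
/-- Left half. -/
def Seg.left (s : Seg) : Seg := ⟨2 * s.l, s.l + s.h, 2 * s.q⟩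
/-- Right half. -/
def Seg.right (s : Seg) : Seg := ⟨s.l + s.h, 2 * s.h, 2 * s.q⟩
/-- Membership. -/
def Seg.Mem (s : Seg) (x : ℝ) : Prop := (s.l : ℝ) ≤ s.q * x ∧ (s.q : ℝ) * x ≤ s.h
/-- The point of the homogeneous parameter `t`. -/
noncomputable def Seg.at (s : Seg) (t : ℝ) : ℝ := ((s.l : ℝ) + s.h * t) / ((s.q : ℝ) + s.q * t)

theorem Seg.split {s : Seg} {x : ℝ} (h : s.Mem x) : s.left.Mem x ∨ s.right.Mem x := by
  simp only [Seg.Mem, Seg.left, Seg.right] at *
  push_cast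
  rcases le_total (2 * (s.q : ℝ) * x) (s.l + s.h) with c | c
  · exact Or.inl ⟨by linarith [h.1], c⟩
  · exact Or.inr ⟨c, by linarith [h.2]⟩

theorem Seg.extend {s : Seg} (hs : s.ok = true) {f : ℝ → ℝ} (hf : Continuous f)
    (h : ∀ t, 0 ≤ t → 0 ≤ f (s.at t)) {x : ℝ} (hx : s.Mem x) : 0 ≤ f x := by
  simp only [Seg.ok, decide_eq_true_eq] at hs
  have hq : (0 : ℝ) < s.q := by exact_mod_cast hs.2
  have hl : (s.l : ℝ) < s.h := by exact_mod_cast hs.1
  refine nonneg_Icc (a := (s.l : ℝ) / s.q) (b := (s.h : ℝ) / s.q)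
    (div_lt_div_of_pos_right hl hq) hf (fun y h1 h2 => ?_)
    (by rw [div_le_iff₀ hq]; linarith [hx.1]) (by rw [le_div_iff₀ hq]; linarith [hx.2])
  rw [div_le_iff₀ hq] at h1
  rw [lt_div_iff₀ hq] at h2
  have hd : 0 < (s.h : ℝ) - s.q * y := by linarith
  have key := h ((s.q * y - s.l) / (s.h - s.q * y)) (div_nonneg (by linarith) hd.le)
  convert key using 2
  simp only [Seg.at]
  field_simp
  ring_nf

theorem Seg.den_pos {s : Seg} (hs : s.ok = true) {t : ℝ} (ht : 0 ≤ t) :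
    0 < (s.q : ℝ) + s.q * t := by
  simp only [Seg.ok, decide_eq_true_eq] at hs
  have hq : (0 : ℝ) < s.q := by exact_mod_cast hs.2
  positivity

/-- Repeated product with `q (1 + t)`. -/
def padPow (q : ℕ) : ℕ → P1 → P1
  | 0, p => p
  | n + 1, p => o0.mulLin q q (padPow q n p)

/-- Column `j` of the substitution on a cell, in degree `n - 1`. -/
def Seg.col (s : Seg) (n j : ℕ) : P1 :=
  padPow s.q (n - 1 - j) (o0.linPow s.l s.h 1 j)

/-- The substitution matrix on a cell. -/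
def Seg.cols (s : Seg) (n : ℕ) : List P1 := (List.range n).map (s.col n)

/-- Substitution by a matrix. -/
def homM {α : Type} (o : Ops α) (cols : List P1) (p : List α) : List α :=
  comb o.up (fun x col => col.map fun k => o.scale k x) p cols

theorem ev1_padPow (q : ℕ) (t : ℝ) (p : P1) : ∀ n,
    ev1 t (padPow q n p) = ((q : ℝ) + q * t) ^ n * ev1 t p
  | 0 => by simp [padPow]
  | n + 1 => by
    rw [padPow, ev1, gev_mulLin ok0, ← ev1, ev1_padPow q t p n]
    push_cast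
    ring

theorem cols_spec {s : Seg} (hs : s.ok = true) (n : ℕ) {t : ℝ} (ht : 0 ≤ t) :
    RowSpec (ev1 t) (((s.q : ℝ) + s.q * t) ^ (n - 1)) (s.at t) (s.cols n) :=
  rowSpec_range _ _ _ _ _ fun j hj => by
    have hd := Seg.den_pos hs ht
    rw [Seg.col, ev1_padPow, ev1, gev_linPow ok0, Seg.at, div_pow,
      ← mul_div_assoc, eq_div_iff (pow_ne_zero _ hd.ne')]
    have e : ((s.q : ℝ) + s.q * t) ^ (n - 1) =
        ((s.q : ℝ) + s.q * t) ^ (n - 1 - j) * ((s.q : ℝ) + s.q * t) ^ j := by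
      rw [← pow_add, Nat.sub_add_cancel (by omega)]
    rw [e]
    simp only [ev0]
    push_cast
    ring

theorem cols_length (s : Seg) (n : ℕ) : (s.cols n).length = n := by simp [Seg.cols]

theorem homM_eq {α : Type} {o : Ops α} {ev : α → ℝ} (h : o.OK ev) {s : Seg} (hs : s.ok = true)
    {n : ℕ} {p : List α} (hl : p.length ≤ n) {t : ℝ} (ht : 0 ≤ t) :
    gev ev (homM o (s.cols n) p) t = ((s.q : ℝ) + s.q * t) ^ (n - 1) * gev ev p (s.at t) :=
  comb_eval (ev := fun r => gev ev r t) (Ops.up_ok h t) (f := ev) (g := ev1 t)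
    (fun c col => by
      rw [gev_map_comp, gev_congr_mem (ev' := ev0) (k := ev c) (fun k _ => by
        rw [h.scale, ev0]; ring) t]
      rfl)
    p _ _ (cols_spec hs n ht) (by rw [cols_length]; exact hl)

/-- Numerator and denominator of the substitution at a base. -/
def Seg.subB (s : Seg) (B : ℤ) : ℤ × ℤ :=
  (Int.add s.l (Int.mul s.h B), Int.add (s.q : ℤ) (Int.mul (s.q : ℤ) B))

/-- Bounds for numerator and denominator of the substitution. -/
def Seg.subA (s : Seg) : ℤ × ℤ :=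
  ((s.l.natAbs : ℤ) + (s.h.natAbs : ℤ), 2 * (s.q : ℤ))

theorem Seg.subA_cast (s : Seg) :
    (s.subA.1 : ℝ) = |(s.l : ℝ)| + |(s.h : ℝ)| ∧ (s.subA.2 : ℝ) = 2 * (s.q : ℝ) := by
  simp [Seg.subA, Nat.cast_natAbs]

theorem Seg.subA_pos {s : Seg} (hs : s.ok = true) :
    (0 : ℝ) < s.subA.2 ∧ 0 ≤ (s.subA.1 : ℝ) / s.subA.2 := by
  simp only [Seg.ok, decide_eq_true_eq] at hs
  have hq : (0 : ℝ) < s.q := by exact_mod_cast hs.2
  obtain ⟨e1, e2⟩ := s.subA_cast
  rw [e1, e2]
  exact ⟨by positivity, by positivity⟩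

theorem Seg.subB_cast {s : Seg} (hs : s.ok = true) {B : ℤ} (hB : 0 ≤ B) :
    ((s.subB B).2 : ℝ) = (s.q : ℝ) + s.q * B ∧ ((s.subB B).2 : ℝ) ≠ 0 ∧
      ((s.subB B).1 : ℝ) / (s.subB B).2 = s.at B := by
  have hd := Seg.den_pos hs (t := (B : ℝ)) (by exact_mod_cast hB)
  simp only [Seg.subB, Seg.at, Int.add_def, Int.mul_def]
  push_cast
  exact ⟨rfl, hd.ne', rfl⟩

theorem nv1_mulLin (a b : ℤ) (p : P1) :
    nv1 (o0.mulLin a b p) ≤ (|(a : ℝ)| + |(b : ℝ)|) * nv1 p := by
  have h1 : nv1 (p.map (o0.scale a)) ≤ |(a : ℝ)| * nv1 p := nok1.scale a p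
  have h2 : nv1 (p.map (o0.scale b)) ≤ |(b : ℝ)| * nv1 p := nok1.scale b p
  have h0 : nv1 (o0.zero :: p.map (o0.scale b)) = nv1 (p.map (o0.scale b)) := by
    simp [nv1, gev, o0, nv0]
  have := nok1.add (p.map (o0.scale a)) (o0.zero :: p.map (o0.scale b))
  simp only [Ops.mulLin]
  simp only [o1, Ops.up] at this
  linarith

theorem nv1_padPow (q : ℕ) (p : P1) : ∀ n, nv1 (padPow q n p) ≤ (2 * (q : ℝ)) ^ n * nv1 p
  | 0 => by simp [padPow]
  | n + 1 => by
    refine (nv1_mulLin _ _ _).trans ?_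
    have := mul_le_mul_of_nonneg_left (nv1_padPow q p n)
      (by positivity : (0 : ℝ) ≤ |((q : ℤ) : ℝ)| + |((q : ℤ) : ℝ)|)
    refine this.trans (le_of_eq ?_)
    push_cast
    rw [Nat.abs_cast, pow_succ]
    ring

theorem nv1_linPow (a b : ℤ) : ∀ n, nv1 (o0.linPow a b 1 n) ≤ (|(a : ℝ)| + |(b : ℝ)|) ^ n
  | 0 => by simp [Ops.linPow, nv1, gev, nv0]
  | n + 1 => by
    refine (nv1_mulLin _ _ _).trans ?_
    rw [pow_succ, mul_comm ((|(a : ℝ)| + |(b : ℝ)|) ^ n)]
    exact mul_le_mul_of_nonneg_left (nv1_linPow a b n) (by positivity)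

theorem cols_rowLe {s : Seg} (hs : s.ok = true) (n : ℕ) :
    RowLe nv1 ((s.subA.2 : ℝ) ^ (n - 1)) ((s.subA.1 : ℝ) / s.subA.2) (s.cols n) :=
  rowLe_range _ _ _ _ _ fun j hj => by
    obtain ⟨hd, -⟩ := Seg.subA_pos hs
    obtain ⟨e1, e2⟩ := s.subA_cast
    rw [Seg.col, div_pow, ← mul_div_assoc, le_div_iff₀ (pow_pos hd _),
      show (s.subA.2 : ℝ) ^ (n - 1) = (s.subA.2 : ℝ) ^ (n - 1 - j) * (s.subA.2 : ℝ) ^ j by
        rw [← pow_add, Nat.sub_add_cancel (by omega)], e1, e2]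
    have h1 := nv1_padPow s.q (o0.linPow s.l s.h 1 j) (n - 1 - j)
    have h2 := mul_le_mul_of_nonneg_left (nv1_linPow s.l s.h j)
      (by positivity : (0 : ℝ) ≤ (2 * (s.q : ℝ)) ^ (n - 1 - j))
    have h3 := mul_le_mul_of_nonneg_right (h1.trans h2)
      (by positivity : (0 : ℝ) ≤ (2 * (s.q : ℝ)) ^ j)
    linarith

theorem homM_norm {α : Type} {o : Ops α} {nrm : α → ℝ} (h : o.NOK nrm) {s : Seg}
    (hs : s.ok = true) (n : ℕ) (p : List α) :
    gev nrm (homM o (s.cols n) p) 1 ≤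
      (s.subA.2 : ℝ) ^ (n - 1) * gev nrm p ((s.subA.1 : ℝ) / s.subA.2) :=
  comb_le (o := o.up) (nrm := fun r => gev nrm r 1) (Ops.up_nok h) h.nonneg (g := nv1)
    (fun c col => by
      rw [Ops.up_nok.gev_map_one, mul_comm]
      exact (gev_mono zero_le_one (ev' := nv0) (k := nrm c)
        fun k _ => (h.scale k c).trans (le_of_eq (by rw [nv0]; ring))).trans
          (le_of_eq (by rw [nv1]; ring)))
    (Seg.subA_pos hs).2 p _ _ (cols_rowLe hs n) (pow_nonneg (Seg.subA_pos hs).1.le _)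

theorem padPow_length (q : ℕ) (p : P1) : ∀ n, (padPow q n p).length ≤ p.length + n
  | 0 => le_rfl
  | n + 1 => by
    have := padPow_length q p n
    simp only [padPow, Ops.mulLin, gadd_length, List.length_map, List.length_cons]
    omega

theorem linPow_length (a b : ℤ) : ∀ n, (o0.linPow a b 1 n).length ≤ n + 1
  | 0 => by simp [Ops.linPow]
  | n + 1 => by
    have := linPow_length a b n
    simp only [Ops.linPow, Ops.mulLin, gadd_length, List.length_map, List.length_cons]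
    omega

theorem homM_shape {α : Type} {o : Ops α} {P : α → Prop} (h : o.Closed P) (s : Seg) (n : ℕ)
    {p : List α} (hp : ∀ c ∈ p, P c) : Shape P n (homM o (s.cols n) p) :=
  comb_closed (o := o.up) (Ops.up_closed h n) fun c hc col hcol => by
    simp only [Seg.cols, List.mem_map, List.mem_range] at hcol
    obtain ⟨j, hj, rfl⟩ := hcol
    have h1 := padPow_length s.q (o0.linPow s.l s.h 1 j) (n - 1 - j)
    have h2 := linPow_length s.l s.h j
    refine ⟨?_, fun d hd => ?_⟩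
    · simp only [List.length_map, Seg.col]; omega
    · obtain ⟨k, -, rfl⟩ := List.mem_map.1 hd; exact h.scale k c (hp c hc)

/-- Substitution in both variables. -/
def hom2 (cS cT : List P1) (p : P2v) : P2v := (homM o1 cS p).map (homM o0 cT)

/-- Two-level homogeneous value. -/
def hz2 (n1 n2 : ℕ) (a b : ℤ × ℤ) (f : ℤ → ℤ) (p : P2v) : ℤ :=
  hVal n1 (fun r => hVal n2 f b.1 b.2 r) a.1 a.2 p

/-- Rows fit into `n2` and there are at most `n1`. -/
def fit2 (n1 n2 : ℕ) (p : P2v) : Bool :=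
  decide (p.length ≤ n1) && p.all fun r => decide (r.length ≤ n2)

theorem fit2_shape {n1 n2 : ℕ} {p : P2v} (h : fit2 n1 n2 p = true) :
    p.length ≤ n1 ∧ ∀ r ∈ p, Shape AnyInt n2 r := by
  simp only [fit2, Bool.and_eq_true, List.all_eq_true, decide_eq_true_eq] at h
  exact ⟨h.1, fun r hr => ⟨h.2 r hr, fun _ _ => trivial⟩⟩

theorem hom2_shape (s t : Seg) {n1 n2 : ℕ} {p : P2v} (h : fit2 n1 n2 p = true) :
    Shape (Shape AnyInt n2) n1 (hom2 (s.cols n1) (t.cols n2) p) := by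
  obtain ⟨-, hr⟩ := fit2_shape h
  obtain ⟨h1, -⟩ := homM_shape (o := o1) (Ops.up_closed closed0 n2) s n1 hr
  refine ⟨by simpa [hom2] using h1, fun r hr' => ?_⟩
  obtain ⟨r', -, rfl⟩ := List.mem_map.1 hr'
  exact homM_shape closed0 t n2 fun _ _ => trivial

theorem hom2_eq {s t : Seg} (hs : s.ok = true) (ht : t.ok = true) {n1 n2 : ℕ} {p : P2v}
    (hf : fit2 n1 n2 p = true) {a b : ℝ} (ha : 0 ≤ a) (hb : 0 ≤ b) :
    ev2 a b (hom2 (s.cols n1) (t.cols n2) p) =
      ((s.q : ℝ) + s.q * a) ^ (n1 - 1) * ((t.q : ℝ) + t.q * b) ^ (n2 - 1) *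
        ev2 (s.at a) (t.at b) p := by
  obtain ⟨hl, hr⟩ := fit2_shape hf
  have hsh := homM_shape (o := o1) (Ops.up_closed closed0 n2) s n1 hr
  have e : ∀ r ∈ homM o1 (s.cols n1) p, ev1 b (homM o0 (t.cols n2) r) =
      ((t.q : ℝ) + t.q * b) ^ (n2 - 1) * ev1 (t.at b) r :=
    fun r h => homM_eq ok0 ht (hsh.2 r h).1 hb
  rw [ev2, hom2, gev_map_comp, gev_congr_mem e a, homM_eq (ok1 (t.at b)) hs hl ha, ev2]
  ring

theorem hz2_value {s t : Seg} (hs : s.ok = true) (ht : t.ok = true) {n1 n2 : ℕ} {p : P2v}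
    (hf : fit2 n1 n2 p = true) {A B : ℤ} (hA : 0 ≤ A) (hB : 0 ≤ B) :
    (hz2 n1 n2 (s.subB A) (t.subB B) id p : ℝ) =
      ev2 (A : ℝ) (B : ℝ) (hom2 (s.cols n1) (t.cols n2) p) := by
  obtain ⟨hl, hr⟩ := fit2_shape hf
  obtain ⟨a1, a2, a3⟩ := Seg.subB_cast hs hA
  obtain ⟨b1, b2, b3⟩ := Seg.subB_cast ht hB
  rw [hom2_eq hs ht hf (by exact_mod_cast hA) (by exact_mod_cast hB), hz2, hVal_cast a2 hl, a3,
    gev_congr_mem (ev' := ev1 (t.at B)) (k := ((t.q : ℝ) + t.q * B) ^ (n2 - 1)) (fun r hr' => by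
      rw [hVal_cast b2 (hr r hr').1, b3, b1]; rfl), a1, ev2]
  ring

theorem hz2_norm {s t : Seg} (hs : s.ok = true) (ht : t.ok = true) {n1 n2 : ℕ} {p : P2v}
    (hf : fit2 n1 n2 p = true) :
    nv2 (hom2 (s.cols n1) (t.cols n2) p) ≤
      (hz2 n1 n2 s.subA t.subA (fun c => (c.natAbs : ℤ)) p : ℝ) := by
  obtain ⟨hl, hr⟩ := fit2_shape hf
  obtain ⟨sd, sr⟩ := Seg.subA_pos hs
  obtain ⟨td, tr⟩ := Seg.subA_pos ht
  rw [nv2, hom2, Ops.up_nok.gev_map_one, hz2, hVal_cast sd.ne' hl]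
  set ρ := (t.subA.1 : ℝ) / t.subA.2
  have h1 : gev (fun r => nv1 (homM o0 (t.cols n2) r)) (homM o1 (s.cols n1) p) 1 ≤
      (t.subA.2 : ℝ) ^ (n2 - 1) * gev (fun r => gev nv0 r ρ) (homM o1 (s.cols n1) p) 1 :=
    gev_mono zero_le_one fun r _ => homM_norm nok0 ht n2 r
  have hN : o1.NOK fun r => gev nv0 r ρ :=
    ⟨fun r => gev_nonneg' nok0.nonneg tr r, rfl,
      fun a b => le_gadd tr nok0.add a b, fun c a => le_map tr (fun d => nok0.scale c d) a⟩
  have h2 := mul_le_mul_of_nonneg_left (homM_norm hN hs n1 p)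
    (pow_nonneg td.le (n2 - 1))
  refine (h1.trans h2).trans (le_of_eq ?_)
  rw [gev_congr_mem (ev := fun r => (hVal n2 (fun c => (c.natAbs : ℤ)) t.subA.1 t.subA.2 r : ℝ))
    (ev' := fun r => gev nv0 r ρ) (k := (t.subA.2 : ℝ) ^ (n2 - 1)) (fun r hr' => by
      rw [hVal_cast td.ne' (hr r hr').1]
      congr 2
      funext c
      simp [nv0, Nat.cast_natAbs])]
  ring
where
  le_gadd {ρ : ℝ} (hρ : 0 ≤ ρ) {α : Type} {nrm : α → ℝ} {f : α → α → α}
      (hf : ∀ a b, nrm (f a b) ≤ nrm a + nrm b) :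
      ∀ p q, gev nrm (gadd f p q) ρ ≤ gev nrm p ρ + gev nrm q ρ
    | [], q => by simp [gadd, gev]
    | a :: as, [] => by simp [gadd, gev]
    | a :: as, b :: bs => by
      simp only [gadd, gev]
      have := mul_le_mul_of_nonneg_left (le_gadd hρ hf as bs) hρ
      linarith [hf a b]
  le_map {ρ : ℝ} (hρ : 0 ≤ ρ) {α : Type} {nrm : α → ℝ} {g : α → α} {k : ℝ}
      (hg : ∀ a, nrm (g a) ≤ k * nrm a) : ∀ p, gev nrm (p.map g) ρ ≤ k * gev nrm p ρ
    | p => by rw [gev_map_comp]; exact gev_mono hρ fun c _ => hg c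

/-- Three-level homogeneous value. -/
def hz3 (n1 n2 n3 : ℕ) (a b c : ℤ × ℤ) (f : ℤ → ℤ) (p : P3v) : ℤ :=
  hVal n1 (fun q => hz2 n2 n3 b c f q) a.1 a.2 p

/-- Largest length of the members. -/
def maxLen {α : Type} : List (List α) → ℕ
  | [] => 0
  | r :: rs => max r.length (maxLen rs)

theorem le_maxLen {α : Type} : ∀ p : List (List α), ∀ r ∈ p, r.length ≤ maxLen p
  | x :: xs, r, h => by
    rcases List.mem_cons.1 h with rfl | h
    · exact le_max_left _ _
    · exact le_trans (le_maxLen xs r h) (le_max_right _ _)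

/-- A number of bits with room for `x`, in steps. -/
def bitsFor (x : ℤ) : ℕ :=
  if x ≤ 2 ^ 160 then 160 else if x ≤ 2 ^ 256 then 256 else if x ≤ 2 ^ 384 then 384 else 768

/-- Check of one cell in three variables. -/
def cell3 (r s t : Seg) (p : P3v) : Bool :=
  r.ok && s.ok && t.ok &&
    let n1 := p.length
    let n2 := max 1 (maxLen p)
    let n3 := max 1 (maxLen p.flatten)
    p.all (fun q => fit2 n2 n3 q) &&
    thenI (hz3 n1 n2 n3 r.subA s.subA t.subA (fun c => (c.natAbs : ℤ)) p + 1) fun B =>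
    thenN (bitsFor B) fun k =>
    thenI (2 ^ k) fun H3 =>
    decide (B ≤ H3) &&
    thenI (nextH H3 n3) fun H2 =>
    thenI (nextH H2 n2) fun H1 =>
    thenI (hz3 n1 n2 n3 (r.subB (2 * H1)) (s.subB (2 * H2)) (t.subB (2 * H3)) id p) fun Z =>
      smallDigits k (n1 * (n2 * (n3 * 1))) Z

theorem ev1_eq (x : ℝ) : ∀ p, ev1 x p = lev p x
  | [] => rfl
  | c :: cs => by
    have := ev1_eq x cs
    simp only [ev1] at this ⊢
    simp only [gev, lev, this, ev0]

theorem cell3_sound {r s t : Seg} {p : P3v} (h : cell3 r s t p = true) {x y z : ℝ}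
    (hx : r.Mem x) (hy : s.Mem y) (hz : t.Mem z) : 0 ≤ ev3 x y z p := by
  simp only [cell3, thenI_eq, thenN_eq, Bool.and_eq_true, List.all_eq_true, decide_eq_true_eq] at h
  obtain ⟨⟨⟨hr, hs⟩, ht⟩, hfit, hBd, hsm⟩ := h
  set n1 := p.length
  set n2 := max 1 (maxLen p)
  set n3 := max 1 (maxLen p.flatten)
  set k := bitsFor (hz3 n1 n2 n3 r.subA s.subA t.subA (fun c => (c.natAbs : ℤ)) p + 1)
  set H3 : ℤ := 2 ^ k with hH3
  set H2 := nextH H3 n3 with hH2
  set H1 := nextH H2 n2 with hH1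
  have hH : 0 < H3 := pow_pos two_pos k
  have h2p : 0 < H2 := nextH_pos hH n3
  have h1p : 0 < H1 := nextH_pos h2p n2
  obtain ⟨-, hshape⟩ := homM_shape (o := o2) (Ops.up_closed (Ops.up_closed closed0 n3) n2) r n1
    (p := p) fun q hq => fit2_shape (hfit q hq)
  set g := (homM o2 (r.cols n1) p).map (hom2 (s.cols n2) (t.cols n3)) with hg
  have hfit' : ∀ q ∈ homM o2 (r.cols n1) p, fit2 n2 n3 q = true := fun q hq => by
    simp only [fit2, Bool.and_eq_true, List.all_eq_true, decide_eq_true_eq]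
    exact ⟨(hshape q hq).1, fun row hrow => ((hshape q hq).2 row hrow).1⟩
  have hsh : ∀ q ∈ g, Shape (Shape AnyInt n3) n2 q := fun q hq => by
    obtain ⟨q', hq', rfl⟩ := List.mem_map.1 hq
    exact hom2_shape s t (hfit' q' hq')
  have hlen : g.length ≤ n1 := by
    rw [hg, List.length_map]
    exact (homM_shape (o := o2) (Ops.up_closed (Ops.up_closed closed0 n3) n2) r n1 (p := p)
      fun q hq => fit2_shape (hfit q hq)).1
  obtain ⟨rd, rr⟩ := Seg.subA_pos hr
  have hnorm : gev nv2 g 1 ≤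
      (hz3 n1 n2 n3 r.subA s.subA t.subA (fun c => (c.natAbs : ℤ)) p : ℝ) := by
    rw [hg, Ops.up_nok.gev_map_one, hz3, hVal_cast rd.ne' le_rfl]
    -- each term of the outer combination is bounded separately
    obtain ⟨sd, sr⟩ := Seg.subA_pos hs
    obtain ⟨td, tr⟩ := Seg.subA_pos ht
    set ρs := (s.subA.1 : ℝ) / s.subA.2
    set ρt := (t.subA.1 : ℝ) / t.subA.2
    set K := (s.subA.2 : ℝ) ^ (n2 - 1) * (t.subA.2 : ℝ) ^ (n3 - 1)
    have val : ∀ q, fit2 n2 n3 q = true →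
        (hz2 n2 n3 s.subA t.subA (fun c => (c.natAbs : ℤ)) q : ℝ) =
          K * gev (fun row => gev nv0 row ρt) q ρs := fun q hq => by
      obtain ⟨hl, hrw⟩ := fit2_shape hq
      rw [hz2, hVal_cast sd.ne' hl, gev_congr_mem (ev' := fun row => gev nv0 row ρt)
        (k := (t.subA.2 : ℝ) ^ (n3 - 1)) (fun row hrow => by
          rw [hVal_cast td.ne' (hrw row hrow).1]
          congr 2
          funext c
          simp [nv0, Nat.cast_natAbs])]
      ring
    have h1 : gev (fun q => nv2 (hom2 (s.cols n2) (t.cols n3) q)) (homM o2 (r.cols n1) p) 1 ≤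
        K * gev (fun q => gev (fun row => gev nv0 row ρt) q ρs) (homM o2 (r.cols n1) p) 1 :=
      gev_mono zero_le_one fun q hq => (hz2_norm hs ht (hfit' q hq)).trans (val q (hfit' q hq)).le
    have hN1 : o1.NOK fun row => gev nv0 row ρt :=
      ⟨fun row => gev_nonneg' nok0.nonneg tr row, rfl,
        fun a b => hz2_norm.le_gadd tr nok0.add a b,
        fun c a => hz2_norm.le_map tr (fun d => nok0.scale c d) a⟩
    have hN2 : o2.NOK fun q => gev (fun row => gev nv0 row ρt) q ρs :=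
      ⟨fun q => gev_nonneg' hN1.nonneg sr q, rfl,
        fun a b => hz2_norm.le_gadd sr hN1.add a b,
        fun c a => hz2_norm.le_map sr (fun d => hN1.scale c d) a⟩
    have hK : 0 ≤ K := mul_nonneg (pow_nonneg sd.le _) (pow_nonneg td.le _)
    refine (h1.trans (mul_le_mul_of_nonneg_left (homM_norm hN2 hr n1 p) hK)).trans (le_of_eq ?_)
    rw [gev_congr_mem (ev := fun q => (hz2 n2 n3 s.subA t.subA (fun c => (c.natAbs : ℤ)) q : ℝ))
      (ev' := fun q => gev (fun row => gev nv0 row ρt) q ρs) (k := K)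
      (fun q hq => val q (hfit q hq))]
    ring
  let pk3 : P2v → ℤ := fun q => packI (2 * H2) (q.map (packI (2 * H3)))
  have hb0 : ∀ q ∈ g, ∀ row ∈ q, ∀ c ∈ row, |c| < H3 := fun q hq row hrow c hc => by
    have h1 := le_nrm_of_mem nok0.nonneg hc
    have h2 := le_nrm_of_mem nok1.nonneg hrow
    have h3 := le_nrm_of_mem nok2.nonneg hq
    simp only [nv0, nv1, nv2] at h1 h2 h3 hnorm
    have : (|c| : ℤ) ≤ hz3 n1 n2 n3 r.subA s.subA t.subA (fun c => (c.natAbs : ℤ)) p := by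
      exact_mod_cast ((h1.trans h2).trans h3).trans hnorm
    omega
  have hb1 : ∀ q ∈ g, ∀ row ∈ q, |packI (2 * H3) row| < H2 := fun q hq row hrow =>
    packI_lt hH (lt_of_lt_of_le one_pos (le_max_left _ _)) (hb0 q hq row hrow)
      ((hsh q hq).2 row hrow).1
  have hb2 : ∀ q ∈ g, |pk3 q| < H1 := fun q hq => by
    refine packI_lt h2p (lt_of_lt_of_le one_pos (le_max_left _ _)) (fun c hc => ?_) ?_
    · obtain ⟨row, hrow, rfl⟩ := List.mem_map.1 hc; exact hb1 q hq row hrow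
    · rw [List.length_map]; exact (hsh q hq).1
  have hZ : hz3 n1 n2 n3 (r.subB (2 * H1)) (s.subB (2 * H2)) (t.subB (2 * H3)) id p =
      packI (2 * H1) (g.map pk3) := by
    refine Int.cast_injective (α := ℝ) ?_
    obtain ⟨a1, a2, a3⟩ := Seg.subB_cast hr (B := 2 * H1) (by omega)
    rw [packI_map_cast, hz3, hVal_cast a2 le_rfl, a3, a1]
    have e : ∀ q, fit2 n2 n3 q = true →
        (hz2 n2 n3 (s.subB (2 * H2)) (t.subB (2 * H3)) id q : ℝ) =
          ev2 ((2 * H2 : ℤ) : ℝ) ((2 * H3 : ℤ) : ℝ) (hom2 (s.cols n2) (t.cols n3) q) :=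
      fun q hq => hz2_value hs ht hq (by omega) (by omega)
    set b2 : ℝ := ((2 * H2 : ℤ) : ℝ)
    set b3 : ℝ := ((2 * H3 : ℤ) : ℝ)
    set K := ((s.q : ℝ) + s.q * b2) ^ (n2 - 1) * ((t.q : ℝ) + t.q * b3) ^ (n3 - 1)
    have hb20 : 0 ≤ b2 := by simp only [b2]; exact_mod_cast (by omega : (0 : ℤ) ≤ 2 * H2)
    have hb30 : 0 ≤ b3 := by simp only [b3]; exact_mod_cast (by omega : (0 : ℤ) ≤ 2 * H3)
    rw [gev_congr_mem (ev' := ev2 (s.at b2) (t.at b3)) (k := K) (fun q hq => by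
      rw [e q (hfit q hq), hom2_eq hs ht (hfit q hq) hb20 hb30]) (r.at ((2 * H1 : ℤ) : ℝ))]
    have e' : ∀ q, (pk3 q : ℝ) = ev2 b2 b3 q := fun q => by
      simp only [pk3, packI_map_cast, ev2, b2]
      congr 1
      funext row
      rw [packI_cast, ev1]
    simp only [e']
    rw [hg, gev_map_comp, gev_congr_mem (ev' := ev2 (s.at b2) (t.at b3)) (k := K)
      (fun q hq => hom2_eq hs ht (hfit' q hq) hb20 hb30),
      homM_eq (ok2 (s.at b2) (t.at b3)) hr le_rfl (by exact_mod_cast (by omega : (0 : ℤ) ≤ 2 * H1))]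
    ring
  have e0 : 2 * H3 = 2 ^ (1 * (k + 1)) := by rw [one_mul, pow_succ', hH3]
  have e1 := two_nextH (lt_of_lt_of_le one_pos (le_max_left 1 (maxLen p.flatten))) e0
  have e2 := two_nextH (lt_of_lt_of_le one_pos (le_max_left 1 (maxLen p))) e1
  have hu : unpackG (unpackG (unpackG (fun d => decide (0 ≤ d)) H3 n3) H2 n2) H1 n1
      (packI (2 * H1) (g.map pk3)) = true := by
    rw [hZ] at hsm
    obtain ⟨a, ha, hc⟩ := smallDigits_sound hsm
    rw [ha]
    refine unpackG_clear ?_ e2 (unpackG_clear ?_ e1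
      (unpackG_clear one_pos e0 (fun a _ => by simp) n3) n2) n1 a hc
    all_goals positivity
  have l1 := unpack_level hb2 hlen hu
  refine Seg.extend ht (f := fun z => ev3 x y z p)
    (continuous_ev3 continuous_const continuous_const continuous_id p) (fun c hc => ?_) hz
  refine Seg.extend hs (f := fun y => ev3 x y (t.at c) p)
    (continuous_ev3 continuous_const continuous_id continuous_const p) (fun b hb => ?_) hy
  refine Seg.extend hr (f := fun x => ev3 x (s.at b) (t.at c) p)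
    (continuous_ev3 continuous_id continuous_const continuous_const p) (fun a ha => ?_) hx
  refine nonneg_of_mul_nonneg_right (a := ((r.q : ℝ) + r.q * a) ^ (n1 - 1)) ?_
    (pow_pos (Seg.den_pos hr ha) _)
  rw [ev3, ← homM_eq (ok2 (s.at b) (t.at c)) hr le_rfl ha]
  refine gev_nonneg (fun q hq => ?_) ha
  have hq' : hom2 (s.cols n2) (t.cols n3) q ∈ g := List.mem_map_of_mem hq
  refine nonneg_of_mul_nonneg_right (a := ((s.q : ℝ) + s.q * b) ^ (n2 - 1) *
    ((t.q : ℝ) + t.q * c) ^ (n3 - 1)) ?_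
    (mul_pos (pow_pos (Seg.den_pos hs hb) _) (pow_pos (Seg.den_pos ht hc) _))
  rw [← hom2_eq hs ht (hfit' q hq) hb hc]
  have l2 := unpack_level (pk := packI (2 * H3)) (hb1 _ hq') (hsh _ hq').1 (l1 _ hq')
  refine gev_nonneg (fun row hrow => gev_nonneg (fun d hd => ?_) hc) hb
  have l3 := unpackG_sound row n3 (hb0 _ hq' row hrow) ((hsh _ hq').2 row hrow).1 (l2 row hrow) d hd
  simp only [decide_eq_true_eq] at l3
  simp only [ev0]
  exact_mod_cast l3

/-- A binary subdivision. -/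
inductive Tree where
  | leaf
  | node (axis : ℕ) (left right : Tree)

/-- Check along a subdivision in three variables. -/
def tree3 : Tree → Seg → Seg → Seg → P3v → Bool
  | .leaf, r, s, t, p => cell3 r s t p
  | .node 0 a b, r, s, t, p => tree3 a r.left s t p && tree3 b r.right s t p
  | .node 1 a b, r, s, t, p => tree3 a r s.left t p && tree3 b r s.right t p
  | .node (_ + 2) a b, r, s, t, p => tree3 a r s t.left p && tree3 b r s t.right p

theorem tree3_sound : ∀ (T : Tree) (r s t : Seg) (p : P3v), tree3 T r s t p = true →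
    ∀ {x y z : ℝ}, r.Mem x → s.Mem y → t.Mem z → 0 ≤ ev3 x y z p
  | .leaf, r, s, t, p, h, _, _, _, hx, hy, hz => cell3_sound h hx hy hz
  | .node 0 a b, r, s, t, p, h, _, _, _, hx, hy, hz => by
    simp only [tree3, Bool.and_eq_true] at h
    rcases Seg.split hx with c | c
    · exact tree3_sound a _ _ _ _ h.1 c hy hz
    · exact tree3_sound b _ _ _ _ h.2 c hy hz
  | .node 1 a b, r, s, t, p, h, _, _, _, hx, hy, hz => by
    simp only [tree3, Bool.and_eq_true] at h
    rcases Seg.split hy with c | c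
    · exact tree3_sound a _ _ _ _ h.1 hx c hz
    · exact tree3_sound b _ _ _ _ h.2 hx c hz
  | .node (_ + 2) a b, r, s, t, p, h, _, _, _, hx, hy, hz => by
    simp only [tree3, Bool.and_eq_true] at h
    rcases Seg.split hz with c | c
    · exact tree3_sound a _ _ _ _ h.1 hx hy c
    · exact tree3_sound b _ _ _ _ h.2 hx hy c

end Vale.Agent.P154.Q3.End.Semi
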