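import Vale.Agent.P154.End.Semi.Scaled

/-!
# Checking a certificate in parts

The expansion of the majorant and the bilinear polynomial are stored, so that the kernel can check
the parts of a certificate as separate declarations.
-/

namespace Vale.Agent.P154.Q3.End.Semi

/-- The first point check of a certificate. -/
def SemiCert.pointCheck (c : SemiCert) (isB : Bool) (q : Tree) : Bool :=
  thenL (thenL (thenL thenI)) (pointPoly c.w0 c.w1 c.w2 c.w3 c.R isB) fun p =>
    tree3 q rootU (rootS isB) rootT p

/-- The bilinear polynomial from a stored expansion of the majorant. -/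
def SemiCert.diffOf (c : SemiCert) (E : P3v) : P4v :=
  o4.add (o4.scale (36 * 729 * 2 ^ (c.N - 3)) c.linTable)
    (o4.scale (-1) (avgTable (grouped c.N (terms3 0 E))))

/-- The parts imply the check. -/
theorem SemiCert.check_of {c : SemiCert} {E : P3v} {D : P4v} (h3 : decide (3 ≤ c.N) = true)
    (hE : (expand c.maj == E) = true)
    (hdeg : ((terms3 0 E).all fun p => decide (deg3 p.1 ≤ c.N)) = true)
    (hA : c.pointCheck false c.qA = true) (hB : c.pointCheck true c.qB = true)
    (hD : (c.diffOf E == D) = true)
    (hz : (D.all fun row => row.all fun m => zero00 m) = true)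
    (h1 : eCheck c.k c.N false false D c.dAA (rootS false) rootT = true)
    (h2 : eCheck c.k c.N false true D c.dAB (rootS true) rootT = true)
    (h3' : eCheck c.k c.N true false D c.dBA (rootS false) rootT = true)
    (h4 : eCheck c.k c.N true true D c.dBB (rootS true) rootT = true) : c.check = true := by
  obtain rfl : expand c.maj = E := beq_iff_eq.1 hE
  obtain rfl : c.diff = D := beq_iff_eq.1 hD
  simp only [SemiCert.pointCheck] at hA hB
  simp only [SemiCert.check, degLe, h3, hdeg, hA, hB, Bool.true_and,
    thenL_eq (thenL_eq (thenL_eq (thenL_eq thenI_eq))), hz, h1, h2, h3', h4]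

end Vale.Agent.P154.Q3.End.Semi
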