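import Vale.Agent.P154.End.Semi.Comb
import Vale.Agent.P154.End.Moments

/-!
# Averages of monomials over the six relabellings

The sum over relabellings of a monomial is a polynomial in `x = p2 / 6` and `y = p3 / 6` by Newton's
recursion. A symmetric polynomial in the products `(1 + r_i) (1 + e_i)` averages to a bilinear
combination of these sums.
-/

namespace Vale.Agent.P154.Q3.End.Semi

open scoped BigOperators

/-- Product in one variable. -/
def mul1 (p q : P1) : P1 := horner o1 (o0.shift 1) (fun c => o1.scale c q) p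
/-- Product in two variables. -/
def mul2 (p q : P2v) : P2v := horner o2 (o1.shift 1) (fun row => q.map (mul1 row)) p

theorem ev1_mul1 (x : ℝ) (p q : P1) : ev1 x (mul1 p q) = ev1 x p * ev1 x q := by
  rw [mul1, horner_eq (ok1 x) (e := fun c => ev0 c * ev1 x q) (s := x)
    (fun r => by rw [ev1, gev_shift ok0, ev1]; ring) (fun c => (ok1 x).scale c q)]
  rw [gev_congr_mem (ev' := ev0) (k := ev1 x q) (fun c _ => by ring), mul_comm]
  rfl

theorem ev2_mul2 (x y : ℝ) (p q : P2v) : ev2 x y (mul2 p q) = ev2 x y p * ev2 x y q := by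
  rw [mul2, horner_eq (ok2 x y) (e := fun r => ev1 y r * ev2 x y q) (s := x)
    (fun r => by rw [ev2, gev_shift (ok1 y), ev2]; ring)
    (fun row => gev_map (ev1_mul1 y row) x q)]
  rw [gev_congr_mem (ev' := ev1 y) (k := ev2 x y q) (fun c _ => by ring), mul_comm]
  rfl

/-- The elementary symmetric functions of three numbers, as polynomials. -/
structure Elem where
  e1 : ℤ
  e2 : P2v
  e3 : P2v

/-- Three consecutive power sums. -/
def ps3 (E : Elem) : ℕ → P2v × P2v × P2v
  | 0 => ([[3]], [[E.e1]], o2.add [[E.e1 * E.e1]] (o2.scale (-2) E.e2))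
  | n + 1 =>
    match ps3 E n with
    | (a, b, c) => (b, c, o2.add (o2.add (o2.scale E.e1 c) (o2.scale (-1) (mul2 E.e2 b)))
        (mul2 E.e3 a))

/-- Power of a polynomial. -/
def pow2 (p : P2v) : ℕ → P2v
  | 0 => [[1]]
  | n + 1 => mul2 p (pow2 p n)

/-- The sum over relabellings of the monomial of exponents `(i + m, j + m, m)`. -/
def symT (E : Elem) (a : Exp3) : P2v :=
  mul2 (pow2 E.e3 a.2.2)
    (o2.add (mul2 (ps3 E a.1).1 (ps3 E a.2.1).1) (o2.scale (-1) (ps3 E (a.1 + a.2.1)).1))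

/-- The elementary functions describe the numbers `w`. -/
def Elem.Spec (E : Elem) (x y : ℝ) (w : Fin 3 → ℝ) : Prop :=
  (E.e1 : ℝ) = w 0 + w 1 + w 2 ∧ ev2 x y E.e2 = w 0 * w 1 + w 0 * w 2 + w 1 * w 2 ∧
    ev2 x y E.e3 = w 0 * w 1 * w 2

theorem ev2_const (x y : ℝ) (c : ℤ) : ev2 x y [[c]] = c := by simp [ev2, ev1, gev, ev0]

theorem ps3_eq {E : Elem} {x y : ℝ} {w : Fin 3 → ℝ} (h : E.Spec x y w) : ∀ n,
    ev2 x y (ps3 E n).1 = w 0 ^ n + w 1 ^ n + w 2 ^ n ∧
      ev2 x y (ps3 E n).2.1 = w 0 ^ (n + 1) + w 1 ^ (n + 1) + w 2 ^ (n + 1) ∧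
      ev2 x y (ps3 E n).2.2 = w 0 ^ (n + 2) + w 1 ^ (n + 2) + w 2 ^ (n + 2) := by
  obtain ⟨h1, h2, h3⟩ := h
  intro n
  induction n with
  | zero =>
    simp only [ps3, (ok2 x y).add, (ok2 x y).scale, ev2_const, h2]
    push_cast
    rw [h1]
    refine ⟨by norm_num, by ring, by ring⟩
  | succ n ih =>
    obtain ⟨a, b, c⟩ := ih
    refine ⟨b, c, ?_⟩
    simp only [ps3, (ok2 x y).add, (ok2 x y).scale, ev2_mul2, h2, h3, a, b, c]
    push_cast
    rw [h1]
    ring

theorem ev2_pow2 (x y : ℝ) (p : P2v) : ∀ n, ev2 x y (pow2 p n) = ev2 x y p ^ n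
  | 0 => by rw [pow2, ev2_const]; simp
  | n + 1 => by rw [pow2, ev2_mul2, ev2_pow2 x y p n, pow_succ]; ring

/-- The sum of a monomial over the six relabellings. -/
def symSum (w : Fin 3 → ℝ) (a : Exp3) : ℝ := ∑ k, monL a fun i => w (six k i)

/-- Exponents after removing the smallest one. -/
def symKey (a : Exp3) : Exp3 :=
  if a.2.2 ≤ a.1 ∧ a.2.2 ≤ a.2.1 then
    (max (a.1 - a.2.2) (a.2.1 - a.2.2), min (a.1 - a.2.2) (a.2.1 - a.2.2), a.2.2)
  else if a.2.1 ≤ a.1 then
    (max (a.1 - a.2.1) (a.2.2 - a.2.1), min (a.1 - a.2.1) (a.2.2 - a.2.1), a.2.1)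
  else (max (a.2.1 - a.1) (a.2.2 - a.1), min (a.2.1 - a.1) (a.2.2 - a.1), a.1)

theorem symSum_shift (w : Fin 3 → ℝ) (i j m : ℕ) : symSum w (i + m, j + m, m) =
    (w 0 * w 1 * w 2) ^ m * ((w 0 ^ i + w 1 ^ i + w 2 ^ i) * (w 0 ^ j + w 1 ^ j + w 2 ^ j) -
      (w 0 ^ (i + j) + w 1 ^ (i + j) + w 2 ^ (i + j))) := by
  simp only [symSum, Fin.sum_univ_six, six, monL, Matrix.cons_val, pow_add, mul_pow]
  ring

theorem symSum_perm (w : Fin 3 → ℝ) (A B C : ℕ) :
    symSum w (A, B, C) = symSum w (B, A, C) ∧ symSum w (A, B, C) = symSum w (A, C, B) ∧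
      symSum w (A, B, C) = symSum w (B, C, A) := by
  simp only [symSum, Fin.sum_univ_six, six, monL, Matrix.cons_val]
  refine ⟨?_, ?_, ?_⟩ <;> ring

theorem symSum_key (w : Fin 3 → ℝ) (a : Exp3) : symSum w a =
    symSum w ((symKey a).1 + (symKey a).2.2, (symKey a).2.1 + (symKey a).2.2, (symKey a).2.2) := by
  have sorted : ∀ i j m : ℕ, symSum w (i + m, j + m, m) =
      symSum w (max i j + m, min i j + m, m) := by
    intro i j m
    rcases le_total i j with h | h
    · rw [max_eq_right h, min_eq_left h, (symSum_perm w (i + m) (j + m) m).1]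
    · rw [max_eq_left h, min_eq_right h]
  obtain ⟨A, B, C⟩ := a
  obtain ⟨-, pb, -⟩ := symSum_perm w A B C
  obtain ⟨-, -, pc⟩ := symSum_perm w A B C
  unfold symKey
  split_ifs with h1 h2
  · have := sorted (A - C) (B - C) C
    rwa [Nat.sub_add_cancel h1.1, Nat.sub_add_cancel h1.2] at this
  · have hB : B ≤ C := by
      by_contra hh
      exact h1 ⟨show C ≤ A by simp only at h2; omega, show C ≤ B by omega⟩
    have := sorted (A - B) (C - B) B
    simp only at h2
    rw [Nat.sub_add_cancel h2, Nat.sub_add_cancel hB] at this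
    exact pb.trans this
  · simp only at h1 h2
    have hA : A ≤ B ∧ A ≤ C := ⟨by omega, by omega⟩
    have := sorted (B - A) (C - A) A
    rw [Nat.sub_add_cancel hA.1, Nat.sub_add_cancel hA.2] at this
    exact pc.trans this

theorem symT_eq {E : Elem} {x y : ℝ} {w : Fin 3 → ℝ} (h : E.Spec x y w) (a : Exp3) :
    ev2 x y (symT E (symKey a)) = symSum w a := by
  rw [symSum_key, symSum_shift, symT, ev2_mul2, ev2_pow2, (ok2 x y).add, (ok2 x y).scale,
    ev2_mul2, (ps3_eq h _).1, (ps3_eq h _).1, (ps3_eq h _).1, h.2.2]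
  push_cast
  ring

theorem six_shift (h : ℝ → ℝ → ℝ → ℝ) (e : Fin 3 → ℝ) (j : Fin 6) :
    ∑ k, h (e (six k (six j 0))) (e (six k (six j 1))) (e (six k (six j 2))) =
      ∑ k, h (e (six k 0)) (e (six k 1)) (e (six k 2)) := by
  fin_cases j <;> simp [Fin.sum_univ_six, six] <;> ring

/-- A symmetric combination of monomials, evaluated on products, averages bilinearly. -/
theorem sum_six_products {ι : Type} (s : List ι) (c : ι → ℝ) (a : ι → Exp3) (r e : Fin 3 → ℝ)
    (hsym : ∀ (v : Fin 3 → ℝ) (j : Fin 6),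
      (s.map fun t => c t * monL (a t) fun i => v (six j i)).sum =
        (s.map fun t => c t * monL (a t) v).sum) :
    6 * ∑ k, (s.map fun t => c t * monL (a t) fun i => r i * e (six k i)).sum =
      (s.map fun t => c t * (symSum r (a t) * symSum e (a t))).sum := by
  have h1 : 6 * ∑ k, (s.map fun t => c t * monL (a t) fun i => r i * e (six k i)).sum =
      ∑ k, ∑ j, (s.map fun t => c t * monL (a t) fun i => r (six j i) * e (six k (six j i))).sum := by
    rw [Finset.mul_sum]
    refine Finset.sum_congr rfl fun k _ => ?_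
    rw [Finset.sum_congr rfl fun j _ => hsym (fun i => r i * e (six k i)) j]
    simp
  rw [h1, Finset.sum_comm]
  clear h1 hsym
  induction s with
  | nil => simp
  | cons t s ih =>
    simp only [List.map_cons, List.sum_cons, Finset.sum_add_distrib, ih]
    congr 1
    rw [symSum, Finset.sum_mul, Finset.mul_sum]
    refine Finset.sum_congr rfl fun j _ => ?_
    have := six_shift (fun p q u => (r (six j 0) * p) ^ (a t).1 * (r (six j 1) * q) ^ (a t).2.1 *
      (r (six j 2) * u) ^ (a t).2.2) e j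
    rw [← Finset.mul_sum]
    simp only [monL] at this ⊢
    rw [this, symSum, Finset.mul_sum]
    simp only [Finset.mul_sum]
    refine Finset.sum_congr rfl fun k _ => ?_
    simp only [monL, mul_pow]
    ring

end Vale.Agent.P154.Q3.End.Semi
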