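import Vale.Agent.P154.End.Semi.Core

/-!
# The two pieces of the triangle and their tables

In the invariants `x = p2 / 6`, `y = p3 / 6` the triangle is the image of two boxes: `x = σ ^ 2`
with `y = σ ^ 3 (2 τ - 1)` for `σ ≤ 1 / 2`, and
`2 y = 3 σ ^ 2 - 1 + τ (2 σ ^ 3 - 3 σ ^ 2 + 1)` for `σ ≥ 1 / 2`.
-/

namespace Vale.Agent.P154.Q3.End.Semi

/-- The coordinate `p3 / 6` of a parameter point. -/
noncomputable def pieceY (isB : Bool) (σ τ : ℝ) : ℝ :=
  if isB then (3 * σ ^ 2 - 1 + τ * (2 * σ ^ 3 - 3 * σ ^ 2 + 1)) / 2 else σ ^ 3 * (2 * τ - 1)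

/-- Product with twice the second coordinate of the upper piece. -/
def mulY (p : P2v) : P2v :=
  o2.add (o2.add (p.map (o0.mulLin (-1) 1)) (o1.shift 2 (p.map (o0.mulLin 3 (-3)))))
    (o1.shift 3 (p.map (o0.mulLin 0 2)))

/-- Powers of twice the second coordinate, times `c`. -/
def powY (c : ℤ) : ℕ → P2v
  | 0 => [[c]]
  | n + 1 => mulY (powY c n)

/-- Eight times a monomial of the coordinates, as a polynomial in the parameters. -/
def rawEntry (isB drop : Bool) (i j : ℕ) : P2v :=
  if isB then o1.shift (2 * i) (powY (8 / 2 ^ j) j)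
  else if drop then
    (if i = 0 ∧ j = 0 then [] else o1.shift (2 * i + 3 * j - 2) [o0.linPow (-1) 2 8 j])
  else o1.shift (2 * i + 3 * j) [o0.linPow (-1) 2 8 j]

/-- A table entry on a cell. -/
def entry (isB drop : Bool) (cS cT : List P1) (i j : ℕ) : P2v :=
  hom2 cS cT (rawEntry isB drop i j)

/-- Number of entries in a row. -/
def rowN (N i : ℕ) : ℕ := min 4 ((N - 2 * i) / 3 + 1)

/-- The table of a substitution. -/
def tableOf (isB drop : Bool) (N : ℕ) (cS cT : List P1) : List (List P2v) :=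
  (List.range (N / 2 + 1)).map fun i =>
    (List.range (rowN N i)).map fun j => entry isB drop cS cT i j

/-- The table on a cell. -/
def table (isB drop : Bool) (s t : Seg) (N ns nt : ℕ) : List (List P2v) :=
  tableOf isB drop N (s.cols ns) (t.cols nt)

/-- The entries fit the announced shape. -/
def tableOK (isB drop : Bool) (s t : Seg) (N ns nt : ℕ) : Bool :=
  s.ok && t.ok &&
    (List.range (N / 2 + 1)).all fun i => (List.range (rowN N i)).all fun j =>
      fit2 ns nt (rawEntry isB drop i j)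

/-- The pairs of a table. -/
def tablePair (isB drop : Bool) (N ns nt : ℕ) (a b aA bA : ℤ × ℤ) : List (List (ℤ × ℤ)) :=
  (List.range (N / 2 + 1)).map fun i =>
    (List.range (rowN N i)).map fun j => entryPair ns nt a b aA bA (rawEntry isB drop i j)

theorem tablePair_rel {isB drop : Bool} {s t : Seg} {N ns nt : ℕ}
    (h : tableOK isB drop s t N ns nt = true) {A B : ℤ} (hA : 0 ≤ A) (hB : 0 ≤ B) :
    List.Forall₂ (List.Forall₂ (RelT (A : ℝ) (B : ℝ) ns nt)) (table isB drop s t N ns nt)
      (tablePair isB drop N ns nt (s.subB A) (t.subB B) s.subA t.subA) := by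
  simp only [tableOK, Bool.and_eq_true, List.all_eq_true, List.mem_range] at h
  obtain ⟨⟨hs, ht⟩, hall⟩ := h
  refine forall₂_map fun i hi => forall₂_map fun j hj => ?_
  have hf := hall i (List.mem_range.1 hi) j (List.mem_range.1 hj)
  exact ⟨hz2_value hs ht hf hA hB, hz2_norm hs ht hf, hom2_shape s t hf⟩

theorem ev2_mulY (σ τ : ℝ) (p : P2v) :
    ev2 σ τ (mulY p) = 2 * pieceY true σ τ * ev2 σ τ p := by
  have e : ∀ a b : ℤ, gev (ev1 τ) (p.map (o0.mulLin a b)) σ = ((a : ℝ) + b * τ) * ev2 σ τ p :=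
    fun a b => gev_map (fun r => gev_mulLin ok0 a b τ r) σ p
  rw [mulY, (ok2 σ τ).add, (ok2 σ τ).add, ev2, ev2, ev2, gev_shift (ok1 τ), gev_shift (ok1 τ),
    e, e, e, pieceY, if_pos rfl]
  push_cast
  ring

theorem ev2_powY (σ τ : ℝ) (c : ℤ) : ∀ n,
    ev2 σ τ (powY c n) = (2 * pieceY true σ τ) ^ n * c
  | 0 => by simp [powY, ev2, ev1, gev, ev0]
  | n + 1 => by rw [powY, ev2_mulY, ev2_powY σ τ c n]; ring

theorem ev2_rawEntry (isB drop : Bool) (σ τ : ℝ) {i j : ℕ} (hj : j < 4)
    (h : drop = true → isB = true ∨ ¬(i = 0 ∧ j = 0)) :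
    (if isB = false ∧ drop = true then σ ^ 2 else 1) * ev2 σ τ (rawEntry isB drop i j) =
      8 * (σ ^ 2) ^ i * pieceY isB σ τ ^ j := by
  cases isB
  · have e : ev1 τ (o0.linPow (-1) 2 8 j) = (2 * τ - 1) ^ j * 8 := by
      rw [ev1, gev_linPow ok0]; simp only [ev0]; push_cast; ring
    cases drop
    · simp only [rawEntry, Bool.false_eq_true, if_false, and_false, one_mul, ev2,
        gev_shift (ok1 τ), pieceY, gev, e, mul_zero, add_zero, mul_pow, ← pow_mul]
      ring
    · have hij : ¬(i = 0 ∧ j = 0) := by simpa using h rfl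
      simp only [rawEntry, Bool.false_eq_true, if_false, if_true, and_self, hij, ev2,
        gev_shift (ok1 τ), pieceY, gev, e, mul_zero, add_zero, mul_pow, ← pow_mul]
      have : σ ^ 2 * σ ^ (2 * i + 3 * j - 2) = σ ^ (2 * i) * σ ^ (3 * j) := by
        rw [← pow_add, ← pow_add]; congr 1; omega
      linear_combination (2 * τ - 1) ^ j * 8 * this
  · simp only [rawEntry, if_true, Bool.true_eq_false, false_and, if_false, one_mul, ev2,
      gev_shift (ok1 τ)]
    rw [← ev2, ev2_powY, pow_mul]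
    interval_cases j <;> norm_num <;> ring

/-- The common factor of the entries. -/
noncomputable def tableK (isB drop : Bool) (s t : Seg) (ns nt : ℕ) (a b : ℝ) : ℝ :=
  8 * ((s.q : ℝ) + s.q * a) ^ (ns - 1) * ((t.q : ℝ) + t.q * b) ^ (nt - 1) /
    (if isB = false ∧ drop = true then s.at a ^ 2 else 1)

theorem entry_eq {isB drop : Bool} {s t : Seg} {N ns nt i j : ℕ}
    (h : tableOK isB drop s t N ns nt = true) (hi : i < N / 2 + 1) (hj : j < rowN N i) {a b : ℝ}
    (ha : 0 ≤ a) (hb : 0 ≤ b) (h0 : drop = true → isB = true ∨ ¬(i = 0 ∧ j = 0))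
    (hσ : isB = false ∧ drop = true → s.at a ≠ 0) :
    ev2 a b (entry isB drop (s.cols ns) (t.cols nt) i j) = tableK isB drop s t ns nt a b *
      (s.at a ^ 2) ^ i * pieceY isB (s.at a) (t.at b) ^ j := by
  simp only [tableOK, Bool.and_eq_true, List.all_eq_true, List.mem_range] at h
  obtain ⟨⟨hs, ht⟩, hall⟩ := h
  have e := hom2_eq hs ht (hall i hi j hj) ha hb
  have raw := ev2_rawEntry isB drop (s.at a) (t.at b) (lt_of_lt_of_le hj (min_le_left _ _)) h0
  have hA := Seg.den_pos hs ha
  have hB := Seg.den_pos ht hb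
  have hne : (if isB = false ∧ drop = true then s.at a ^ 2 else 1) ≠ 0 := by
    split_ifs with hc
    · exact pow_ne_zero 2 (hσ hc)
    · exact one_ne_zero
  simp only [entry, tableK]
  rw [e, div_mul_eq_mul_div, div_mul_eq_mul_div, eq_div_iff hne]
  linear_combination (((s.q : ℝ) + s.q * a) ^ (ns - 1) * ((t.q : ℝ) + t.q * b) ^ (nt - 1)) * raw

theorem table_spec {isB : Bool} {s t : Seg} {N ns nt : ℕ}
    (h : tableOK isB false s t N ns nt = true) {a b : ℝ} (ha : 0 ≤ a) (hb : 0 ≤ b) :
    TblSpec (ev2 a b) (tableK isB false s t ns nt a b) (s.at a ^ 2)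
      (pieceY isB (s.at a) (t.at b)) (table isB false s t N ns nt) :=
  tblSpec_range _ _ _ _ _ _ fun _ hi => rowSpec_range _ _ _ _ _ fun _ hj =>
    entry_eq h hi hj ha hb (by simp) (by simp)

/-- The constant coefficient is zero. -/
def zero00 : P2v → Bool
  | (c :: _) :: _ => decide (c = 0)
  | _ => true

theorem comb_table {isB drop : Bool} {s t : Seg} {N ns nt : ℕ}
    (h : tableOK isB drop s t N ns nt = true) {a b : ℝ} (ha : 0 ≤ a) (hb : 0 ≤ b) {m : P2v}
    (h0 : drop = true → zero00 m = true) (hσ : isB = false ∧ drop = true → s.at a ≠ 0)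
    (hf : fits m (table isB drop s t N ns nt) = true) :
    ev2 a b (comb2 o2 o2.scale m (table isB drop s t N ns nt)) =
      tableK isB drop s t ns nt a b * ev2 (s.at a ^ 2) (pieceY isB (s.at a) (t.at b)) m := by
  set X := s.at a ^ 2
  set Y := pieceY isB (s.at a) (t.at b)
  set K := tableK isB drop s t ns nt a b
  have hs : ∀ (c : ℤ) (g : P2v), ev2 a b (o2.scale c g) = ev0 c * ev2 a b g := (ok2 a b).scale
  have ok := ok2 a b
  have es : ∀ i j, i < N / 2 + 1 → j < rowN N i → ¬(i = 0 ∧ j = 0) →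
      ev2 a b (entry isB drop (s.cols ns) (t.cols nt) i j) = K * X ^ i * Y ^ j :=
    fun i j hi hj hij => entry_eq h hi hj ha hb (fun _ => Or.inr hij) hσ
  have hrest : TblSpec (ev2 a b) (K * X) X Y ((List.range (N / 2)).map fun i =>
      (List.range (rowN N (i + 1))).map fun j => entry isB drop (s.cols ns) (t.cols nt) (i + 1) j) :=
    tblSpec_range _ _ _ _ _ _ fun i hi => rowSpec_range _ _ _ _ _ fun j hj => by
      rw [es (i + 1) j (by omega) hj (by omega)]; ring
  have hrow : RowSpec (ev2 a b) (K * Y) Y ((List.range (rowN N 0 - 1)).map fun j =>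
      entry isB drop (s.cols ns) (t.cols nt) 0 (j + 1)) :=
    rowSpec_range _ _ _ _ _ fun j hj => by
      rw [es 0 (j + 1) (by omega) (by omega) (by omega)]; ring
  have htab : table isB drop s t N ns nt =
      (entry isB drop (s.cols ns) (t.cols nt) 0 0 :: (List.range (rowN N 0 - 1)).map fun j =>
        entry isB drop (s.cols ns) (t.cols nt) 0 (j + 1)) :: (List.range (N / 2)).map fun i =>
      (List.range (rowN N (i + 1))).map fun j => entry isB drop (s.cols ns) (t.cols nt) (i + 1) j := by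
    have hpos : rowN N 0 = (rowN N 0 - 1) + 1 := by unfold rowN; omega
    rw [table, tableOf, List.range_succ_eq_map, List.map_cons, List.map_map]
    conv_lhs => rw [hpos, List.range_succ_eq_map, List.map_cons, List.map_map]
    rfl
  rw [htab] at hf ⊢
  rcases m with _ | ⟨r, rs⟩
  · rw [comb2, comb.eq_def]
    simp only [ok.zero]
    simp [ev2, gev]
  simp only [fits, Bool.and_eq_true, decide_eq_true_eq] at hf
  have h2 := comb2_eval ok hs rs _ (K * X) hrest hf.2
  simp only [comb2] at h2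
  rcases r with _ | ⟨c, cs⟩
  · simp only [comb2, comb, ok.add, ok.zero, h2]
    simp only [ev2, gev]
    simp only [ev1, gev]
    rw [show (fun r => gev ev0 r Y) = ev1 Y from rfl]
    ring
  have h1 := comb_eval ok hs cs _ (K * Y) hrow (Nat.le_of_succ_le_succ hf.1)
  have h00 : ev0 c * ev2 a b (entry isB drop (s.cols ns) (t.cols nt) 0 0) = K * ev0 c := by
    by_cases hc : drop = true
    · have : c = 0 := by simpa [zero00] using h0 hc
      simp [this, ev0]
    · rw [entry_eq h (Nat.succ_pos _) (by unfold rowN; omega) ha hb (fun hh => absurd hh hc) hσ]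
      ring
  simp only [comb2, comb, ok.add, hs, h1, h2, h00]
  simp only [ev2, gev]
  simp only [ev1, gev]
  rw [show (fun r => gev ev0 r Y) = ev1 Y from rfl]
  ring

end Vale.Agent.P154.Q3.End.Semi
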