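import Vale.Agent.P154.End.Semi.Main

/-!
# The templates of a list of checked pointwise certificates
-/

namespace Vale.Agent.P154.Q3.End.Semi

/-- The template of a pointwise certificate. -/
def SemiCert.toTpl (s : SemiCert) : Tpl :=
  ⟨[s.w0, s.w1, s.w2, s.w3], (List.range 4).map (s.coef 0),
    (List.range 4).map fun i => (List.range 4).map (s.coef (i + 1))⟩

/-- The templates of checked certificates are valid. -/
theorem valid_of_certs {L : List SemiCert} (hL : ∀ s ∈ L, s.check = true) :
    ∀ k < (L.map SemiCert.toTpl).length, (tpl (L.map SemiCert.toTpl) k).Valid := by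
  intro k hk
  have hk' : k < L.length := by simpa using hk
  have e : tpl (L.map SemiCert.toTpl) k = L[k].toTpl := by
    rw [tpl, List.getD_eq_getElem _ _ hk, List.getElem_map]
  rw [e]
  exact SemiCert.valid (hL _ (List.getElem_mem hk')) rfl rfl rfl

end Vale.Agent.P154.Q3.End.Semi
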